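import Mathlib

/-!
Anisotropic bounds for families of functions on plane domains: a family is of class `(A, ν)` when
the derivative of orders `(a, b)` is at most `A ν ^ a` up to a fixed power of a growing scale `Λ`.
The classes are closed under sums, products, both partial derivatives and inverses.
-/

namespace Vale.Agent.P205.Generic

open scoped ContDiff
open Set

noncomputable section

variable {V : Type*} [NormedAddCommGroup V] [NormedSpace ℝ V]
variable {W : Type*} [NormedAddCommGroup W] [NormedSpace ℝ W]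
variable {X : Type*} [NormedAddCommGroup X] [NormedSpace ℝ X]

/-- Partial derivative in the first coordinate. -/
def dx (g : ℝ × ℝ → V) (p : ℝ × ℝ) : V := fderiv ℝ g p (1, 0)

/-- Partial derivative in the second coordinate. -/
def dy (g : ℝ × ℝ → V) (p : ℝ × ℝ) : V := fderiv ℝ g p (0, 1)

/-- Mixed partial derivative, the second coordinate outside. -/
def pd (a b : ℕ) (g : ℝ × ℝ → V) : ℝ × ℝ → V := dy^[b] (dx^[a] g)

section Calc

variable {Ω : Set (ℝ × ℝ)} {f g : ℝ × ℝ → V}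

lemma contDiffOn_dx (hΩ : IsOpen Ω) (hf : ContDiffOn ℝ ∞ f Ω) : ContDiffOn ℝ ∞ (dx f) Ω :=
  (hf.fderiv_of_isOpen hΩ (m := ∞) le_rfl).clm_apply contDiffOn_const

lemma contDiffOn_dy (hΩ : IsOpen Ω) (hf : ContDiffOn ℝ ∞ f Ω) : ContDiffOn ℝ ∞ (dy f) Ω :=
  (hf.fderiv_of_isOpen hΩ (m := ∞) le_rfl).clm_apply contDiffOn_const

lemma contDiffOn_dx_iter (hΩ : IsOpen Ω) (hf : ContDiffOn ℝ ∞ f Ω) :
    ∀ a, ContDiffOn ℝ ∞ (dx^[a] f) Ω
  | 0 => hf
  | a + 1 => by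
      rw [Function.iterate_succ_apply']
      exact contDiffOn_dx hΩ (contDiffOn_dx_iter hΩ hf a)

lemma eqOn_dx (hΩ : IsOpen Ω) (h : EqOn f g Ω) : EqOn (dx f) (dx g) Ω := fun p hp => by
  unfold dx
  rw [(Filter.eventuallyEq_of_mem (hΩ.mem_nhds hp) h).fderiv_eq]

lemma eqOn_dy (hΩ : IsOpen Ω) (h : EqOn f g Ω) : EqOn (dy f) (dy g) Ω := fun p hp => by
  unfold dy
  rw [(Filter.eventuallyEq_of_mem (hΩ.mem_nhds hp) h).fderiv_eq]

lemma eqOn_dx_iter (hΩ : IsOpen Ω) (h : EqOn f g Ω) : ∀ a, EqOn (dx^[a] f) (dx^[a] g) Ω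
  | 0 => h
  | a + 1 => by
      simp only [Function.iterate_succ_apply']
      exact eqOn_dx hΩ (eqOn_dx_iter hΩ h a)

lemma eqOn_dy_iter (hΩ : IsOpen Ω) (h : EqOn f g Ω) : ∀ b, EqOn (dy^[b] f) (dy^[b] g) Ω
  | 0 => h
  | b + 1 => by
      simp only [Function.iterate_succ_apply']
      exact eqOn_dy hΩ (eqOn_dy_iter hΩ h b)

lemma eqOn_pd (hΩ : IsOpen Ω) (h : EqOn f g Ω) (a b : ℕ) : EqOn (pd a b f) (pd a b g) Ω :=
  eqOn_dy_iter hΩ (eqOn_dx_iter hΩ h a) b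

lemma differentiableAt_of (hΩ : IsOpen Ω) (hf : ContDiffOn ℝ ∞ f Ω) {p : ℝ × ℝ} (hp : p ∈ Ω) :
    DifferentiableAt ℝ f p :=
  (hf.contDiffAt (hΩ.mem_nhds hp)).differentiableAt (by simp)

lemma dx_dy_comm (hΩ : IsOpen Ω) (hf : ContDiffOn ℝ ∞ f Ω) :
    EqOn (dx (dy f)) (dy (dx f)) Ω := fun p hp => by
  have h := hf.contDiffAt (hΩ.mem_nhds hp)
  have hs : IsSymmSndFDerivAt ℝ f p :=
    h.isSymmSndFDerivAt (by rw [minSmoothness_of_isRCLikeNormedField]; exact WithTop.coe_le_coe.mpr le_top)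
  have hd : DifferentiableAt ℝ (fderiv ℝ f) p :=
    (h.fderiv_right (m := ∞) le_rfl).differentiableAt (by simp)
  have e : ∀ v u : ℝ × ℝ, fderiv ℝ (fun q => fderiv ℝ f q v) p u = fderiv ℝ (fderiv ℝ f) p u v :=
    fun v u => by
      rw [fderiv_clm_apply hd (differentiableAt_const v)]
      simp
  unfold dx dy
  rw [e, e, hs.eq]

lemma dx_iter_dy (hΩ : IsOpen Ω) (hf : ContDiffOn ℝ ∞ f Ω) :
    ∀ a, EqOn (dx^[a] (dy f)) (dy (dx^[a] f)) Ω
  | 0 => fun _ _ => rfl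
  | a + 1 => fun p hp => by
      simp only [Function.iterate_succ_apply']
      exact (eqOn_dx hΩ (dx_iter_dy hΩ hf a) hp).trans
        (dx_dy_comm hΩ (contDiffOn_dx_iter hΩ hf a) hp)

lemma pd_dx (a b : ℕ) : pd a b (dx f) = pd (a + 1) b f := rfl

lemma pd_dy (hΩ : IsOpen Ω) (hf : ContDiffOn ℝ ∞ f Ω) (a b : ℕ) :
    EqOn (pd a b (dy f)) (pd a (b + 1) f) Ω := fun p hp => by
  unfold pd
  rw [Function.iterate_succ_apply (f := dy) (n := b)]
  exact eqOn_dy_iter hΩ (dx_iter_dy hΩ hf a) b hp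

lemma dx_add (hΩ : IsOpen Ω) (hf : ContDiffOn ℝ ∞ f Ω) (hg : ContDiffOn ℝ ∞ g Ω) :
    EqOn (dx (f + g)) (dx f + dx g) Ω := fun p hp => by
  simp only [dx, Pi.add_apply]
  rw [fderiv_add (differentiableAt_of hΩ hf hp) (differentiableAt_of hΩ hg hp)]
  rfl

lemma dy_add (hΩ : IsOpen Ω) (hf : ContDiffOn ℝ ∞ f Ω) (hg : ContDiffOn ℝ ∞ g Ω) :
    EqOn (dy (f + g)) (dy f + dy g) Ω := fun p hp => by
  simp only [dy, Pi.add_apply]
  rw [fderiv_add (differentiableAt_of hΩ hf hp) (differentiableAt_of hΩ hg hp)]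
  rfl

lemma contDiffOn_pd (hΩ : IsOpen Ω) (hf : ContDiffOn ℝ ∞ f Ω) (a : ℕ) :
    ∀ b, ContDiffOn ℝ ∞ (pd a b f) Ω
  | 0 => contDiffOn_dx_iter hΩ hf a
  | b + 1 => by
      show ContDiffOn ℝ ∞ (dy^[b + 1] (dx^[a] f)) Ω
      rw [Function.iterate_succ_apply']
      exact contDiffOn_dy hΩ (contDiffOn_pd hΩ hf a b)

lemma pd_add (hΩ : IsOpen Ω) (hf : ContDiffOn ℝ ∞ f Ω) (hg : ContDiffOn ℝ ∞ g Ω) (a : ℕ) :
    ∀ b, EqOn (pd a b (f + g)) (pd a b f + pd a b g) Ω := by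
  have ha : EqOn (dx^[a] (f + g)) (dx^[a] f + dx^[a] g) Ω := by
    induction a with
    | zero => exact fun _ _ => rfl
    | succ a ih =>
      intro p hp
      simp only [Function.iterate_succ_apply']
      exact (eqOn_dx hΩ ih hp).trans
        (dx_add hΩ (contDiffOn_dx_iter hΩ hf a) (contDiffOn_dx_iter hΩ hg a) hp)
  intro b
  induction b with
  | zero => exact ha
  | succ b ih =>
    intro p hp
    show (dy^[b + 1] (dx^[a] (f + g))) p = (dy^[b + 1] (dx^[a] f) + dy^[b + 1] (dx^[a] g)) p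
    simp only [Function.iterate_succ_apply']
    exact (eqOn_dy hΩ ih hp).trans
      (dy_add hΩ (contDiffOn_pd hΩ hf a b) (contDiffOn_pd hΩ hg a b) hp)

end Calc

variable {ι : Type*}

/-- The index set, the domains and the growing scale. -/
structure Scale (ι : Type*) where
  /-- The open domain of index `i`. -/
  dom : ι → Set (ℝ × ℝ)
  /-- The scale absorbing constants. -/
  big : ι → ℝ
  isOpen : ∀ i, IsOpen (dom i)
  two_le : ∀ i, 2 ≤ big i

variable (S : Scale ι)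

lemma Scale.one_le (i : ι) : 1 ≤ S.big i := by linarith [S.two_le i]

/-- The bound for one order of derivatives. -/
def BoundAt (A ν : ι → ℝ) (g : ι → ℝ × ℝ → V) (a b : ℕ) : Prop :=
  ∃ C : ℕ, ∀ i, ∀ p ∈ S.dom i, ‖pd a b (g i) p‖ ≤ S.big i ^ C * A i * ν i ^ a

/-- A family of class `(A, ν)`. -/
structure Bd (A ν : ι → ℝ) (g : ι → ℝ × ℝ → V) : Prop where
  smooth : ∀ i, ContDiffOn ℝ ∞ (g i) (S.dom i)
  bound : ∀ a b, BoundAt S A ν g a b

variable {S}
variable {A B ν ν' : ι → ℝ} {f g : ι → ℝ × ℝ → V}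

lemma BoundAt.add {a b : ℕ} (hA : ∀ i, 0 ≤ A i) (hν : ∀ i, 0 ≤ ν i)
    (hfs : ∀ i, ContDiffOn ℝ ∞ (f i) (S.dom i)) (hgs : ∀ i, ContDiffOn ℝ ∞ (g i) (S.dom i))
    (hf : BoundAt S A ν f a b) (hg : BoundAt S A ν g a b) :
    BoundAt S A ν (fun i => f i + g i) a b := by
  obtain ⟨C, hC⟩ := hf
  obtain ⟨D, hD⟩ := hg
  refine ⟨max C D + 1, fun i p hp => ?_⟩
  rw [pd_add (S.isOpen i) (hfs i) (hgs i) a b hp, Pi.add_apply]
  refine (norm_add_le _ _).trans ?_
  have h1 := S.one_le i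
  have hT : 0 ≤ S.big i ^ max C D * A i * ν i ^ a :=
    mul_nonneg (mul_nonneg (by positivity) (hA i)) (pow_nonneg (hν i) a)
  have e : ∀ E, E ≤ max C D → S.big i ^ E * A i * ν i ^ a ≤ S.big i ^ max C D * A i * ν i ^ a :=
    fun E hE => mul_le_mul_of_nonneg_right
      (mul_le_mul_of_nonneg_right (pow_le_pow_right₀ h1 hE) (hA i)) (pow_nonneg (hν i) a)
  have e2 : S.big i ^ (max C D + 1) * A i * ν i ^ a =
      S.big i * (S.big i ^ max C D * A i * ν i ^ a) := by rw [pow_succ]; ring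
  nlinarith [hC i p hp, hD i p hp, e C (le_max_left _ _), e D (le_max_right _ _), S.two_le i]

lemma Bd.add (hA : ∀ i, 0 ≤ A i) (hν : ∀ i, 0 ≤ ν i) (hf : Bd S A ν f) (hg : Bd S A ν g) :
    Bd S A ν (fun i => f i + g i) :=
  ⟨fun i => (hf.smooth i).add (hg.smooth i),
    fun a b => BoundAt.add hA hν hf.smooth hg.smooth (hf.bound a b) (hg.bound a b)⟩

lemma Bd.congr (hf : Bd S A ν f) (h : ∀ i, EqOn (g i) (f i) (S.dom i)) : Bd S A ν g :=
  ⟨fun i => (hf.smooth i).congr (h i), fun a b => by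
    obtain ⟨C, hC⟩ := hf.bound a b
    exact ⟨C, fun i p hp => by rw [eqOn_pd (S.isOpen i) (h i) a b hp]; exact hC i p hp⟩⟩

/-- A larger amplitude or frequency, up to powers of the scale. -/
lemma Bd.mono (hA : ∀ i, 0 ≤ A i) (hν : ∀ i, 0 ≤ ν i) (hνν' : ∀ i, ν i ≤ ν' i) {k : ℕ}
    (hAB : ∀ i, A i ≤ S.big i ^ k * B i) (hf : Bd S A ν f) : Bd S B ν' f :=
  ⟨hf.smooth, fun a b => by
    obtain ⟨C, hC⟩ := hf.bound a b
    refine ⟨C + k, fun i p hp => (hC i p hp).trans ?_⟩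
    have hb : 0 ≤ S.big i ^ C := by have := S.one_le i; positivity
    calc S.big i ^ C * A i * ν i ^ a ≤ S.big i ^ C * A i * ν' i ^ a :=
          mul_le_mul_of_nonneg_left (pow_le_pow_left₀ (hν i) (hνν' i) a) (mul_nonneg hb (hA i))
      _ ≤ S.big i ^ C * (S.big i ^ k * B i) * ν' i ^ a := by
          refine mul_le_mul_of_nonneg_right (mul_le_mul_of_nonneg_left (hAB i) hb) ?_
          exact pow_nonneg ((hν i).trans (hνν' i)) a
      _ = S.big i ^ (C + k) * B i * ν' i ^ a := by rw [pow_add]; ring⟩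

lemma Bd.dx (hf : Bd S A ν f) :
    Bd S (fun i => A i * ν i) ν (fun i => Generic.dx (f i)) :=
  ⟨fun i => contDiffOn_dx (S.isOpen i) (hf.smooth i), fun a b => by
    obtain ⟨C, hC⟩ := hf.bound (a + 1) b
    exact ⟨C, fun i p hp => by
      rw [pd_dx]; refine (hC i p hp).trans (le_of_eq ?_); ring⟩⟩

lemma Bd.dy (hf : Bd S A ν f) : Bd S A ν (fun i => Generic.dy (f i)) :=
  ⟨fun i => contDiffOn_dy (S.isOpen i) (hf.smooth i), fun a b => by
    obtain ⟨C, hC⟩ := hf.bound a (b + 1)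
    exact ⟨C, fun i p hp => by
      rw [pd_dy (S.isOpen i) (hf.smooth i) a b hp]; exact hC i p hp⟩⟩

lemma BoundAt.dx {a b : ℕ} (hf : BoundAt S A ν f (a + 1) b) :
    BoundAt S (fun i => A i * ν i) ν (fun i => Generic.dx (f i)) a b :=
  hf.imp fun C hC i p hp => (hC i p hp).trans_eq (by ring)

lemma BoundAt.dy (hs : ∀ i, ContDiffOn ℝ ∞ (f i) (S.dom i)) {a b : ℕ}
    (hf : BoundAt S A ν f a (b + 1)) : BoundAt S A ν (fun i => Generic.dy (f i)) a b :=
  hf.imp fun C hC i p hp => by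
    rw [pd_dy (S.isOpen i) (hs i) a b hp]; exact hC i p hp

section Product

variable (L : V →L[ℝ] W →L[ℝ] X)

lemma dx_bilin {Ω : Set (ℝ × ℝ)} (hΩ : IsOpen Ω) {u : ℝ × ℝ → V} {v : ℝ × ℝ → W}
    (hu : ContDiffOn ℝ ∞ u Ω) (hv : ContDiffOn ℝ ∞ v Ω) :
    EqOn (dx fun p => L (u p) (v p))
      ((fun p => L (dx u p) (v p)) + fun p => L (u p) (dx v p)) Ω := fun p hp => by
  have h := ((L.hasFDerivAt.comp p (differentiableAt_of hΩ hu hp).hasFDerivAt).clm_apply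
    (differentiableAt_of hΩ hv hp).hasFDerivAt).fderiv
  simp only [dx, Pi.add_apply]
  erw [h]
  simp [add_comm]

lemma dy_bilin {Ω : Set (ℝ × ℝ)} (hΩ : IsOpen Ω) {u : ℝ × ℝ → V} {v : ℝ × ℝ → W}
    (hu : ContDiffOn ℝ ∞ u Ω) (hv : ContDiffOn ℝ ∞ v Ω) :
    EqOn (dy fun p => L (u p) (v p))
      ((fun p => L (dy u p) (v p)) + fun p => L (u p) (dy v p)) Ω := fun p hp => by
  have h := ((L.hasFDerivAt.comp p (differentiableAt_of hΩ hu hp).hasFDerivAt).clm_apply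
    (differentiableAt_of hΩ hv hp).hasFDerivAt).fderiv
  simp only [dy, Pi.add_apply]
  erw [h]
  simp [add_comm]

lemma contDiffOn_bilin {Ω : Set (ℝ × ℝ)} {u : ℝ × ℝ → V} {v : ℝ × ℝ → W}
    (hu : ContDiffOn ℝ ∞ u Ω) (hv : ContDiffOn ℝ ∞ v Ω) :
    ContDiffOn ℝ ∞ (fun p => L (u p) (v p)) Ω :=
  (L.contDiff.comp_contDiffOn hu).clm_apply hv

/-- Bilinear products are bounded up to any order up to which the factors are. -/
theorem boundAt_bilin {u : ι → ℝ × ℝ → V} {v : ι → ℝ × ℝ → W} (hA : ∀ i, 0 ≤ A i)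
    (hB : ∀ i, 0 ≤ B i) (hν : ∀ i, 0 ≤ ν i) (hus : ∀ i, ContDiffOn ℝ ∞ (u i) (S.dom i))
    (hvs : ∀ i, ContDiffOn ℝ ∞ (v i) (S.dom i)) {a b : ℕ}
    (hu : ∀ c d, c + d ≤ a + b → BoundAt S A ν u c d)
    (hv : ∀ c d, c + d ≤ a + b → BoundAt S B ν v c d) :
    BoundAt S (fun i => A i * B i) ν (fun i p => L (u i p) (v i p)) a b := by
  suffices H : ∀ n a b, a + b ≤ n → ∀ (u : ι → ℝ × ℝ → V) (v : ι → ℝ × ℝ → W) (A B : ι → ℝ),
      (∀ i, 0 ≤ A i) → (∀ i, 0 ≤ B i) → (∀ i, ContDiffOn ℝ ∞ (u i) (S.dom i)) →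
      (∀ i, ContDiffOn ℝ ∞ (v i) (S.dom i)) → (∀ c d, c + d ≤ a + b → BoundAt S A ν u c d) →
      (∀ c d, c + d ≤ a + b → BoundAt S B ν v c d) →
      BoundAt S (fun i => A i * B i) ν (fun i p => L (u i p) (v i p)) a b from
    H (a + b) a b le_rfl u v A B hA hB hus hvs hu hv
  clear hA hB hus hvs hu hv u v
  intro n
  induction n with
  | zero =>
    intro a b hab u v A B hA hB hus hvs hu hv
    obtain ⟨rfl, rfl⟩ : a = 0 ∧ b = 0 := by omega
    obtain ⟨C, hC⟩ := hu 0 0 le_rfl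
    obtain ⟨D, hD⟩ := hv 0 0 le_rfl
    obtain ⟨k, hk⟩ : ∃ k : ℕ, ‖L‖ ≤ (2 : ℝ) ^ k :=
      (pow_unbounded_of_one_lt ‖L‖ (by norm_num : (1 : ℝ) < 2)).imp fun _ h => h.le
    refine ⟨k + C + D, fun i p hp => ?_⟩
    show ‖L (u i p) (v i p)‖ ≤ _
    have h1 := S.one_le i
    have a1 : ‖u i p‖ ≤ S.big i ^ C * A i := by simpa [pd] using hC i p hp
    have a2 : ‖v i p‖ ≤ S.big i ^ D * B i := by simpa [pd] using hD i p hp
    have a3 : ‖L‖ ≤ S.big i ^ k := hk.trans (pow_le_pow_left₀ (by norm_num) (S.two_le i) k)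
    calc ‖L (u i p) (v i p)‖ ≤ ‖L‖ * ‖u i p‖ * ‖v i p‖ := L.le_opNorm₂ _ _
      _ ≤ S.big i ^ k * (S.big i ^ C * A i) * (S.big i ^ D * B i) := by
          have := hA i
          gcongr
      _ = S.big i ^ (k + C + D) * (A i * B i) * ν i ^ 0 := by rw [pow_add, pow_add]; ring
  | succ n ih =>
    intro a b hab u v A B hA hB hus hvs hu hv
    by_cases h0 : a + b ≤ n
    · exact ih a b h0 u v A B hA hB hus hvs hu hv
    have hs : ∀ (u : ι → ℝ × ℝ → V) (v : ι → ℝ × ℝ → W),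
        (∀ i, ContDiffOn ℝ ∞ (u i) (S.dom i)) → (∀ i, ContDiffOn ℝ ∞ (v i) (S.dom i)) →
        ∀ i, ContDiffOn ℝ ∞ (fun p => L (u i p) (v i p)) (S.dom i) :=
      fun u v hu hv i => contDiffOn_bilin L (hu i) (hv i)
    rcases a with _ | a
    · obtain ⟨b, rfl⟩ : ∃ b', b = b' + 1 := ⟨b - 1, by omega⟩
      have hys : ∀ i, ContDiffOn ℝ ∞ (Generic.dy (u i)) (S.dom i) :=
        fun i => contDiffOn_dy (S.isOpen i) (hus i)
      have hys' : ∀ i, ContDiffOn ℝ ∞ (Generic.dy (v i)) (S.dom i) :=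
        fun i => contDiffOn_dy (S.isOpen i) (hvs i)
      have e1 := ih 0 b (by omega) _ v A B hA hB hys hvs
        (fun c d h => BoundAt.dy hus (hu c (d + 1) (by omega))) (fun c d h => hv c d (by omega))
      have e2 := ih 0 b (by omega) u _ A B hA hB hus hys'
        (fun c d h => hu c d (by omega)) (fun c d h => BoundAt.dy hvs (hv c (d + 1) (by omega)))
      obtain ⟨C, hC⟩ := BoundAt.add (fun i => mul_nonneg (hA i) (hB i)) hν
        (hs _ v hys hvs) (hs u _ hus hys') e1 e2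
      refine ⟨C, fun i p hp => ?_⟩
      rw [← pd_dy (S.isOpen i) (hs u v hus hvs i) 0 b hp,
        eqOn_pd (S.isOpen i) (dy_bilin L (S.isOpen i) (hus i) (hvs i)) 0 b hp]
      exact hC i p hp
    · have hxs : ∀ i, ContDiffOn ℝ ∞ (Generic.dx (u i)) (S.dom i) :=
        fun i => contDiffOn_dx (S.isOpen i) (hus i)
      have hxs' : ∀ i, ContDiffOn ℝ ∞ (Generic.dx (v i)) (S.dom i) :=
        fun i => contDiffOn_dx (S.isOpen i) (hvs i)
      have e1 := ih a b (by omega) _ v _ B (fun i => mul_nonneg (hA i) (hν i)) hB hxs hvs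
        (fun c d h => BoundAt.dx (hu (c + 1) d (by omega))) (fun c d h => hv c d (by omega))
      have e2 := ih a b (by omega) u _ A _ hA (fun i => mul_nonneg (hB i) (hν i)) hus hxs'
        (fun c d h => hu c d (by omega)) (fun c d h => BoundAt.dx (hv (c + 1) d (by omega)))
      have e1' : BoundAt S (fun i => A i * B i * ν i) ν
          (fun i p => L (Generic.dx (u i) p) (v i p)) a b :=
        e1.imp fun C hC i p hp => (hC i p hp).trans_eq (by ring)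
      have e2' : BoundAt S (fun i => A i * B i * ν i) ν
          (fun i p => L (u i p) (Generic.dx (v i) p)) a b :=
        e2.imp fun C hC i p hp => (hC i p hp).trans_eq (by ring)
      obtain ⟨C, hC⟩ := BoundAt.add (fun i => mul_nonneg (mul_nonneg (hA i) (hB i)) (hν i)) hν
        (hs _ v hxs hvs) (hs u _ hus hxs') e1' e2'
      refine ⟨C, fun i p hp => ?_⟩
      rw [← pd_dx,
        eqOn_pd (S.isOpen i) (dx_bilin L (S.isOpen i) (hus i) (hvs i)) a b hp]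
      refine (hC i p hp).trans (le_of_eq ?_)
      ring

theorem Bd.bilin {u : ι → ℝ × ℝ → V} {v : ι → ℝ × ℝ → W} (hA : ∀ i, 0 ≤ A i) (hB : ∀ i, 0 ≤ B i)
    (hν : ∀ i, 0 ≤ ν i) (hu : Bd S A ν u) (hv : Bd S B ν v) :
    Bd S (fun i => A i * B i) ν (fun i p => L (u i p) (v i p)) :=
  ⟨fun i => contDiffOn_bilin L (hu.smooth i) (hv.smooth i), fun a b =>
    boundAt_bilin L hA hB hν hu.smooth hv.smooth (fun c d _ => hu.bound c d)
      fun c d _ => hv.bound c d⟩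

end Product

/-- Products of scalar families. -/
lemma Bd.mul {u v : ι → ℝ × ℝ → ℝ} (hA : ∀ i, 0 ≤ A i) (hB : ∀ i, 0 ≤ B i) (hν : ∀ i, 0 ≤ ν i)
    (hu : Bd S A ν u) (hv : Bd S B ν v) :
    Bd S (fun i => A i * B i) ν (fun i p => u i p * v i p) :=
  Bd.bilin (ContinuousLinearMap.mul ℝ ℝ) hA hB hν hu hv

/-- Scalar times vector families. -/
lemma Bd.smul {u : ι → ℝ × ℝ → ℝ} (hA : ∀ i, 0 ≤ A i) (hB : ∀ i, 0 ≤ B i) (hν : ∀ i, 0 ≤ ν i)
    (hu : Bd S A ν u) (hg : Bd S B ν g) :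
    Bd S (fun i => A i * B i) ν (fun i p => u i p • g i p) :=
  Bd.bilin (ContinuousLinearMap.lsmul ℝ ℝ) hA hB hν hu hg

/-- A family whose inverse has a bound of order zero is inverted inside the class. -/
theorem Bd.inv {u : ι → ℝ × ℝ → ℝ} (hν : ∀ i, 0 ≤ ν i) (hu : Bd S (fun _ => 1) ν u) {k : ℕ}
    (hk : ∀ i, ∀ p ∈ S.dom i, 1 ≤ S.big i ^ k * |u i p|) :
    Bd S (fun _ => 1) ν (fun i p => (u i p)⁻¹) := by
  have hne : ∀ i, ∀ p ∈ S.dom i, u i p ≠ 0 := fun i p hp h => by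
    have := hk i p hp; simp [h] at this; linarith
  have hs : ∀ i, ContDiffOn ℝ ∞ (fun p => (u i p)⁻¹) (S.dom i) :=
    fun i => (hu.smooth i).inv (hne i)
  suffices H : ∀ n a b, a + b ≤ n → BoundAt S (fun _ => 1) ν (fun i p => (u i p)⁻¹) a b from
    ⟨hs, fun a b => H (a + b) a b le_rfl⟩
  intro n
  induction n using Nat.strong_induction_on with
  | _ n ih =>
    intro a b hab
    by_cases h0 : a + b < n
    · exact ih _ h0 a b le_rfl
    rcases n with _ | m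
    · obtain ⟨rfl, rfl⟩ : a = 0 ∧ b = 0 := by omega
      refine ⟨k, fun i p hp => ?_⟩
      show ‖(u i p)⁻¹‖ ≤ _
      rw [Real.norm_eq_abs, abs_inv, pow_zero, mul_one, mul_one,
        inv_le_iff_one_le_mul₀ (abs_pos.mpr (hne i p hp))]
      exact hk i p hp
    -- the derivative of `u⁻¹` is `-(du) * u⁻¹ * u⁻¹`, bounded by induction up to order `m`
    have htr : ∀ a' b', a' + b' ≤ m → ∀ (w : ι → ℝ × ℝ → ℝ) (A : ι → ℝ), (∀ i, 0 ≤ A i) →
        Bd S A ν w → BoundAt S A ν (fun i p => -(w i p * ((u i p)⁻¹ * (u i p)⁻¹))) a' b' := by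
      intro a'
      exact fun b' hab' w A hA hw => prod_inv_sq_bound hν hs (fun c d hcd => ih m (by omega) c d
        (le_trans hcd hab')) hA hw
    rcases a with _ | a
    · obtain ⟨b, rfl⟩ : ∃ b', b = b' + 1 := ⟨b - 1, by omega⟩
      obtain ⟨C, hC⟩ := htr 0 b (by omega) _ _ (fun _ => zero_le_one) hu.dy
      refine ⟨C, fun i p hp => ?_⟩
      rw [← pd_dy (S.isOpen i) (hs i) 0 b hp,
        eqOn_pd (S.isOpen i) (g := fun q => -(Generic.dy (u i) q * ((u i q)⁻¹ * (u i q)⁻¹)))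
          (fun q hq => ?_) 0 b hp]
      · exact hC i p hp
      · have h := ((hasFDerivAt_inv (hne i q hq)).comp q
          (differentiableAt_of (S.isOpen i) (hu.smooth i) hq).hasFDerivAt).fderiv
        unfold Generic.dy
        erw [h]
        simp [sq]
    · obtain ⟨C, hC⟩ := htr a b (by omega) _ _ (fun i => by simpa using hν i) hu.dx
      refine ⟨C, fun i p hp => ?_⟩
      rw [← pd_dx,
        eqOn_pd (S.isOpen i) (g := fun q => -(Generic.dx (u i) q * ((u i q)⁻¹ * (u i q)⁻¹)))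
          (fun q hq => ?_) a b hp]
      · refine (hC i p hp).trans (le_of_eq ?_); simp only [one_mul]; rw [pow_succ]; ring
      · have h := ((hasFDerivAt_inv (hne i q hq)).comp q
          (differentiableAt_of (S.isOpen i) (hu.smooth i) hq).hasFDerivAt).fderiv
        unfold Generic.dx
        erw [h]
        simp [sq]
where
  prod_inv_sq_bound {u w : ι → ℝ × ℝ → ℝ} {A ν : ι → ℝ} {a b : ℕ} (hν : ∀ i, 0 ≤ ν i)
      (hs : ∀ i, ContDiffOn ℝ ∞ (fun p => (u i p)⁻¹) (S.dom i))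
      (hinv : ∀ c d, c + d ≤ a + b → BoundAt S (fun _ => 1) ν (fun i p => (u i p)⁻¹) c d)
      (hA : ∀ i, 0 ≤ A i) (hw : Bd S A ν w) :
      BoundAt S A ν (fun i p => -(w i p * ((u i p)⁻¹ * (u i p)⁻¹))) a b := by
    have hsq : ∀ c d, c + d ≤ a + b → BoundAt S (fun _ => 1 * 1) ν
        (fun i p => (u i p)⁻¹ * (u i p)⁻¹) c d := fun c d h =>
      boundAt_bilin (ContinuousLinearMap.mul ℝ ℝ) (fun _ => zero_le_one) (fun _ => zero_le_one) hν
        hs hs (fun e f he => hinv e f (he.trans h)) (fun e f he => hinv e f (he.trans h))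
    exact (boundAt_bilin (-ContinuousLinearMap.mul ℝ ℝ) hA (fun _ => zero_le_one) hν hw.smooth
      (fun i => (hs i).mul (hs i)) (fun e f _ => hw.bound e f)
      (fun e f he => (hsq e f he).imp fun C hC i p hp => (hC i p hp).trans_eq (by simp))).imp
        fun C hC i p hp => (hC i p hp).trans_eq (by simp)

end

end Vale.Agent.P205.Generic
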