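import Mathlib

/-!
Five frequencies give arbitrary phase jets of order `≤ 8` at every phase, with a uniform bound.

One frequency cannot: `Re (p * (I ^ j))` spans two dimensions as `j` varies.
-/

namespace Vale.Agent.P205.Generic

open Complex

/-- The trigonometric polynomial `s ↦ ∑ r, Re (c r * exp (i (r+1) s))`. -/
noncomputable def wave {n : ℕ} (c : Fin n → ℂ) (s : ℝ) : ℝ :=
  ∑ r : Fin n, (c r * Complex.exp ((((r : ℕ) + 1 : ℝ) * s : ℝ) * I)).re

theorem hasDerivAt_wave {n : ℕ} (c : Fin n → ℂ) (s : ℝ) :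
    HasDerivAt (wave c) (wave (fun r => c r * ((((r : ℕ) + 1 : ℝ) : ℂ) * I)) s) s := by
  refine HasDerivAt.fun_sum fun r _ => ?_
  have h1 : HasDerivAt (fun s : ℝ => c r * Complex.exp ((((r : ℕ) + 1 : ℝ) * s : ℝ) * I))
      (c r * (Complex.exp ((((r : ℕ) + 1 : ℝ) * s : ℝ) * I) * ((((r : ℕ) + 1 : ℝ) : ℂ) * I))) s := by
    refine HasDerivAt.const_mul _ (HasDerivAt.cexp ?_)
    simpa using (((hasDerivAt_id s).ofReal_comp).const_mul ((((r : ℕ) + 1 : ℝ)) : ℂ)).mul_const I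
  have h2 := (Complex.reCLM.hasFDerivAt.comp_hasDerivAt s h1)
  simp only [Complex.reCLM_apply] at h2
  exact h2.congr_deriv (by ring_nf)

theorem iteratedDeriv_wave {n : ℕ} (j : ℕ) : ∀ (c : Fin n → ℂ),
    iteratedDeriv j (wave c) = wave fun r => c r * ((((r : ℕ) + 1 : ℝ) : ℂ) * I) ^ j := by
  induction j with
  | zero => intro c; simp
  | succ j ih =>
    intro c
    have hd : deriv (wave c) = wave fun r => c r * ((((r : ℕ) + 1 : ℝ) : ℂ) * I) :=
      funext fun s => (hasDerivAt_wave c s).deriv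
    rw [iteratedDeriv_succ', hd, ih]
    congr 1
    funext r
    ring

/-- The phase jet of order `< 9` at phase `0`, as a linear function of the coefficients. -/
noncomputable def jetMap : (Fin 5 → ℂ) →ₗ[ℝ] (Fin 9 → ℝ) where
  toFun c j := ∑ r : Fin 5, (c r * ((((r : ℕ) + 1 : ℝ) : ℂ) * I) ^ (j : ℕ)).re
  map_add' c d := by
    funext j
    simp [add_mul, Finset.sum_add_distrib]
  map_smul' t c := by
    funext j
    simp [Finset.mul_sum, Complex.mul_re, mul_assoc, mul_sub]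

theorem jetMap_surjective : Function.Surjective jetMap := by
  intro y
  -- even orders determine the real parts, odd orders the imaginary parts
  let z : Fin 5 → ℝ := fun r => (((r : ℕ) + 1 : ℝ)) ^ 2
  let V : Matrix (Fin 5) (Fin 5) ℝ := (Matrix.vandermonde z).transpose
  have hV : IsUnit V := by
    rw [Matrix.isUnit_iff_isUnit_det, isUnit_iff_ne_zero, Matrix.det_transpose,
      Matrix.det_vandermonde_ne_zero_iff]
    intro i j h
    have : ((i : ℕ) + 1 : ℝ) = (j : ℕ) + 1 :=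
      (sq_eq_sq₀ (by positivity) (by positivity)).1 h
    exact Fin.ext (by exact_mod_cast add_right_cancel this)
  have hsurj : Function.Surjective V.mulVec := Matrix.mulVec_surjective_iff_isUnit.2 hV
  obtain ⟨u, hu⟩ := hsurj fun k => (-1) ^ (k : ℕ) * y ⟨2 * k, by omega⟩
  obtain ⟨v, hv⟩ := hsurj fun k =>
    if h : (k : ℕ) < 4 then -(-1) ^ (k : ℕ) * y ⟨2 * k + 1, by omega⟩ else 0
  refine ⟨fun r => (u r : ℂ) + ((v r / ((r : ℕ) + 1 : ℝ) : ℝ) : ℂ) * I, funext fun j => ?_⟩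
  simp only [jetMap, LinearMap.coe_mk, AddHom.coe_mk]
  have hI : ∀ (w : ℂ) (t : ℝ) (m : ℕ), (w * ((t : ℂ) * I) ^ (2 * m)).re = (-1) ^ m * t ^ (2 * m) * w.re := by
    intro w t m
    have : ((t : ℂ) * I) ^ (2 * m) = (((-1) ^ m * t ^ (2 * m) : ℝ) : ℂ) := by
      rw [mul_pow, pow_mul I, I_sq]; push_cast; ring
    rw [this, mul_re, ofReal_re, ofReal_im]; ring
  have hI' : ∀ (w : ℂ) (t : ℝ) (m : ℕ),
      (w * ((t : ℂ) * I) ^ (2 * m + 1)).re = -((-1) ^ m * t ^ (2 * m + 1) * w.im) := by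
    intro w t m
    have : ((t : ℂ) * I) ^ (2 * m + 1) = (((-1) ^ m * t ^ (2 * m + 1) : ℝ) : ℂ) * I := by
      rw [pow_succ, mul_pow, pow_mul I, I_sq]; push_cast; ring
    rw [this]
    simp only [mul_re, mul_im, ofReal_re, ofReal_im, I_re, I_im]
    ring
  rcases Nat.even_or_odd' (j : ℕ) with ⟨m, hm | hm⟩
  · have h5 : m < 5 := by omega
    have := congrFun hu ⟨m, h5⟩
    simp only [Matrix.mulVec, dotProduct, V, Matrix.transpose_apply, Matrix.vandermonde_apply, z] at this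
    rw [show j = (⟨2 * m, by omega⟩ : Fin 9) from Fin.ext hm]
    simp only [hI, add_re, ofReal_re, mul_re, I_re, I_im, ofReal_im, mul_zero, mul_one, sub_zero,
      add_zero, ← pow_mul] at this ⊢
    simp only [mul_assoc, ← Finset.mul_sum, this]
    rw [← mul_assoc, ← mul_pow]
    simp
  · have h4 : m < 4 := by omega
    have := congrFun hv ⟨m, by omega⟩
    simp only [Matrix.mulVec, dotProduct, V, Matrix.transpose_apply, Matrix.vandermonde_apply, z,
      h4, dite_true] at this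
    rw [show j = (⟨2 * m + 1, by omega⟩ : Fin 9) from Fin.ext hm]
    simp only [hI', add_im, ofReal_im, mul_im, ofReal_re, I_re, I_im, mul_zero, mul_one, add_zero,
      zero_add, ← pow_mul] at this ⊢
    have e : ∀ r : Fin 5, -((-1) ^ m * ((r : ℕ) + 1 : ℝ) ^ (2 * m + 1) * (v r / ((r : ℕ) + 1 : ℝ)))
        = -(-1) ^ m * (((r : ℕ) + 1 : ℝ) ^ (2 * m) * v r) := by
      intro r
      have : ((r : ℕ) + 1 : ℝ) ≠ 0 := by positivity
      field_simp
      ring
    simp only [e, ← Finset.mul_sum, this]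
    rw [← mul_assoc, neg_mul_neg, ← mul_pow]
    simp

/-- Any phase jet of order `< 9` is realised at any phase, with coefficients bounded linearly. -/
theorem exists_wave_jet : ∃ C : ℝ, 0 ≤ C ∧ ∀ (s : ℝ) (y : Fin 9 → ℝ), ∃ c : Fin 5 → ℂ,
    (∀ j : Fin 9, iteratedDeriv (j : ℕ) (wave c) s = y j) ∧ ∀ r, ‖c r‖ ≤ C * ‖y‖ := by
  obtain ⟨S, hS⟩ := jetMap.exists_rightInverse_of_surjective (LinearMap.range_eq_top.2 jetMap_surjective)
  refine ⟨‖LinearMap.toContinuousLinearMap S‖, norm_nonneg _, fun s y => ?_⟩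
  refine ⟨fun r => S y r * Complex.exp (-((((r : ℕ) + 1 : ℝ) * s : ℝ) * I)), fun j => ?_, fun r => ?_⟩
  · rw [iteratedDeriv_wave]
    have hy := congrFun (LinearMap.congr_fun hS y) j
    simp only [LinearMap.comp_apply, LinearMap.id_apply, jetMap, LinearMap.coe_mk,
      AddHom.coe_mk] at hy
    rw [← hy]
    refine Finset.sum_congr rfl fun r _ => ?_
    congr 1
    simp only [Complex.exp_neg]
    field_simp [Complex.exp_ne_zero]
  · rw [norm_mul, ← neg_mul, ← ofReal_neg, Complex.norm_exp_ofReal_mul_I, mul_one]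
    exact le_trans (norm_le_pi_norm (S y) r) ((LinearMap.toContinuousLinearMap S).le_opNorm y)

/-- Waves with amplitudes quadratic in the transversal coordinate. -/
noncomputable def pwave (τ : Fin 3 → Fin 5 → ℂ) (e s : ℝ) : ℝ :=
  wave (τ 0) s + e * wave (τ 1) s + e ^ 2 / 2 * wave (τ 2) s

theorem wave_add {n : ℕ} (c d : Fin n → ℂ) (s : ℝ) : wave (c + d) s = wave c s + wave d s := by
  simp [wave, Finset.sum_add_distrib, add_mul]

theorem wave_smul {n : ℕ} (t : ℝ) (c : Fin n → ℂ) (s : ℝ) : wave (t • c) s = t * wave c s := by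
  simp [wave, Finset.mul_sum, Complex.mul_re, mul_assoc, mul_sub]

theorem iteratedDeriv_pwave_zero (τ : Fin 3 → Fin 5 → ℂ) (e s : ℝ) :
    iteratedDeriv 0 (fun e => pwave τ e s) e = pwave τ e s := by
  simp

theorem iteratedDeriv_pwave_one (τ : Fin 3 → Fin 5 → ℂ) (e s : ℝ) :
    iteratedDeriv 1 (fun e => pwave τ e s) e = wave (τ 1) s + e * wave (τ 2) s := by
  rw [iteratedDeriv_one]
  have h := (((hasDerivAt_id e).mul_const (wave (τ 1) s)).const_add (wave (τ 0) s)).add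
    ((((hasDerivAt_id e).pow 2).div_const 2).mul_const (wave (τ 2) s))
  refine (h.congr_deriv ?_).deriv
  simp

theorem iteratedDeriv_pwave_two (τ : Fin 3 → Fin 5 → ℂ) (e s : ℝ) :
    iteratedDeriv 2 (fun e => pwave τ e s) e = wave (τ 2) s := by
  rw [iteratedDeriv_succ, show iteratedDeriv 1 (fun e => pwave τ e s) =
    fun e => wave (τ 1) s + e * wave (τ 2) s from funext fun e => iteratedDeriv_pwave_one τ e s]
  exact ((((hasDerivAt_id e).mul_const (wave (τ 2) s)).const_add (wave (τ 1) s)).congr_deriv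
    (by simp)).deriv

/-- Mixed jets of order `≤ 8` in the phase and `≤ 2` transversally are realised at every point,
with coefficients bounded linearly. -/
theorem exists_pwave_jet : ∃ C : ℝ, 0 ≤ C ∧ ∀ (e s : ℝ) (y : Fin 3 → Fin 9 → ℝ),
    ∃ τ : Fin 3 → Fin 5 → ℂ,
      (∀ (j : Fin 3) (i : Fin 9),
        iteratedDeriv (i : ℕ) (fun s => iteratedDeriv (j : ℕ) (fun e => pwave τ e s) e) s = y j i) ∧
      ∀ j r, ‖τ j r‖ ≤ C * (1 + |e|) ^ 2 * ‖y‖ := by
  obtain ⟨C, hC, hC'⟩ := exists_wave_jet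
  refine ⟨3 * C, by positivity, fun e s y => ?_⟩
  obtain ⟨c0, h0, b0⟩ := hC' s (y 0)
  obtain ⟨c1, h1, b1⟩ := hC' s (y 1)
  obtain ⟨c2, h2, b2⟩ := hC' s (y 2)
  let τ : Fin 3 → Fin 5 → ℂ := ![c0 + (-e) • c1 + (e ^ 2 / 2) • c2, c1 + (-e) • c2, c2]
  refine ⟨τ, ?_, ?_⟩
  · have e0 : (fun s => iteratedDeriv 0 (fun e => pwave τ e s) e) = wave c0 := by
      funext s
      rw [iteratedDeriv_zero]
      simp only [pwave, τ, Matrix.cons_val_zero, Matrix.cons_val_one,
        Matrix.cons_val, wave_add, wave_smul]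
      ring
    have e1 : (fun s => iteratedDeriv 1 (fun e => pwave τ e s) e) = wave c1 := by
      funext s
      simp only [iteratedDeriv_pwave_one, τ, Matrix.cons_val_one, Matrix.cons_val_zero,
        Matrix.cons_val, wave_add, wave_smul]
      ring
    have e2 : (fun s => iteratedDeriv 2 (fun e => pwave τ e s) e) = wave c2 := by
      funext s
      simp [iteratedDeriv_pwave_two, τ]
    intro j i
    fin_cases j
    · exact (congrArg (fun f => iteratedDeriv (i : ℕ) f s) e0).trans (h0 i)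
    · exact (congrArg (fun f => iteratedDeriv (i : ℕ) f s) e1).trans (h1 i)
    · exact (congrArg (fun f => iteratedDeriv (i : ℕ) f s) e2).trans (h2 i)
  · have hy : ∀ j, ‖y j‖ ≤ ‖y‖ := norm_le_pi_norm y
    have hB : 0 ≤ C * ‖y‖ := by positivity
    have he : |e| * (C * ‖y‖) ≤ (1 + |e|) ^ 2 * (C * ‖y‖) :=
      mul_le_mul_of_nonneg_right (by nlinarith [abs_nonneg e]) hB
    have he2 : e ^ 2 / 2 * (C * ‖y‖) ≤ (1 + |e|) ^ 2 * (C * ‖y‖) :=
      mul_le_mul_of_nonneg_right (by nlinarith [abs_nonneg e, sq_abs e]) hB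
    have he1 : C * ‖y‖ ≤ (1 + |e|) ^ 2 * (C * ‖y‖) :=
      le_mul_of_one_le_left hB (by nlinarith [abs_nonneg e])
    have g0 : ∀ r, ‖c0 r‖ ≤ C * ‖y‖ := fun r => (b0 r).trans (by gcongr; exact hy 0)
    have g1 : ∀ r, ‖c1 r‖ ≤ C * ‖y‖ := fun r => (b1 r).trans (by gcongr; exact hy 1)
    have g2 : ∀ r, ‖c2 r‖ ≤ C * ‖y‖ := fun r => (b2 r).trans (by gcongr; exact hy 2)
    intro j r
    have f1 : |e| * ‖c1 r‖ ≤ |e| * (C * ‖y‖) := mul_le_mul_of_nonneg_left (g1 r) (abs_nonneg e)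
    have f2 : |e| * ‖c2 r‖ ≤ |e| * (C * ‖y‖) := mul_le_mul_of_nonneg_left (g2 r) (abs_nonneg e)
    have f3 : e ^ 2 / 2 * ‖c2 r‖ ≤ e ^ 2 / 2 * (C * ‖y‖) :=
      mul_le_mul_of_nonneg_left (g2 r) (by positivity)
    fin_cases j <;> simp only [τ, Fin.zero_eta, Fin.mk_one, Fin.reduceFinMk, Matrix.cons_val,
      Matrix.cons_val_zero, Matrix.cons_val_one, Pi.add_apply, Pi.smul_apply]
    · refine (norm_add₃_le).trans ?_
      rw [norm_smul, norm_smul, Real.norm_eq_abs, Real.norm_eq_abs, abs_neg,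
        abs_of_nonneg (by positivity : (0 : ℝ) ≤ e ^ 2 / 2)]
      linarith [g0 r]
    · refine (norm_add_le _ _).trans ?_
      rw [norm_smul, Real.norm_eq_abs, abs_neg]
      linarith [g1 r]
    · linarith [g2 r]

end Vale.Agent.P205.Generic
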