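import Vale.Agent.P205.Generic.Weight
import Vale.Agent.P205.Generic.Frequencies

/-!
# P205: prescribed jets of an oscillating variation

The variations `h p * Σ wⱼ mode j (p.2, ν p.1)` have, up to a relative error `B / ν`, arbitrary
jets of order `≤ (8, 2)` at every point: the wave takes the phase jet and a polynomial of degree
two in the transversal coordinate inverts the transversal jet of `h`. A linear family which is
close to these variations therefore takes every jet exactly.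
-/

namespace Vale.Agent.P205.Generic

open scoped ContDiff
open Set Filter

noncomputable section

/-- Degree in the transversal coordinate, frequency, cosine or sine. -/
abbrev Mode := Fin 3 × Fin 5 × Fin 2

/-- The mode `j` at `(y, t)`: `y ^ deg * cos (2π (r+1) t)` or the same with `sin`; period one. -/
def mode (j : Mode) (p : ℝ × ℝ) : ℝ :=
  p.1 ^ (j.1 : ℕ) * if j.2.2 = 0 then Real.cos (2 * Real.pi * ((j.2.1 : ℕ) + 1) * p.2)
    else Real.sin (2 * Real.pi * ((j.2.1 : ℕ) + 1) * p.2)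

/-- An antiderivative of `mode j` in the phase, of period one. -/
def modePrim (j : Mode) (p : ℝ × ℝ) : ℝ :=
  p.1 ^ (j.1 : ℕ) * (if j.2.2 = 0 then Real.sin (2 * Real.pi * ((j.2.1 : ℕ) + 1) * p.2)
    else -Real.cos (2 * Real.pi * ((j.2.1 : ℕ) + 1) * p.2)) / (2 * Real.pi * ((j.2.1 : ℕ) + 1))

lemma contDiff_mode (j : Mode) : ContDiff ℝ ∞ (mode j) := by
  unfold mode
  by_cases h : j.2.2 = 0
  · simp only [h, if_true]; fun_prop
  · simp only [h, if_false]; fun_prop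

lemma contDiff_modePrim (j : Mode) : ContDiff ℝ ∞ (modePrim j) := by
  unfold modePrim
  by_cases h : j.2.2 = 0
  · simp only [h, if_true]; fun_prop
  · simp only [h, if_false]; fun_prop

lemma mode_periodic (j : Mode) (y : ℝ) : Function.Periodic (fun t => mode j (y, t)) 1 := by
  intro t
  have e : 2 * Real.pi * ((j.2.1 : ℕ) + 1) * (t + 1) =
      2 * Real.pi * ((j.2.1 : ℕ) + 1) * t + (((j.2.1 : ℕ) + 1 : ℕ) : ℝ) * (2 * Real.pi) := by
    push_cast; ring
  simp only [mode, e, Real.cos_add_nat_mul_two_pi, Real.sin_add_nat_mul_two_pi]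

lemma modePrim_periodic (j : Mode) (y : ℝ) : Function.Periodic (fun t => modePrim j (y, t)) 1 := by
  intro t
  have e : 2 * Real.pi * ((j.2.1 : ℕ) + 1) * (t + 1) =
      2 * Real.pi * ((j.2.1 : ℕ) + 1) * t + (((j.2.1 : ℕ) + 1 : ℕ) : ℝ) * (2 * Real.pi) := by
    push_cast; ring
  simp only [modePrim, e, Real.cos_add_nat_mul_two_pi, Real.sin_add_nat_mul_two_pi]

lemma hasDerivAt_modePrim (j : Mode) (y t : ℝ) :
    HasDerivAt (fun t => modePrim j (y, t)) (mode j (y, t)) t := by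
  have hl : HasDerivAt (fun t : ℝ => 2 * Real.pi * ((j.2.1 : ℕ) + 1) * t)
      (2 * Real.pi * ((j.2.1 : ℕ) + 1)) t := by
    simpa using (hasDerivAt_id t).const_mul (2 * Real.pi * (((j.2.1 : ℕ) : ℝ) + 1))
  have hne : 2 * Real.pi * (((j.2.1 : ℕ) : ℝ) + 1) ≠ 0 := by positivity
  unfold mode modePrim
  by_cases h : j.2.2 = 0
  · simp only [h, if_true]
    refine ((hl.sin.const_mul (y ^ (j.1 : ℕ))).div_const _).congr_deriv ?_
    field_simp
  · simp only [h, if_false]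
    refine (((hl.cos.neg).const_mul (y ^ (j.1 : ℕ))).div_const _).congr_deriv ?_
    field_simp

section Slices

variable {Ω : Set (ℝ × ℝ)} {f : ℝ × ℝ → ℝ}

/-- Iterated `dx` as an iterated derivative along the line. -/
lemma dx_iter_slice (hΩ : IsOpen Ω) (hf : ContDiffOn ℝ ∞ f Ω) :
    ∀ (a : ℕ), ∀ p ∈ Ω, dx^[a] f p = iteratedDeriv a (fun s => f (s, p.2)) p.1
  | 0, p, _ => by simp
  | a + 1, p, hp => by
    have hd := differentiableAt_of hΩ (contDiffOn_dx_iter hΩ hf a) hp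
    have h1 : HasDerivAt (fun s => dx^[a] f (s, p.2)) (dx (dx^[a] f) p) p.1 :=
      hd.hasFDerivAt.comp_hasDerivAt p.1
        ((hasDerivAt_id p.1).prodMk (hasDerivAt_const p.1 p.2))
    have hev : iteratedDeriv a (fun s => f (s, p.2)) =ᶠ[nhds p.1] fun s => dx^[a] f (s, p.2) := by
      filter_upwards [(continuous_id.prodMk continuous_const).continuousAt.preimage_mem_nhds
        (hΩ.mem_nhds (show (p.1, p.2) ∈ Ω from hp))] with s hs
      exact (dx_iter_slice hΩ hf a (s, p.2) hs).symm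
    rw [Function.iterate_succ_apply', iteratedDeriv_succ, hev.deriv_eq, h1.deriv]

/-- Iterated `dy` as an iterated derivative along the line. -/
lemma dy_iter_slice (hΩ : IsOpen Ω) (hf : ContDiffOn ℝ ∞ f Ω) :
    ∀ (b : ℕ), ∀ p ∈ Ω, dy^[b] f p = iteratedDeriv b (fun t => f (p.1, t)) p.2
  | 0, p, _ => by simp
  | b + 1, p, hp => by
    have hd := differentiableAt_of hΩ (contDiffOn_pd hΩ hf 0 b) hp
    have h1 : HasDerivAt (fun t => dy^[b] f (p.1, t)) (dy (dy^[b] f) p) p.2 :=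
      hd.hasFDerivAt.comp_hasDerivAt p.2
        ((hasDerivAt_const p.2 p.1).prodMk (hasDerivAt_id p.2))
    have hev : iteratedDeriv b (fun t => f (p.1, t)) =ᶠ[nhds p.2] fun t => dy^[b] f (p.1, t) := by
      filter_upwards [(continuous_const.prodMk continuous_id).continuousAt.preimage_mem_nhds
        (hΩ.mem_nhds (show (p.1, p.2) ∈ Ω from hp))] with t ht
      exact (dy_iter_slice hΩ hf b (p.1, t) ht).symm
    rw [Function.iterate_succ_apply', iteratedDeriv_succ, hev.deriv_eq, h1.deriv]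

lemma pd_slice (hΩ : IsOpen Ω) (hf : ContDiffOn ℝ ∞ f Ω) (a b : ℕ) {p : ℝ × ℝ} (hp : p ∈ Ω) :
    pd a b f p = iteratedDeriv b (fun t => iteratedDeriv a (fun s => f (s, t)) p.1) p.2 := by
  unfold pd
  rw [dy_iter_slice hΩ (contDiffOn_dx_iter hΩ hf a) b p hp]
  refine Filter.EventuallyEq.iteratedDeriv_eq b ?_
  filter_upwards [(continuous_const.prodMk continuous_id).continuousAt.preimage_mem_nhds
    (hΩ.mem_nhds (show (p.1, p.2) ∈ Ω from hp))] with t ht
  exact dx_iter_slice hΩ hf a (p.1, t) ht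

lemma pd_const_mul (hΩ : IsOpen Ω) (hf : ContDiffOn ℝ ∞ f Ω) (c : ℝ) (a b : ℕ) {p : ℝ × ℝ}
    (hp : p ∈ Ω) : pd a b (fun q => c * f q) p = c * pd a b f p := by
  rw [pd_slice hΩ (contDiffOn_const.mul hf) a b hp, pd_slice hΩ hf a b hp]
  simp only [iteratedDeriv_const_mul_field]

/-- The jets of `h (x, y) * P y * ψ x` when the jets of `ψ` vanish except that of order `a₀`. -/
lemma pd_separated (hΩ : IsOpen Ω) {h : ℝ × ℝ → ℝ} (hh : ContDiffOn ℝ ∞ h Ω) {P ψ : ℝ → ℝ}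
    (hP : ContDiff ℝ ∞ P) (hψ : ContDiff ℝ ∞ ψ) {p : ℝ × ℝ} (hp : p ∈ Ω) {a₀ a b : ℕ} {μ : ℝ}
    (ha₀ : a₀ ≤ a) (hjet : ∀ i ≤ a, iteratedDeriv i ψ p.1 = if i = a₀ then μ else 0) :
    pd a b (fun q => h q * (P q.2 * ψ q.1)) p = μ * (a.choose (a - a₀) : ℝ) *
      ∑ k ∈ Finset.range (b + 1),
        (b.choose k : ℝ) * pd (a - a₀) k h p * iteratedDeriv (b - k) P p.2 := by
  have hG : ContDiffOn ℝ ∞ (fun q : ℝ × ℝ => h q * (P q.2 * ψ q.1)) Ω :=
    hh.mul ((hP.comp contDiff_snd).mul (hψ.comp contDiff_fst)).contDiffOn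
  rw [pd_slice hΩ hG a b hp]
  have hev : (fun t => iteratedDeriv a (fun s => h (s, t) * (P t * ψ s)) p.1) =ᶠ[nhds p.2]
      fun t => μ * (a.choose (a - a₀) : ℝ) * (dx^[a - a₀] h (p.1, t) * P t) := by
    filter_upwards [(continuous_const.prodMk continuous_id).continuousAt.preimage_mem_nhds
      (hΩ.mem_nhds (show (p.1, p.2) ∈ Ω from hp))] with t ht
    have hs : ContDiffAt ℝ a (fun s => h (s, t)) p.1 :=
      ((hh.contDiffAt (hΩ.mem_nhds ht)).comp p.1
        (contDiffAt_id.prodMk contDiffAt_const)).of_le (by exact_mod_cast le_top)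
    have hg : ContDiffAt ℝ a (fun s => P t * ψ s) p.1 :=
      ((contDiff_const.mul hψ).contDiffAt).of_le (by exact_mod_cast le_top)
    show iteratedDeriv a ((fun s => h (s, t)) * fun s => P t * ψ s) p.1 = _
    rw [iteratedDeriv_mul hs hg, Finset.sum_eq_single (a - a₀)]
    · rw [iteratedDeriv_const_mul_field, hjet _ (Nat.sub_le _ _), if_pos (by omega),
        dx_iter_slice hΩ hh (a - a₀) (p.1, t) ht]
      ring
    · intro i hi hne
      rw [Finset.mem_range] at hi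
      rw [iteratedDeriv_const_mul_field, hjet _ (Nat.sub_le _ _), if_neg (by omega)]
      ring
    · intro hn; exact absurd (Finset.mem_range.2 (by omega)) hn
  rw [hev.iteratedDeriv_eq b, iteratedDeriv_const_mul_field]
  congr 1
  have hc : ContDiffAt ℝ b (fun t => dx^[a - a₀] h (p.1, t)) p.2 :=
    (((contDiffOn_dx_iter hΩ hh _).contDiffAt (hΩ.mem_nhds (show (p.1, p.2) ∈ Ω from hp))).comp
      p.2 (contDiffAt_const.prodMk contDiffAt_id)).of_le (by exact_mod_cast le_top)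
  show iteratedDeriv b ((fun t => dx^[a - a₀] h (p.1, t)) * P) p.2 = _
  rw [iteratedDeriv_mul hc (hP.contDiffAt.of_le (by exact_mod_cast le_top))]
  refine Finset.sum_congr rfl fun k _ => ?_
  show _ = (b.choose k : ℝ) * (dy^[k] (dx^[a - a₀] h) p) * _
  rw [dy_iter_slice hΩ (contDiffOn_dx_iter hΩ hh _) k p hp]

/-- The jets vanish below the order of the wave. -/
lemma pd_separated_zero (hΩ : IsOpen Ω) {h : ℝ × ℝ → ℝ} (hh : ContDiffOn ℝ ∞ h Ω) {P ψ : ℝ → ℝ}
    (hP : ContDiff ℝ ∞ P) (hψ : ContDiff ℝ ∞ ψ) {p : ℝ × ℝ} (hp : p ∈ Ω) {a b : ℕ}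
    (hjet : ∀ i ≤ a, iteratedDeriv i ψ p.1 = 0) :
    pd a b (fun q => h q * (P q.2 * ψ q.1)) p = 0 := by
  have := pd_separated (μ := 0) (a₀ := 0) (b := b) hΩ hh hP hψ hp (Nat.zero_le a)
    (fun i hi => by rw [hjet i hi]; simp)
  simpa using this

end Slices

lemma contDiff_wave {n : ℕ} (c : Fin n → ℂ) : ContDiff ℝ ∞ (wave c) := by
  unfold wave
  refine ContDiff.sum fun r _ => ?_
  refine Complex.reCLM.contDiff.comp (contDiff_const.mul ?_)
  exact (Complex.ofRealCLM.contDiff.comp (contDiff_const.mul contDiff_id)).mul contDiff_const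
    |>.cexp

/-- A product of a polynomial of degree two and a wave is a combination of modes. -/
lemma exists_coeff (q : Fin 3 → ℝ) (c : Fin 5 → ℂ) :
    ∃ w : Mode → ℝ, (∀ j, ∃ r, |w j| ≤ |q j.1| * ‖c r‖) ∧
      ∀ y t, ∑ j, w j * mode j (y, t)
        = (q 0 + q 1 * y + q 2 * y ^ 2) * wave c (2 * Real.pi * t) := by
  refine ⟨fun j => q j.1 * if j.2.2 = 0 then (c j.2.1).re else -(c j.2.1).im, fun j => ⟨j.2.1, ?_⟩,
    fun y t => ?_⟩
  · rw [abs_mul]
    refine mul_le_mul_of_nonneg_left ?_ (abs_nonneg _)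
    split_ifs
    · exact Complex.abs_re_le_norm _
    · rw [abs_neg]; exact Complex.abs_im_le_norm _
  · have hw : wave c (2 * Real.pi * t) = ∑ r : Fin 5,
        ((c r).re * Real.cos (2 * Real.pi * ((r : ℕ) + 1) * t)
          - (c r).im * Real.sin (2 * Real.pi * ((r : ℕ) + 1) * t)) := by
      unfold wave
      refine Finset.sum_congr rfl fun r _ => ?_
      rw [Complex.mul_re, Complex.exp_ofReal_mul_I_re, Complex.exp_ofReal_mul_I_im]
      ring_nf
    rw [hw, Finset.mul_sum]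
    simp only [Fintype.sum_prod_type, Fin.sum_univ_two, Fin.sum_univ_three, mode,
      ← Finset.sum_add_distrib]
    refine Finset.sum_congr rfl fun r _ => ?_
    simp
    ring

/-- One jet with relative error `B / ν`. -/
lemma exists_unit_jet : ∃ C : ℕ, ∀ (B ν : ℝ) (Ω : Set (ℝ × ℝ)) (x : ℝ × ℝ) (h : ℝ × ℝ → ℝ),
    2 ≤ B → 1 ≤ ν → IsOpen Ω → x ∈ Ω → |x.2| ≤ B → ContDiffOn ℝ ∞ h Ω →
    (∀ a b : ℕ, a ≤ 8 → b ≤ 2 → |pd a b h x| ≤ B) → 1 ≤ B * |h x| →
    ∀ i : Fin 9 × Fin 3, ∃ w : Mode → ℝ, ‖w‖ ≤ B ^ C ∧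
      ∀ j : Fin 9 × Fin 3,
        |pd j.1 j.2 (fun p => h p * ∑ m, w m * mode m (p.2, ν * p.1)) x
          - ν ^ (j.1 : ℕ) * (if j = i then 1 else 0)| ≤ B ^ C * ν ^ (j.1 : ℕ) / ν := by
  obtain ⟨C₀, hC₀, hwave⟩ := exists_wave_jet
  obtain ⟨k, hk⟩ : ∃ k : ℕ, C₀ ≤ (2 : ℝ) ^ k :=
    (pow_unbounded_of_one_lt C₀ (by norm_num : (1 : ℝ) < 2)).imp fun _ h => h.le
  refine ⟨k + 30, fun B ν Ω x h hB hν hΩ hx hxB hh hhb hhx i => ?_⟩
  obtain ⟨a₀, b₀⟩ := i
  have hB0 : 0 ≤ B := by linarith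
  have hB1 : 1 ≤ B := by linarith
  have hhne : h x ≠ 0 := fun e => by rw [e] at hhx; simp at hhx; linarith
  have hinv : |(h x)⁻¹| ≤ B := by
    rw [abs_inv, inv_le_iff_one_le_mul₀ (abs_pos.2 hhne)]
    exact hhx
  have hu : |pd 0 1 h x| ≤ B := hhb 0 1 (by omega) (by omega)
  have hv : |pd 0 2 h x| ≤ B := hhb 0 2 (by omega) le_rfl
  -- the transversal jet inverting that of `h`
  obtain ⟨P₀, hP₀⟩ : ∃ P₀, P₀ = (if b₀ = 0 then (1 : ℝ) else 0) * (h x)⁻¹ := ⟨_, rfl⟩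
  obtain ⟨P₁, hP₁⟩ : ∃ P₁, P₁ = ((if b₀ = 1 then (1 : ℝ) else 0) - pd 0 1 h x * P₀) * (h x)⁻¹ :=
    ⟨_, rfl⟩
  obtain ⟨P₂, hP₂⟩ : ∃ P₂, P₂ = ((if b₀ = 2 then (1 : ℝ) else 0) - 2 * pd 0 1 h x * P₁
      - pd 0 2 h x * P₀) * (h x)⁻¹ := ⟨_, rfl⟩
  have one : ∀ (b : Fin 3), |if b₀ = b then (1 : ℝ) else 0| ≤ 1 := fun b => by
    split_ifs <;> simp
  have q0 : |P₀| ≤ B := by
    rw [hP₀, abs_mul]
    calc _ ≤ 1 * B := mul_le_mul (one 0) hinv (abs_nonneg _) zero_le_one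
      _ = B := one_mul B
  have q1 : |P₁| ≤ B ^ 4 := by
    rw [hP₁, abs_mul]
    calc _ ≤ (1 + B * B) * B := by
          refine mul_le_mul ((abs_sub _ _).trans (add_le_add (one 1) ?_)) hinv (abs_nonneg _)
            (by positivity)
          rw [abs_mul]; exact mul_le_mul hu q0 (abs_nonneg _) hB0
      _ ≤ B ^ 4 := by nlinarith [mul_le_mul hB hB (by norm_num) hB0, pow_nonneg hB0 3]
  have q2 : |P₂| ≤ B ^ 8 := by
    rw [hP₂, abs_mul]
    calc _ ≤ (1 + 2 * B * B ^ 4 + B * B) * B := by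
          refine mul_le_mul ((abs_sub _ _).trans (add_le_add ((abs_sub _ _).trans
            (add_le_add (one 2) ?_)) ?_)) hinv (abs_nonneg _) (by positivity)
          · rw [abs_mul, abs_mul, abs_two]
            exact mul_le_mul (mul_le_mul_of_nonneg_left hu zero_le_two) q1 (abs_nonneg _)
              (by positivity)
          · rw [abs_mul]; exact mul_le_mul hv q0 (abs_nonneg _) hB0
      _ ≤ B ^ 8 := by
          have h5 : B ≤ B ^ 6 := le_self_pow₀ hB1 (by norm_num)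
          have h6 : B ^ 3 ≤ B ^ 6 := pow_le_pow_right₀ hB1 (by norm_num)
          have h7 : 4 * B ^ 6 ≤ B ^ 8 := by
            rw [show B ^ 8 = B ^ 2 * B ^ 6 by ring]
            exact mul_le_mul_of_nonneg_right (by nlinarith) (by positivity)
          nlinarith
  obtain ⟨q, hq⟩ : ∃ q : Fin 3 → ℝ,
      q = ![P₀ - x.2 * P₁ + x.2 ^ 2 / 2 * P₂, P₁ - x.2 * P₂, P₂ / 2] := ⟨_, rfl⟩
  obtain ⟨P, hP⟩ : ∃ P : ℝ → ℝ, ∀ y, P y = q 0 + q 1 * y + q 2 * y ^ 2 := ⟨_, fun _ => rfl⟩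
  have hPs : ContDiff ℝ ∞ P := by rw [funext hP]; fun_prop
  have d1 : ∀ y, HasDerivAt P (q 1 + 2 * q 2 * y) y := fun y => by
    rw [funext hP]
    refine ((((hasDerivAt_id y).const_mul (q 1)).const_add (q 0)).add
      (((hasDerivAt_id y).pow 2).const_mul (q 2))).congr_deriv ?_
    simp; ring
  have j0 : iteratedDeriv 0 P x.2 = P₀ := by
    simp [hP, hq]; ring
  have j1 : iteratedDeriv 1 P x.2 = P₁ := by
    rw [iteratedDeriv_one, (d1 _).deriv]
    simp [hq]; ring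
  have j2 : iteratedDeriv 2 P x.2 = P₂ := by
    rw [iteratedDeriv_succ, iteratedDeriv_one, funext fun y => (d1 y).deriv]
    refine ((((hasDerivAt_id x.2).const_mul (2 * q 2)).const_add (q 1)).congr_deriv ?_).deriv
    simp [hq]; ring
  -- the wave
  obtain ⟨c, hc, hcb⟩ := hwave (2 * Real.pi * ν * x.1)
    fun n => if n = a₀ then ((2 * Real.pi) ^ (a₀ : ℕ))⁻¹ else 0
  have hcB : ∀ r, ‖c r‖ ≤ B ^ k := fun r => by
    refine (hcb r).trans ((mul_le_of_le_one_right hC₀ ?_).trans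
      (hk.trans (pow_le_pow_left₀ zero_le_two hB k)))
    refine (pi_norm_le_iff_of_nonneg zero_le_one).2 fun n => ?_
    split_ifs
    · rw [norm_inv, norm_pow, Real.norm_eq_abs,
        abs_of_pos (by positivity : 0 < 2 * Real.pi)]
      exact inv_le_one_of_one_le₀ (one_le_pow₀ (by nlinarith [Real.pi_gt_three]))
    · simp
  obtain ⟨ψ, hψ⟩ : ∃ ψ : ℝ → ℝ, ∀ s, ψ s = wave c (2 * Real.pi * ν * s) := ⟨_, fun _ => rfl⟩
  have hψs : ContDiff ℝ ∞ ψ := by
    rw [funext hψ]; exact (contDiff_wave c).comp (contDiff_const.mul contDiff_id)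
  have hjet : ∀ n : ℕ, n ≤ 8 →
      iteratedDeriv n ψ x.1 = if n = (a₀ : ℕ) then ν ^ (a₀ : ℕ) else 0 := by
    intro n hn
    rw [funext hψ, iteratedDeriv_comp_const_mul ((contDiff_wave c).of_le (by exact_mod_cast le_top))]
    show (2 * Real.pi * ν) ^ n * iteratedDeriv n (wave c) (2 * Real.pi * ν * x.1) = _
    have := hc ⟨n, by omega⟩
    rw [Fin.val_mk] at this
    rw [this]
    by_cases e : n = (a₀ : ℕ)
    · subst e
      rw [if_pos rfl, if_pos rfl, mul_pow]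
      field_simp
    · rw [if_neg e, if_neg fun h => e (congrArg Fin.val h), mul_zero]
  obtain ⟨w, hw, hsum⟩ := exists_coeff q c
  have hfun : (fun p : ℝ × ℝ => h p * ∑ m, w m * mode m (p.2, ν * p.1))
      = fun p => h p * (P p.2 * ψ p.1) := by
    funext p
    rw [hsum, hP, hψ, mul_assoc (2 * Real.pi)]
  have hqB : ∀ d, |q d| ≤ B ^ 12 := by
    have e2 : |x.2| * B ^ 8 ≤ B ^ 9 := by
      rw [pow_succ' B 8]; exact mul_le_mul_of_nonneg_right hxB (by positivity)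
    have f1 : |x.2 * P₁| ≤ B ^ 10 := by
      rw [abs_mul]
      exact (mul_le_mul hxB q1 (abs_nonneg _) hB0).trans (by
        rw [← pow_succ']; exact pow_le_pow_right₀ hB1 (by norm_num))
    have f2 : |x.2 * P₂| ≤ B ^ 10 := by
      rw [abs_mul]
      exact (mul_le_mul hxB q2 (abs_nonneg _) hB0).trans (by
        rw [← pow_succ']; exact pow_le_pow_right₀ hB1 (by norm_num))
    have f3 : |x.2 ^ 2 / 2 * P₂| ≤ B ^ 10 := by
      rw [abs_mul, show (10 : ℕ) = 2 + 8 from rfl, pow_add]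
      refine mul_le_mul ?_ q2 (abs_nonneg _) (by positivity)
      rw [abs_div, abs_pow, abs_two]
      nlinarith [pow_le_pow_left₀ (abs_nonneg x.2) hxB 2, pow_nonneg (abs_nonneg x.2) 2]
    have f0 : |P₀| ≤ B ^ 10 := q0.trans (le_self_pow₀ hB1 (by norm_num))
    have f4 : |P₁| ≤ B ^ 10 := q1.trans (pow_le_pow_right₀ hB1 (by norm_num))
    have f5 : |P₂| ≤ B ^ 10 := q2.trans (pow_le_pow_right₀ hB1 (by norm_num))
    have top : 3 * B ^ 10 ≤ B ^ 12 := by
      rw [show B ^ 12 = B ^ 2 * B ^ 10 by ring]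
      exact mul_le_mul_of_nonneg_right (by nlinarith) (by positivity)
    have p0 : (0 : ℝ) ≤ B ^ 10 := by positivity
    intro d
    fin_cases d <;> simp [hq]
    · linarith [abs_add_le (P₀ - x.2 * P₁) (x.2 ^ 2 / 2 * P₂), abs_sub P₀ (x.2 * P₁)]
    · linarith [abs_sub P₁ (x.2 * P₂)]
    · linarith [abs_nonneg P₂, abs_div P₂ 2]
  refine ⟨w, (pi_norm_le_iff_of_nonneg (by positivity)).2 fun m => ?_, fun j => ?_⟩
  · obtain ⟨r, hr⟩ := hw m
    refine (Real.norm_eq_abs _).trans_le (hr.trans ?_)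
    calc |q m.1| * ‖c r‖ ≤ B ^ 12 * B ^ k :=
          mul_le_mul (hqB _) (hcB r) (norm_nonneg _) (by positivity)
      _ ≤ B ^ (k + 30) := by
          rw [← pow_add]; exact pow_le_pow_right₀ hB1 (by omega)
  obtain ⟨a, b⟩ := j
  have ha8 : (a : ℕ) ≤ 8 := by omega
  have hrhs : 0 ≤ B ^ (k + 30) * ν ^ (a : ℕ) / ν := by positivity
  show |pd (a : ℕ) (b : ℕ) _ x - ν ^ (a : ℕ) * (if (a, b) = (a₀, b₀) then 1 else 0)| ≤
    B ^ (k + 30) * ν ^ (a : ℕ) / ν
  rw [hfun]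
  rcases lt_or_ge (a : ℕ) (a₀ : ℕ) with hlt | hge
  · rw [pd_separated_zero hΩ hh hPs hψs hx fun n hn => by
        rw [hjet n (by omega), if_neg (by omega)],
      if_neg (fun e => by simp [Prod.ext_iff] at e; omega), mul_zero, sub_zero, abs_zero]
    exact hrhs
  rw [pd_separated hΩ hh hPs hψs hx hge fun n hn => hjet n (by omega)]
  rcases hge.eq_or_lt with he | hlt
  · have ea : a = a₀ := Fin.ext he.symm
    subst ea
    have hsumb : ∑ n ∈ Finset.range ((b : ℕ) + 1),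
        ((b : ℕ).choose n : ℝ) * pd ((a : ℕ) - (a : ℕ)) n h x * iteratedDeriv ((b : ℕ) - n) P x.2
        = if b = b₀ then 1 else 0 := by
      simp only [Nat.sub_self]
      have h00 : pd 0 0 h x = h x := rfl
      fin_cases b <;> fin_cases b₀ <;>
        simp [Finset.sum_range_succ, h00, j0, j1, j2, hP₀, hP₁, hP₂] <;>
        field_simp <;> ring
    rw [hsumb, Nat.sub_self, Nat.choose_zero_right]
    simp only [Prod.mk.injEq, true_and, Nat.cast_one, mul_one, sub_self, abs_zero]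
    exact hrhs
  · rw [if_neg (fun e => by simp [Prod.ext_iff] at e; omega), mul_zero, sub_zero, abs_mul, abs_mul,
      abs_of_nonneg (by positivity : (0 : ℝ) ≤ ν ^ (a₀ : ℕ)), Nat.abs_cast]
    have hP8 : ∀ n, n ≤ 2 → |iteratedDeriv n P x.2| ≤ B ^ 8 := by
      intro n hn
      interval_cases n
      · rw [j0]; exact q0.trans (le_self_pow₀ hB1 (by norm_num))
      · rw [j1]; exact q1.trans (pow_le_pow_right₀ hB1 (by norm_num))
      · rw [j2]; exact q2
    have hsum6 : |∑ n ∈ Finset.range ((b : ℕ) + 1),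
        ((b : ℕ).choose n : ℝ) * pd ((a : ℕ) - (a₀ : ℕ)) n h x
          * iteratedDeriv ((b : ℕ) - n) P x.2| ≤ 12 * (B * B ^ 8) := by
      refine (Finset.abs_sum_le_sum_abs _ _).trans ((Finset.sum_le_card_nsmul _ _
        (4 * (B * B ^ 8)) fun n hn => ?_).trans ?_)
      · rw [Finset.mem_range] at hn
        rw [abs_mul, abs_mul, Nat.abs_cast, mul_assoc]
        refine mul_le_mul ?_ (mul_le_mul (hhb _ _ (by omega) (by omega)) (hP8 _ (by omega))
          (abs_nonneg _) hB0) (by positivity) (by norm_num)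
        calc ((b : ℕ).choose n : ℝ) ≤ ((2 ^ (b : ℕ) : ℕ) : ℝ) := by
              exact_mod_cast Nat.choose_le_two_pow _ _
          _ ≤ 4 := by push_cast; fin_cases b <;> norm_num
      · rw [Finset.card_range, nsmul_eq_mul]
        have : (((b : ℕ) + 1 : ℕ) : ℝ) ≤ 3 := by exact_mod_cast (by omega : (b : ℕ) + 1 ≤ 3)
        nlinarith [show 0 ≤ B * B ^ 8 by positivity]
    have hch : (((a : ℕ).choose ((a : ℕ) - (a₀ : ℕ))) : ℝ) ≤ B ^ 8 := by
      calc _ ≤ ((2 ^ (a : ℕ) : ℕ) : ℝ) := by exact_mod_cast Nat.choose_le_two_pow _ _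
        _ ≤ B ^ (a : ℕ) := by push_cast; exact pow_le_pow_left₀ zero_le_two hB _
        _ ≤ B ^ 8 := pow_le_pow_right₀ hB1 ha8
    rw [le_div_iff₀ (by linarith)]
    calc ν ^ (a₀ : ℕ) * ((a : ℕ).choose ((a : ℕ) - (a₀ : ℕ)) : ℝ) * _ * ν
        ≤ ν ^ (a₀ : ℕ) * B ^ 8 * (12 * (B * B ^ 8)) * ν := by gcongr
      _ = 12 * B ^ 17 * ν ^ ((a₀ : ℕ) + 1) := by ring
      _ ≤ B ^ (k + 30) * ν ^ (a : ℕ) := by
          refine mul_le_mul ?_ (pow_le_pow_right₀ hν hlt) (by positivity) (by positivity)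
          calc 12 * B ^ 17 ≤ B ^ 4 * B ^ 17 := by
                refine mul_le_mul_of_nonneg_right ?_ (by positivity)
                nlinarith [pow_le_pow_left₀ zero_le_two hB 4]
            _ ≤ _ := by rw [← pow_add]; exact pow_le_pow_right₀ hB1 (by omega)

/-- **Exact jets.** A linear family which is close at a point to the modulated modes takes every
jet of order `≤ (8, 2)` there, with coefficients bounded linearly. -/
theorem exists_exact_jets : ∃ C : ℕ, ∀ (B ν ε : ℝ) (Ω : Set (ℝ × ℝ)) (x : ℝ × ℝ)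
    (h : ℝ × ℝ → ℝ) (Z : (Mode → ℝ) →ₗ[ℝ] (ℝ × ℝ → ℝ)),
    2 ≤ B → B ^ C ≤ ν → 0 ≤ ε → ε * B ^ C ≤ 1 → IsOpen Ω → x ∈ Ω → |x.2| ≤ B →
    ContDiffOn ℝ ∞ h Ω → (∀ a b : ℕ, a ≤ 8 → b ≤ 2 → |pd a b h x| ≤ B) → 1 ≤ B * |h x| →
    (∀ w, ContDiffOn ℝ ∞ (Z w) Ω) →
    (∀ w (a b : ℕ), a ≤ 8 → b ≤ 2 →
      |pd a b (Z w) x - pd a b (fun p => h p * ∑ j, w j * mode j (p.2, ν * p.1)) x|
        ≤ ε * ν ^ a * ‖w‖) →
    ∀ y : Fin 9 × Fin 3 → ℝ, ∃ w : Mode → ℝ, ‖w‖ ≤ B ^ C * ‖y‖ ∧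
      ∀ i : Fin 9 × Fin 3, pd i.1 i.2 (Z w) x = ν ^ (i.1 : ℕ) * y i := by
  obtain ⟨C, hC⟩ := exists_unit_jet
  refine ⟨C + 10, fun B ν ε Ω x h Z hB hν hε hεB hΩ hx hxB hh hhb hhx hZs hZ => ?_⟩
  have hB1 : 1 ≤ B := by linarith
  have hν1 : 1 ≤ ν := (one_le_pow₀ hB1).trans hν
  have hνpos : 0 < ν := by linarith
  obtain ⟨Φ, hΦ⟩ : ∃ Φ : (Mode → ℝ) →ₗ[ℝ] (Fin 9 × Fin 3 → ℝ),
      ∀ w i, Φ w i = pd i.1 i.2 (Z w) x * ((ν ^ (i.1 : ℕ))⁻¹) := by
    refine ⟨{ toFun := fun w i => pd i.1 i.2 (Z w) x * ((ν ^ (i.1 : ℕ))⁻¹),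
              map_add' := fun u v => ?_, map_smul' := fun t u => ?_ }, fun _ _ => rfl⟩
    · funext i
      rw [map_add, pd_add hΩ (hZs u) (hZs v) _ _ hx]
      simp only [Pi.add_apply]
      ring
    · funext i
      rw [map_smul, show (t • Z u) = fun q => t * Z u q from rfl,
        pd_const_mul hΩ (hZs u) t _ _ hx]
      simp only [Pi.smul_apply, smul_eq_mul, RingHom.id_apply]
      ring
  choose W hWb hW using hC B ν Ω x h hB hν1 hΩ hx hxB hh hhb hhx
  have hpow : (128 : ℝ) * B ^ C ≤ B ^ (C + 10) := by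
    rw [pow_add, mul_comm]
    exact mul_le_mul_of_nonneg_left (le_trans (by norm_num) (pow_le_pow_left₀ zero_le_two hB 10))
      (by positivity)
  have herr : ∀ i j, |Φ (W i) j - if j = i then 1 else 0| ≤ 1 / 64 := by
    intro i j
    have hnu : 0 < ν ^ (j.1 : ℕ) := by positivity
    have h1 := hZ (W i) (j.1 : ℕ) (j.2 : ℕ) (by omega) (by omega)
    have h2 := hW i j
    have h3 : |pd j.1 j.2 (Z (W i)) x - ν ^ (j.1 : ℕ) * (if j = i then 1 else 0)|
        ≤ (ε * B ^ C + B ^ C / ν) * ν ^ (j.1 : ℕ) := by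
      refine (abs_sub_le _ (pd j.1 j.2 (fun p => h p * ∑ m, W i m * mode m (p.2, ν * p.1)) x)
        _).trans ?_
      rw [add_mul, div_mul_eq_mul_div]
      refine add_le_add (h1.trans ?_) h2
      rw [mul_right_comm]
      exact mul_le_mul_of_nonneg_right (mul_le_mul_of_nonneg_left (hWb i) hε) hnu.le
    have h4 : ε * B ^ C + B ^ C / ν ≤ 1 / 64 := by
      have e1 : B ^ C / ν ≤ 1 / 128 := by
        rw [div_le_div_iff₀ hνpos (by norm_num)]
        linarith
      nlinarith [mul_le_mul_of_nonneg_left hpow hε]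
    rw [hΦ, ← div_eq_mul_inv]
    have h5 : pd (j.1 : ℕ) (j.2 : ℕ) (Z (W i)) x / ν ^ (j.1 : ℕ) - (if j = i then 1 else 0)
        = (pd j.1 j.2 (Z (W i)) x - ν ^ (j.1 : ℕ) * (if j = i then 1 else 0)) / ν ^ (j.1 : ℕ) := by
      field_simp
    rw [h5, abs_div, abs_of_pos hnu, div_le_iff₀ hnu]
    exact h3.trans (mul_le_mul_of_nonneg_right h4 hnu.le)
  obtain ⟨S, hS⟩ : ∃ S : (Fin 9 × Fin 3 → ℝ) →ₗ[ℝ] (Mode → ℝ), ∀ y, S y = ∑ i, y i • W i :=
    ⟨Fintype.linearCombination ℝ W, fun _ => rfl⟩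
  have hclose : ∀ y, ‖Φ (S y) - y‖ ≤ ‖y‖ / 2 := by
    intro y
    refine (pi_norm_le_iff_of_nonneg (by positivity)).2 fun j => ?_
    have e : Φ (S y) j - y j = ∑ i, y i * (Φ (W i) j - if j = i then 1 else 0) := by
      simp only [hS, map_sum, map_smul, Finset.sum_apply, Pi.smul_apply, smul_eq_mul, mul_sub,
        Finset.sum_sub_distrib, mul_ite, mul_one, mul_zero, Finset.sum_ite_eq, Finset.mem_univ,
        if_true]
    rw [Pi.sub_apply, e, Real.norm_eq_abs]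
    refine (Finset.abs_sum_le_sum_abs _ _).trans ?_
    refine (Finset.sum_le_card_nsmul _ _ (‖y‖ * (1 / 64)) fun i _ => ?_).trans ?_
    · rw [abs_mul]
      exact mul_le_mul (norm_le_pi_norm y i) (herr i j) (abs_nonneg _) (norm_nonneg _)
    · simp
      nlinarith [norm_nonneg y]
  have hinj : Function.Injective (Φ ∘ₗ S) := by
    refine (injective_iff_map_eq_zero _).2 fun y hy => ?_
    have := hclose y
    rw [show Φ (S y) = 0 from hy, zero_sub, norm_neg] at this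
    exact norm_le_zero_iff.1 (by linarith [norm_nonneg y])
  intro y
  obtain ⟨z, hz⟩ := LinearMap.surjective_of_injective hinj y
  rw [LinearMap.comp_apply] at hz
  have hzy : ‖z‖ ≤ 2 * ‖y‖ := by
    have h1 := hclose z
    rw [hz, norm_sub_rev] at h1
    have h2 := norm_le_norm_add_norm_sub y z
    linarith [norm_sub_rev y z]
  refine ⟨S z, ?_, fun i => ?_⟩
  · rw [hS]
    refine (norm_sum_le _ _).trans ?_
    refine (Finset.sum_le_card_nsmul _ _ (2 * ‖y‖ * B ^ C) fun i _ => ?_).trans ?_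
    · rw [norm_smul]
      exact mul_le_mul ((norm_le_pi_norm z i).trans hzy) (hWb i) (norm_nonneg _) (by positivity)
    · simp
      nlinarith [mul_le_mul_of_nonneg_right hpow (norm_nonneg y),
        mul_nonneg (pow_nonneg (by linarith : (0 : ℝ) ≤ B) C) (norm_nonneg y)]
  · have := congrFun hz i
    rw [hΦ] at this
    rw [← this]
    field_simp

end

end Vale.Agent.P205.Generic
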