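import Vale.Agent.P205.Generic.Var
import Vale.Agent.P205.Full.Algebra.Jets

/-!
Lifts: a functional of a map, evaluated along a family of maps, as a family in parameter and
point; derivatives commute with lifting. Wrappers of the expansion calculus for products.
-/

namespace Vale.Agent.P205.Generic

open scoped ContDiff RealInnerProductSpace
open Set Vale.Agent.P205.Algebra

noncomputable section

variable {V : Type*} [NormedAddCommGroup V] [NormedSpace ℝ V]
variable {X : Type*} [NormedAddCommGroup X] [NormedSpace ℝ X]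
variable {ι : Type*} {S : VScale ι}

/-- The map at parameter `s`. -/
def slice (G : ι → Ext → V) (i : ι) (s : ℝ) : ℝ × ℝ → V := fun p => G i (s, p)

/-- A functional of maps along a family. -/
def lf (G : ι → Ext → V4) (Φ : (R2 → V4) → R2 → X) (i : ι) (q : Ext) : X :=
  Φ (slice G i q.1) q.2

lemma hasFDerivAt_slice {G : ι → Ext → V} (hG : Sm S G) (i : ι) {q : Ext} (hq : q ∈ S.win i) :
    HasFDerivAt (slice G i q.1)
      ((fderiv ℝ (G i) q).comp (ContinuousLinearMap.inr ℝ ℝ (ℝ × ℝ))) q.2 :=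
  (((hG i).differentiableOn (by simp)).differentiableAt
    ((S.win_open i).mem_nhds hq)).hasFDerivAt.comp q.2 (hasFDerivAt_prodMk_right q.1 q.2)

lemma dx_slice {G : ι → Ext → V} (hG : Sm S G) (i : ι) {q : Ext} (hq : q ∈ S.win i) :
    Algebra.dx (slice G i q.1) q.2 = lX G i q := by
  rw [Algebra.dx, (hasFDerivAt_slice hG i hq).fderiv]; rfl

lemma dy_slice {G : ι → Ext → V} (hG : Sm S G) (i : ι) {q : Ext} (hq : q ∈ S.win i) :
    Algebra.dy (slice G i q.1) q.2 = lY G i q := by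
  rw [Algebra.dy, (hasFDerivAt_slice hG i hq).fderiv]; rfl

/-- Lifting commutes with the first derivative. -/
lemma lf_dx {G : ι → Ext → V4} {Φ : (R2 → V4) → R2 → X} (h : Sm S (lf G Φ)) (i : ι) :
    EqOn (lf G (fun F => Algebra.dx (Φ F)) i) (lX (lf G Φ) i) (S.win i) :=
  fun _ hq => dx_slice (G := lf G Φ) h i hq

/-- Lifting commutes with the second derivative. -/
lemma lf_dy {G : ι → Ext → V4} {Φ : (R2 → V4) → R2 → X} (h : Sm S (lf G Φ)) (i : ι) :
    EqOn (lf G (fun F => Algebra.dy (Φ F)) i) (lY (lf G Φ) i) (S.win i) :=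
  fun _ hq => dy_slice (G := lf G Φ) h i hq

variable {G H : ι → Ext → V}

lemma eqOn_lX (h : ∀ i, EqOn (G i) (H i) (S.win i)) (i : ι) :
    EqOn (lX G i) (lX H i) (S.win i) := fun q hq => by
  simp only [lX, (Filter.eventuallyEq_of_mem ((S.win_open i).mem_nhds hq) (h i)).fderiv_eq]

lemma eqOn_lY (h : ∀ i, EqOn (G i) (H i) (S.win i)) (i : ι) :
    EqOn (lY G i) (lY H i) (S.win i) := fun q hq => by
  simp only [lY, (Filter.eventuallyEq_of_mem ((S.win_open i).mem_nhds hq) (h i)).fderiv_eq]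

lemma lX_lY_comm (hG : Sm S G) (i : ι) : EqOn (lX (lY G) i) (lY (lX G) i) (S.win i) :=
  fun q hq => by
  have h := (hG i).contDiffAt ((S.win_open i).mem_nhds hq)
  have hs : IsSymmSndFDerivAt ℝ (G i) q := h.isSymmSndFDerivAt
    (by rw [minSmoothness_of_isRCLikeNormedField]; exact WithTop.coe_le_coe.mpr le_top)
  have hd : DifferentiableAt ℝ (fderiv ℝ (G i)) q :=
    (h.fderiv_right (m := ∞) le_rfl).differentiableAt (by simp)
  have e : ∀ u v : Ext, fderiv ℝ (fun q => fderiv ℝ (G i) q v) q u =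
      fderiv ℝ (fderiv ℝ (G i)) q u v := fun u v => by
    rw [fderiv_clm_apply hd (differentiableAt_const v)]
    simp
  unfold lX lY
  rw [e, e, hs.eq]

lemma lX_inner {U T : ι → Ext → V4} (hU : Sm S U) (hT : Sm S T) (i : ι) :
    EqOn (lX (fun i q => ⟪U i q, T i q⟫) i)
      (fun q => ⟪U i q, lX T i q⟫ + ⟪lX U i q, T i q⟫) (S.win i) := fun q hq =>
  fderiv_inner_apply ℝ (((hU i).differentiableOn (by simp)).differentiableAt
    ((S.win_open i).mem_nhds hq)) (((hT i).differentiableOn (by simp)).differentiableAt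
    ((S.win_open i).mem_nhds hq)) _

lemma lY_inner {U T : ι → Ext → V4} (hU : Sm S U) (hT : Sm S T) (i : ι) :
    EqOn (lY (fun i q => ⟪U i q, T i q⟫) i)
      (fun q => ⟪U i q, lY T i q⟫ + ⟪lY U i q, T i q⟫) (S.win i) := fun q hq =>
  fderiv_inner_apply ℝ (((hU i).differentiableOn (by simp)).differentiableAt
    ((S.win_open i).mem_nhds hq)) (((hT i).differentiableOn (by simp)).differentiableAt
    ((S.win_open i).mem_nhds hq)) _

section Wrappers

variable {ζ : ι → ℝ × ℝ → ℝ} {n : ℕ}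

/-- Zero top coefficients. -/
def Flat (S : VScale ι) (ζ : ι → ℝ × ℝ → ℝ) (n : ℕ) (G : ι → Ext → V) : Prop :=
  Exp S ζ n G (fun _ _ => 0) (fun _ _ => 0)

variable {U T : ι → Ext → ℝ} {u20 u11 t20 t11 : ι → ℝ × ℝ → ℝ}

lemma Exp.mul (h : Exp S ζ n U u20 u11) (h' : Exp S ζ n T t20 t11) :
    Exp S ζ n (fun i q => U i q * T i q)
      (fun i p => u20 i p * base0 T i p + base0 U i p * t20 i p)
      (fun i p => u11 i p * base0 T i p + base0 U i p * t11 i p) :=
  (h.bilin (ContinuousLinearMap.mul ℝ ℝ) h').congr fun _ _ _ => rfl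

lemma Exp.const_mul (h : Exp S ζ n U u20 u11) (c : ℝ) :
    Exp S ζ n (fun i q => c * U i q) (fun i p => c * u20 i p) (fun i p => c * u11 i p) :=
  h.clm (c • ContinuousLinearMap.id ℝ ℝ)

lemma Exp.inner {A B : ι → Ext → V4} {a20 a11 b20 b11 : ι → ℝ × ℝ → V4}
    (h : Exp S ζ n A a20 a11) (h' : Exp S ζ n B b20 b11) :
    Exp S ζ n (fun i q => ⟪A i q, B i q⟫)
      (fun i p => ⟪a20 i p, base0 B i p⟫ + ⟪base0 A i p, b20 i p⟫)
      (fun i p => ⟪a11 i p, base0 B i p⟫ + ⟪base0 A i p, b11 i p⟫) :=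
  (h.bilin (innerSL ℝ : V4 →L[ℝ] V4 →L[ℝ] ℝ) h').congr fun _ _ _ => rfl

lemma Flat.congr (h : Flat S ζ n G) (e : ∀ i, EqOn (H i) (G i) (S.win i)) : Flat S ζ n H :=
  Exp.congr h e

lemma Flat.add (h : Flat S ζ n G) (h' : Flat S ζ n H) : Flat S ζ n (fun i q => G i q + H i q) :=
  (Exp.add h h').coeff (fun i p _ => by simp) (fun i p _ => by simp)

lemma Flat.sub (h : Flat S ζ n G) (h' : Flat S ζ n H) : Flat S ζ n (fun i q => G i q - H i q) :=
  (Exp.sub h h').coeff (fun i p _ => by simp) (fun i p _ => by simp)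

lemma Flat.clm (L : V →L[ℝ] X) (h : Flat S ζ n G) : Flat S ζ n (fun i q => L (G i q)) :=
  (Exp.clm L h).coeff (fun i p _ => by simp) (fun i p _ => by simp)

lemma Flat.neg (h : Flat S ζ n G) : Flat S ζ n (fun i q => -G i q) :=
  (Exp.neg h).coeff (fun i p _ => by simp) (fun i p _ => by simp)

lemma Flat.mul (h : Flat S ζ n U) (h' : Flat S ζ n T) : Flat S ζ n (fun i q => U i q * T i q) :=
  (Exp.mul h h').coeff (fun i p _ => by simp) (fun i p _ => by simp)

lemma Flat.smul (h : Flat S ζ n U) (h' : Flat S ζ n G) : Flat S ζ n (fun i q => U i q • G i q) :=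
  ((Exp.bilin (ContinuousLinearMap.lsmul ℝ ℝ) h h').congr fun _ _ _ => rfl).coeff
    (fun i p _ => by simp) (fun i p _ => by simp)

lemma Flat.inner {A B : ι → Ext → V4} (h : Flat S ζ n A) (h' : Flat S ζ n B) :
    Flat S ζ n (fun i q => ⟪A i q, B i q⟫) :=
  (Exp.inner h h').coeff (fun i p _ => by simp) (fun i p _ => by simp)

lemma Flat.const (c : V) : Flat S ζ n (fun _ _ => c) := by
  refine Exp.of_O (fun _ => contDiffOn_const) (baseBd_const c) ?_
  refine ((O.bilin_base (ContinuousLinearMap.lsmul ℝ ℝ) (u := fun _ _ => (0 : ℝ)) ?_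
    (baseBd_const c)).congr fun i p _ => ?_)
  · exact ⟨fun i => contDiffOn_const, fun a b => ⟨0, fun i p _ => by
      have hx : dx (fun _ : ℝ × ℝ => (0 : ℝ)) = fun _ => 0 := by ext; simp [Generic.dx]
      have hy : dy (fun _ : ℝ × ℝ => (0 : ℝ)) = fun _ => 0 := by ext; simp [Generic.dy]
      simp only [pd, Function.iterate_fixed hx a, Function.iterate_fixed hy b, norm_zero]
      have := S.wt_nonneg (ι := ι) n i
      have := pow_nonneg (S.freq_nonneg i) a
      positivity⟩⟩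
  · simp [var1]

lemma Flat.cross {A B C : ι → Ext → V4} (ha : Flat S ζ n A) (hb : Flat S ζ n B)
    (hc : Flat S ζ n C) : Flat S ζ n (fun i q => cross4 (A i q) (B i q) (C i q)) := by
  have co : ∀ {w : ι → Ext → V4}, Flat S ζ n w → ∀ j : Fin 4, Flat S ζ n (fun i q => w i q j) :=
    fun hw j => hw.clm (EuclideanSpace.proj j)
  have minor : ∀ i j k, Flat S ζ n
      (fun l q => A l q i * (B l q j * C l q k - B l q k * C l q j)) := fun i j k =>
    (co ha i).mul (((co hb j).mul (co hc k)).sub ((co hb k).mul (co hc j)))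
  have sm : ∀ (j : Fin 4) {c : ι → Ext → ℝ}, Flat S ζ n c →
      Flat S ζ n (fun l q => c l q • (EuclideanSpace.single j (1 : ℝ) : V4)) :=
    fun j _ hc => hc.smul (Flat.const _)
  refine ((((sm 0 (((minor 1 2 3).sub (minor 2 1 3)).add (minor 3 1 2))).add
    (sm 1 (((minor 0 2 3).sub (minor 2 0 3)).add (minor 3 0 2)).neg)).add
    (sm 2 (((minor 0 1 3).sub (minor 1 0 3)).add (minor 3 0 1)))).add
    (sm 3 (((minor 0 1 2).sub (minor 1 0 2)).add (minor 2 0 1)).neg)).congr fun l q _ => ?_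
  ext i
  fin_cases i <;> simp [cross4]

end Wrappers

section Frame

lemma inner_V4 (u v : V4) : ⟪u, v⟫ = u 0 * v 0 + u 1 * v 1 + u 2 * v 2 + u 3 * v 3 := by
  simp [PiLp.inner_apply, Fin.sum_univ_four, mul_comm]

lemma cross4_perp (x y z : V4) :
    ⟪x, cross4 x y z⟫ = 0 ∧ ⟪y, cross4 x y z⟫ = 0 ∧ ⟪z, cross4 x y z⟫ = 0 := by
  rw [inner_V4, inner_V4, inner_V4]
  simp [cross4]
  refine ⟨?_, ?_, ?_⟩ <;> ring

lemma cross4_sq (x y z : V4) (hxz : ⟪x, z⟫ = 0) (hyz : ⟪y, z⟫ = 0) :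
    ⟪cross4 x y z, cross4 x y z⟫ = (⟪x, x⟫ * ⟪y, y⟫ - ⟪x, y⟫ ^ 2) * ⟪z, z⟫ := by
  have e : ⟪cross4 x y z, cross4 x y z⟫ =
      ⟪x, x⟫ * (⟪y, y⟫ * ⟪z, z⟫ - ⟪y, z⟫ ^ 2) - ⟪x, y⟫ * (⟪x, y⟫ * ⟪z, z⟫ - ⟪y, z⟫ * ⟪x, z⟫)
        + ⟪x, z⟫ * (⟪x, y⟫ * ⟪y, z⟫ - ⟪y, y⟫ * ⟪x, z⟫) := by
    simp only [inner_V4]
    simp [cross4]
    ring
  rw [e, hxz, hyz]; ring

/-- A vector orthogonal to three vectors and to their cross product vanishes. -/
lemma eq_zero_of_perp (x y z w : V4) (hn : ⟪cross4 x y z, cross4 x y z⟫ ≠ 0) (h1 : ⟪x, w⟫ = 0)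
    (h2 : ⟪y, w⟫ = 0) (h3 : ⟪z, w⟫ = 0) (h4 : ⟪cross4 x y z, w⟫ = 0) : w = 0 := by
  set n := cross4 x y z with hn'
  let M : Matrix (Fin 4) (Fin 4) ℝ :=
    !![x 0, x 1, x 2, x 3; y 0, y 1, y 2, y 3; z 0, z 1, z 2, z 3; n 0, n 1, n 2, n 3]
  have hdet : M.det ≠ 0 := by
    intro h
    apply hn
    rw [inner_V4]
    simp [M, Matrix.det_succ_row_zero, Fin.sum_univ_succ, Fin.succAbove] at h
    simp [hn', cross4] at h ⊢
    linear_combination -h
  have hv : M.mulVec (fun j => w j) = 0 := by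
    rw [inner_V4] at h1 h2 h3 h4
    funext j
    fin_cases j <;> simp [M, Matrix.mulVec, dotProduct, Fin.sum_univ_four] <;> assumption
  ext j
  exact congrFun (Matrix.eq_zero_of_mulVec_eq_zero hdet hv) j

end Frame

end

end Vale.Agent.P205.Generic
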