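import Vale.Agent.P205.Generic.Lift

/-!
The response of the first and second order jets to a variation whose effect on the metric is tiny:
everything is governed by one scalar, `ζ = ⟪n1, ∂x Z⟫`, modulo the weight class of order zero.
-/

namespace Vale.Agent.P205.Generic

open scoped ContDiff RealInnerProductSpace
open Set Vale.Agent.P205.Algebra

noncomputable section

/-- The constant cutoff. -/
def one : R2 → ℝ := fun _ => 1

@[simp] lemma rinv_const_one (x : R2 → ℝ) (p : R2) : rinv one x p = (x p)⁻¹ := by simp [rinv, one]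

section Pointwise

variable {F : R2 → V4} {p : R2}

lemma dual_one (hd : detg F p ≠ 0) :
    ⟪Algebra.dx F p, v1 one F p⟫ = 1 ∧ ⟪Algebra.dy F p, v1 one F p⟫ = 0 ∧
      ⟪Algebra.dx F p, v2 one F p⟫ = 0 ∧ ⟪Algebra.dy F p, v2 one F p⟫ = 1 := by
  have e := real_inner_comm (Algebra.dx F p) (Algebra.dy F p)
  refine ⟨?_, ?_, ?_, ?_⟩ <;>
  · simp only [v1, v2, rinv_const_one, inner_smul_right, inner_sub_right, g11, g12, g22, e]
    simp only [detg, g11, g12, g22] at hd ⊢
    first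
    | (field_simp; done)
    | (field_simp; ring_nf)

lemma n0_perp (hd : detg F p ≠ 0) :
    ⟪Algebra.dx F p, n0 one F p⟫ = 0 ∧ ⟪Algebra.dy F p, n0 one F p⟫ = 0 := by
  obtain ⟨e1, e2, e3, e4⟩ := dual_one hd
  constructor <;>
    simp [n0, inner_sub_right, inner_smul_right, e1, e2, e3, e4, real_inner_comm (F22 F p)]

lemma n1_perp : ⟪Algebra.dx F p, n1 one F p⟫ = 0 ∧ ⟪Algebra.dy F p, n1 one F p⟫ = 0 ∧
    ⟪n0 one F p, n1 one F p⟫ = 0 :=
  cross4_perp _ _ _

lemma v_perp (hd : detg F p ≠ 0) :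
    ⟪v1 one F p, n0 one F p⟫ = 0 ∧ ⟪v2 one F p, n0 one F p⟫ = 0 ∧
      ⟪v1 one F p, n1 one F p⟫ = 0 ∧ ⟪v2 one F p, n1 one F p⟫ = 0 := by
  obtain ⟨a, b⟩ := n0_perp hd
  obtain ⟨c, d, -⟩ := n1_perp (F := F) (p := p)
  simp [v1, v2, inner_smul_left, inner_sub_left, a, b, c, d]

lemma n1_sq (hd : detg F p ≠ 0) :
    ⟪n1 one F p, n1 one F p⟫ = detg F p * Wsq one F p := by
  obtain ⟨a, b⟩ := n0_perp hd
  rw [n1, cross4_sq _ _ _ a b]; rfl

lemma F22_n1 (hd : detg F p ≠ 0) : ⟪F22 F p, n1 one F p⟫ = 0 := by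
  obtain ⟨-, -, c, d⟩ := v_perp hd
  have e : F22 F p = n0 one F p + ⟪F22 F p, Algebra.dx F p⟫ • v1 one F p
      + ⟪F22 F p, Algebra.dy F p⟫ • v2 one F p := by rw [n0]; abel
  rw [e]
  simp [inner_add_left, inner_smul_left, c, d, (n1_perp (F := F) (p := p)).2.2]

/-- The frame decomposition. -/
lemma frame_eq (hd : detg F p ≠ 0) (hw : Wsq one F p ≠ 0) (z : V4) :
    z = ⟪Algebra.dx F p, z⟫ • v1 one F p + ⟪Algebra.dy F p, z⟫ • v2 one F p
      + (⟪n0 one F p, z⟫ * iW one F p) • n0 one F p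
      + (⟪n1 one F p, z⟫ * (iW one F p * (detg F p)⁻¹)) • n1 one F p := by
  obtain ⟨e1, e2, e3, e4⟩ := dual_one hd
  obtain ⟨a, b⟩ := n0_perp hd
  obtain ⟨c, d, f⟩ := n1_perp (F := F) (p := p)
  obtain ⟨w1, w2, w3, w4⟩ := v_perp hd
  have hn : ⟪n1 one F p, n1 one F p⟫ ≠ 0 := by rw [n1_sq hd]; exact mul_ne_zero hd hw
  refine sub_eq_zero.mp (eq_zero_of_perp (Algebra.dx F p) (Algebra.dy F p) (n0 one F p) _ hn
    ?_ ?_ ?_ ?_)
  · simp [inner_sub_right, inner_add_right, inner_smul_right, e1, e3, a, c]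
  · simp [inner_sub_right, inner_add_right, inner_smul_right, e2, e4, b, d]
  · rw [real_inner_comm] at w1 w2
    simp [inner_sub_right, inner_add_right, inner_smul_right, w1, w2, f, iW]
    rw [show ‖n0 one F p‖ ^ 2 = Wsq one F p from (real_inner_self_eq_norm_sq _).symm]
    field_simp
    ring
  · rw [real_inner_comm] at w3 w4 f
    change ⟪n1 one F p, _⟫ = 0
    simp only [inner_sub_right, inner_add_right, inner_smul_right, w3, w4, f, n1_sq hd]
    simp only [iW, rinv_const_one]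
    field_simp
    ring

end Pointwise

variable {ι : Type*}

/-- A class two orders below the variation. -/
def Tiny {V : Type*} [NormedAddCommGroup V] [NormedSpace ℝ V] (S : VScale ι)
    (g : ι → ℝ × ℝ → V) : Prop :=
  Bd S.toScale (fun i => S.amp i * (S.freq i ^ 2)⁻¹) S.freq g

/-- A family with bounded base which is nondegenerate up to powers of the scale. -/
structure Nondeg (S : VScale ι) (G : ι → Ext → V4) : Prop where
  sm : Sm S G
  base : BaseBd S (base0 G)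
  detg_ne : ∀ i, ∀ q ∈ S.win i, lf G detg i q ≠ 0
  W_ne : ∀ i, ∀ q ∈ S.win i, lf G (Wsq one) i q ≠ 0
  low : ∃ k : ℕ, ∀ i, ∀ p ∈ S.dom i, 1 ≤ S.big i ^ k * |detg (slice G i 0) p| ∧
    1 ≤ S.big i ^ k * |Wsq one (slice G i 0) p|

/-- A nondegenerate family whose variation is of order zero and changes the metric by a class two
orders lower. -/
structure Resp (S : VScale ι) (G : ι → Ext → V4) : Prop extends Nondeg S G where
  var : O S 0 (var1 G)
  m11 : Tiny S (var1 fun i q => ⟪lX G i q, lX G i q⟫)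
  m12 : Tiny S (var1 fun i q => ⟪lX G i q, lY G i q⟫)
  m22 : Tiny S (var1 fun i q => ⟪lY G i q, lY G i q⟫)

/-- The scalar variation. -/
def zeta (G : ι → Ext → V4) (i : ι) (p : ℝ × ℝ) : ℝ :=
  ⟪n1 one (slice G i 0) p, Generic.dx (var1 G i) p⟫

variable {S : VScale ι} {G : ι → Ext → V4}

namespace Nondeg

variable (hR : Nondeg S G)
include hR

lemma j1 (i : ι) : EqOn (lf G Algebra.dx i) (lX G i) (S.win i) := fun _ hq => dx_slice hR.sm i hq

lemma j2 (i : ι) : EqOn (lf G Algebra.dy i) (lY G i) (S.win i) := fun _ hq => dy_slice hR.sm i hq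

lemma sm_j1 : Sm S (lf G Algebra.dx) := fun i => (hR.sm.lX i).congr (hR.j1 i)

lemma sm_j2 : Sm S (lf G Algebra.dy) := fun i => (hR.sm.lY i).congr (hR.j2 i)

lemma j11 (i : ι) : EqOn (lf G F11 i) (lX (lX G) i) (S.win i) := fun _ hq =>
  (lf_dx hR.sm_j1 i hq).trans (eqOn_lX hR.j1 i hq)

lemma j12 (i : ι) : EqOn (lf G F12 i) (lY (lX G) i) (S.win i) := fun _ hq =>
  (lf_dy hR.sm_j1 i hq).trans (eqOn_lY hR.j1 i hq)

lemma j22 (i : ι) : EqOn (lf G F22 i) (lY (lY G) i) (S.win i) := fun _ hq =>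
  (lf_dy hR.sm_j2 i hq).trans (eqOn_lY hR.j2 i hq)

end Nondeg

/-- The frame, all with zero top coefficients. -/
structure FrameFlat (S : VScale ι) (ζ : ι → ℝ × ℝ → ℝ) (n : ℕ) (G : ι → Ext → V4) : Prop where
  fx : Flat S ζ n (lf G Algebra.dx)
  fy : Flat S ζ n (lf G Algebra.dy)
  fyy : Flat S ζ n (lf G F22)
  idet : Flat S ζ n (lf G fun F p => (detg F p)⁻¹)
  g12 : Flat S ζ n (lf G g12)
  v1 : Flat S ζ n (lf G (v1 one))
  v2 : Flat S ζ n (lf G (v2 one))
  n0 : Flat S ζ n (lf G (n0 one))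
  n1 : Flat S ζ n (lf G (n1 one))
  iW : Flat S ζ n (lf G (iW one))

lemma Nondeg.frameFlat (hR : Nondeg S G) {ζ : ι → ℝ × ℝ → ℝ} {n : ℕ} (hx : Flat S ζ n (lX G))
    (hy : Flat S ζ n (lY G)) (hyy : Flat S ζ n (lY (lY G))) : FrameFlat S ζ n G := by
  obtain ⟨k, hk⟩ := hR.low
  have fx := hx.congr hR.j1
  have fy := hy.congr hR.j2
  have fyy := hyy.congr hR.j22
  have g11' : Flat S ζ n (lf G g11) := (fx.inner fx).congr fun _ _ _ => rfl
  have g12' : Flat S ζ n (lf G g12) := (fx.inner fy).congr fun _ _ _ => rfl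
  have g22' : Flat S ζ n (lf G g22) := (fy.inner fy).congr fun _ _ _ => rfl
  have det : Flat S ζ n (lf G detg) :=
    ((g11'.mul g22').sub (g12'.mul g12')).congr fun i q _ => by simp [lf, detg, sq]
  have idet : Flat S ζ n (lf G fun F p => (detg F p)⁻¹) :=
    ((Exp.inv det hR.detg_ne (k := k) fun i p hp => (hk i p hp).1).coeff
      (fun i p _ => by simp) (fun i p _ => by simp)).congr fun _ _ _ => rfl
  have v1' : Flat S ζ n (lf G (v1 one)) :=
    (idet.smul ((g22'.smul fx).sub (g12'.smul fy))).congr fun i q _ => by simp [lf, v1]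
  have v2' : Flat S ζ n (lf G (v2 one)) :=
    (idet.smul ((g11'.smul fy).sub (g12'.smul fx))).congr fun i q _ => by simp [lf, v2]
  have n0' : Flat S ζ n (lf G (n0 one)) :=
    ((fyy.sub ((fyy.inner fx).smul v1')).sub ((fyy.inner fy).smul v2')).congr fun _ _ _ => rfl
  have n1' : Flat S ζ n (lf G (n1 one)) := (fx.cross fy n0').congr fun _ _ _ => rfl
  have w : Flat S ζ n (lf G (Wsq one)) := (n0'.inner n0').congr fun _ _ _ => rfl
  have iW' : Flat S ζ n (lf G (iW one)) :=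
    ((Exp.inv w hR.W_ne (k := k) fun i p hp => (hk i p hp).2).coeff
      (fun i p _ => by simp) (fun i p _ => by simp)).congr fun i q _ => by simp [lf, iW]
  exact ⟨fx, fy, fyy, idet, g12', v1', v2', n0', n1', iW'⟩

end

end Vale.Agent.P205.Generic
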