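import Vale.Agent.P205.Generic.Delta
import Vale.Agent.P205.Full.Algebra.Jets

/-!
The multiplier `mainMult` on the stratum `P = R = 0`: it equals `D1² * sextic`.
-/

namespace Vale.Agent.P205.Generic

open scoped ContDiff

section Abstract

variable {E : Type*} [NormedAddCommGroup E] [NormedSpace ℝ E]

theorem differentiable_det22 {c X : E → ℝ × ℝ} (hc : Differentiable ℝ c) (hX : Differentiable ℝ X) :
    Differentiable ℝ fun x => det22 (c x) (X x) :=
  (hc.fst.fun_mul hX.snd).fun_sub (hc.snd.fun_mul hX.fst)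

theorem contDiff_det22 {n : WithTop ℕ∞} {c X : E → ℝ × ℝ} (hc : ContDiff ℝ n c)
    (hX : ContDiff ℝ n X) : ContDiff ℝ n fun x => det22 (c x) (X x) :=
  (hc.fst.mul hX.snd).sub (hc.snd.mul hX.fst)

theorem contDiff_mulM {n : WithTop ℕ∞} {a b : E → ℝ} {c : E → ℝ × ℝ} (ha : ContDiff ℝ n a)
    (hb : ContDiff ℝ n b) (hc : ContDiff ℝ n c) :
    ContDiff ℝ n fun x => mulM (a x) (b x) (c x) :=
  (ha.neg.mul hc.snd).prodMk (hc.fst.neg.sub (hb.mul hc.snd))

theorem fderiv_det22 {c X : E → ℝ × ℝ} {p : E} (hc : DifferentiableAt ℝ c p)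
    (hX : DifferentiableAt ℝ X p) (c0 : c p = 0) (u : E) :
    fderiv ℝ (fun x => det22 (c x) (X x)) p u = det22 (fderiv ℝ c p u) (X p) := by
  have c1 : (c p).1 = 0 := by rw [c0]; rfl
  have c2 : (c p).2 = 0 := by rw [c0]; rfl
  simp only [det22]
  rw [fderiv_fun_sub (hc.fst.fun_mul hX.snd) (hc.snd.fun_mul hX.fst),
    fderiv_fun_mul hc.fst hX.snd, fderiv_fun_mul hc.snd hX.fst, fderiv.fst hc, fderiv.snd hc]
  simp only [sub_apply, add_apply, smul_apply, smul_eq_mul,
    ContinuousLinearMap.comp_apply, ContinuousLinearMap.coe_fst', ContinuousLinearMap.coe_snd',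
    c1, c2]
  ring

theorem fderiv_mulM {a b : E → ℝ} {c : E → ℝ × ℝ} {p : E} (ha : DifferentiableAt ℝ a p)
    (hb : DifferentiableAt ℝ b p) (hc : DifferentiableAt ℝ c p) (c0 : c p = 0) (u : E) :
    fderiv ℝ (fun x => mulM (a x) (b x) (c x)) p u = mulM (a p) (b p) (fderiv ℝ c p u) := by
  have c2 : (c p).2 = 0 := by rw [c0]; rfl
  simp only [mulM]
  rw [DifferentiableAt.fderiv_prodMk (ha.fun_neg.fun_mul hc.snd)
      (hc.fst.fun_neg.fun_sub (hb.fun_mul hc.snd)), fderiv_fun_mul ha.fun_neg hc.snd,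
    fderiv_fun_sub hc.fst.fun_neg (hb.fun_mul hc.snd), fderiv_fun_neg, fderiv_fun_neg,
    fderiv_fun_mul hb hc.snd, fderiv.fst hc, fderiv.snd hc]
  simp only [ContinuousLinearMap.prod_apply, sub_apply, add_apply, neg_apply, smul_apply,
    smul_eq_mul, ContinuousLinearMap.comp_apply, ContinuousLinearMap.coe_fst',
    ContinuousLinearMap.coe_snd', c2, Prod.mk.injEq]
  constructor <;> ring

/-- Second derivative of `δ₄` at a zero of `c`. -/
theorem second_deriv_delta4Rows {a b : E → ℝ} {c X Y Z W : E → ℝ × ℝ} (ha : ContDiff ℝ 2 a)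
    (hb : ContDiff ℝ 2 b) (hc : ContDiff ℝ 2 c) (hX : ContDiff ℝ 2 X) (hY : ContDiff ℝ 2 Y)
    (hZ : ContDiff ℝ 2 Z) (hW : ContDiff ℝ 2 W) {p : E} (c0 : c p = 0) (u v : E) :
    fderiv ℝ (fun x => fderiv ℝ
        (fun y => delta4Rows (a y) (b y) (c y) (X y) (Y y) (Z y) (W y)) x u) p v =
      det22 (fderiv ℝ c p u) (X p) * det22 (fderiv ℝ c p v) (W p)
        + det22 (fderiv ℝ c p v) (X p) * det22 (fderiv ℝ c p u) (W p)
        - (det22 (fderiv ℝ c p u) (Y p) * det22 (mulM (a p) (b p) (fderiv ℝ c p v)) (W p)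
          + det22 (fderiv ℝ c p v) (Y p) * det22 (mulM (a p) (b p) (fderiv ℝ c p u)) (W p)) := by
  have hM := contDiff_mulM ha hb hc
  set f1 := fun x => det22 (c x) (X x) with hf1
  set g1 := fun x => det22 (c x) (W x) with hg1
  set f2 := fun x => det22 (c x) (Y x) with hf2
  set g2 := fun x => det22 (mulM (a x) (b x) (c x)) (W x) with hg2
  set f3 := fun x => det22 (c x) (Z x) with hf3
  set g3 := fun x => det22 (mulM (a x) (b x) (c x)) (c x) with hg3
  have C1 : ContDiff ℝ 2 fun x => f1 x * g1 x * 1 :=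
    ((contDiff_det22 hc hX).mul (contDiff_det22 hc hW)).mul contDiff_const
  have C2 : ContDiff ℝ 2 fun x => f2 x * g2 x * (-1) :=
    ((contDiff_det22 hc hY).mul (contDiff_det22 hM hW)).mul contDiff_const
  have C3 : ContDiff ℝ 2 fun x => f3 x * g3 x * 1 :=
    ((contDiff_det22 hc hZ).mul (contDiff_det22 hM hc)).mul contDiff_const
  have e : (fun y => delta4Rows (a y) (b y) (c y) (X y) (Y y) (Z y) (W y)) =
      fun y => f1 y * g1 y * 1 + f2 y * g2 y * (-1) + f3 y * g3 y * 1 := by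
    funext y; simp only [delta4Rows, f1, g1, f2, g2, f3, g3]; ring
  have hd : ∀ {φ : E → ℝ}, ContDiff ℝ 2 φ → Differentiable ℝ fun x => fderiv ℝ φ x u := fun hφ =>
    ((hφ.fderiv_right (m := 1) (by norm_num)).clm_apply contDiff_const).differentiable (by norm_num)
  have e2 : (fun x => fderiv ℝ (fun y => f1 y * g1 y * 1 + f2 y * g2 y * (-1) + f3 y * g3 y * 1) x u)
      = fun x => fderiv ℝ (fun y => f1 y * g1 y * 1) x u + fderiv ℝ (fun y => f2 y * g2 y * (-1)) x u
        + fderiv ℝ (fun y => f3 y * g3 y * 1) x u := by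
    funext x
    rw [fderiv_fun_add (((C1.add C2).differentiable (by norm_num)) x)
      ((C3.differentiable (by norm_num)) x),
      fderiv_fun_add ((C1.differentiable (by norm_num)) x) ((C2.differentiable (by norm_num)) x)]
    simp
  rw [e, e2, fderiv_fun_add ((hd C1 p).fun_add (hd C2 p)) (hd C3 p),
    fderiv_fun_add (hd C1 p) (hd C2 p)]
  simp only [add_apply]
  have z0 : ∀ (V : E → ℝ × ℝ), det22 (c p) (V p) = 0 := by intro V; simp [c0, det22]
  have zM : mulM (a p) (b p) (c p) = 0 := by simp [c0, mulM]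
  have zM' : ∀ (V : E → ℝ × ℝ), det22 (mulM (a p) (b p) (c p)) (V p) = 0 := by
    intro V; simp [zM, det22]
  rw [second_deriv_mul_mul (contDiff_det22 hc hX) (contDiff_det22 hc hW) contDiff_const (z0 X)
      (z0 W) u v,
    second_deriv_mul_mul (contDiff_det22 hc hY) (contDiff_det22 hM hW) contDiff_const (z0 Y)
      (zM' W) u v,
    second_deriv_mul_mul (contDiff_det22 hc hZ) (contDiff_det22 hM hc) contDiff_const (z0 Z)
      (zM' c) u v]
  have dc := (hc.differentiable (by norm_num)) p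
  have dM := (hM.differentiable (by norm_num)) p
  have dW := (hW.differentiable (by norm_num)) p
  simp only [fderiv_det22 dc ((hX.differentiable (by norm_num)) p) c0,
    fderiv_det22 dc dW c0, fderiv_det22 dc ((hY.differentiable (by norm_num)) p) c0,
    fderiv_det22 dc ((hZ.differentiable (by norm_num)) p) c0,
    fderiv_det22 dM dW zM, fderiv_det22 dM dc zM,
    fderiv_mulM ((ha.differentiable (by norm_num)) p) ((hb.differentiable (by norm_num)) p) dc c0]
  simp only [det22, c0, Prod.fst_zero, Prod.snd_zero]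
  ring

/-- The first derivative of `δ₄` vanishes at a zero of `c`. -/
theorem fderiv_delta4Rows {a b : E → ℝ} {c X Y Z W : E → ℝ × ℝ} (ha : Differentiable ℝ a)
    (hb : Differentiable ℝ b) (hc : Differentiable ℝ c) (hX : Differentiable ℝ X)
    (hY : Differentiable ℝ Y) (hZ : Differentiable ℝ Z) (hW : Differentiable ℝ W) {p : E}
    (c0 : c p = 0) :
    fderiv ℝ (fun y => delta4Rows (a y) (b y) (c y) (X y) (Y y) (Z y) (W y)) p = 0 := by
  have hM : Differentiable ℝ fun x => mulM (a x) (b x) (c x) :=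
    (ha.fun_neg.fun_mul hc.snd).prodMk (hc.fst.fun_neg.fun_sub (hb.fun_mul hc.snd))
  have zM : mulM (a p) (b p) (c p) = 0 := by simp [c0, mulM]
  have d := @differentiable_det22 E _ _
  ext u
  simp only [delta4Rows]
  rw [fderiv_fun_add (((d hc hX).fun_mul (d hc hW)).fun_sub ((d hc hY).fun_mul (d hM hW)) p)
      ((d hc hZ).fun_mul (d hM hc) p),
    fderiv_fun_sub ((d hc hX).fun_mul (d hc hW) p) ((d hc hY).fun_mul (d hM hW) p),
    fderiv_fun_mul (d hc hX p) (d hc hW p), fderiv_fun_mul (d hc hY p) (d hM hW p),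
    fderiv_fun_mul (d hc hZ p) (d hM hc p)]
  simp [c0, det22, mulM]

end Abstract

open Vale.Agent.P205.Algebra

variable {η : R2 → ℝ} {F : R2 → V4}

/-- On `P = R = 0` the closed multiplier is `D1² * sextic`. -/
theorem mainMult_eq_of_zero (hP : ContDiff ℝ ∞ (cP η F)) (hR : ContDiff ℝ ∞ (cR η F))
    (ha : ContDiff ℝ ∞ (ca η F)) (hb : ContDiff ℝ ∞ (cb η F)) (hN1 : ContDiff ℝ ∞ (N1 η F))
    (hN2 : ContDiff ℝ ∞ (N2 η F)) (h111 : ContDiff ℝ ∞ (G111 η F)) (h112 : ContDiff ℝ ∞ (G112 η F))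
    (h122 : ContDiff ℝ ∞ (G122 η F)) (h211 : ContDiff ℝ ∞ (G211 η F))
    (h212 : ContDiff ℝ ∞ (G212 η F)) (h222 : ContDiff ℝ ∞ (G222 η F)) {p : R2}
    (P0 : cP η F p = 0) (R0 : cR η F p = 0) :
    mainMult η F p =
      D1 (dx (cP η F) p) (dy (cP η F) p) (dx (cR η F) p) (dy (cR η F) p) ^ 2 *
        sextic (ca η F p) (cb η F p) (dx (cP η F) p) (dy (cP η F) p) (dx (cR η F) p)
          (dy (cR η F) p) := by
  have hc : ContDiff ℝ ∞ (cc η F) := hP.prodMk hR
  have c0 : cc η F p = 0 := by simp [cc, P0, R0]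
  have dd : ∀ {U : Type} [NormedAddCommGroup U] [NormedSpace ℝ U] {φ : R2 → U}, ContDiff ℝ ∞ φ →
      ContDiff ℝ ∞ (dx φ) ∧ ContDiff ℝ ∞ (dy φ) := fun hφ =>
    ⟨(hφ.fderiv_right (m := ∞) le_rfl).clm_apply contDiff_const,
     (hφ.fderiv_right (m := ∞) le_rfl).clm_apply contDiff_const⟩
  have mN : ∀ {u : R2 → R2}, ContDiff ℝ ∞ u → ContDiff ℝ ∞ (mulN η F u) := fun hu =>
    (hu.fst.smul hN1).add (hu.snd.smul hN2)
  have mM : ∀ {u : R2 → R2}, ContDiff ℝ ∞ u → ContDiff ℝ ∞ (Algebra.mulM η F u) := fun hu =>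
    (ha.neg.mul hu.snd).prodMk (hu.fst.neg.sub (hb.mul hu.snd))
  have hX : ContDiff ℝ ∞ (rowX η F).u := (dd hc).1.add (mN hc)
  have hXv : ContDiff ℝ ∞ (rowX η F).v := mM hc
  have hY : ContDiff ℝ ∞ (rowY η F).u := (dd hc).2
  have hZ : ContDiff ℝ ∞ (rowBox η F).u :=
    ((((dd hX).1.add (mN hX)).add ((hXv.fst.smul (dd hN1).2).add (hXv.snd.smul (dd hN2).2))).add
      (hb.smul (dd hX).2)).sub (ha.smul (dd hY).2)
  have hW : ContDiff ℝ ∞ (rowBox η F).v :=
    (((((mM hX).add (dd hXv).1).add (mN hXv)).add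
      (((dd ha).2.neg.mul hXv.snd).prodMk ((dd hb).2.neg.mul hXv.snd))).add
      (hb.smul (hX.add (dd hXv).2))).sub (ha.smul (hY.add (dd hc).2))
  have hδ : delta4 η F = fun y => delta4Rows (ca η F y) (cb η F y) (cc η F y)
      ((rowX η F).u y) ((rowY η F).u y) ((rowBox η F).u y) ((rowBox η F).v y) := by
    funext y
    rw [← det_rows_eq]
    rfl
  have two : (2 : WithTop ℕ∞) ≤ ∞ := WithTop.coe_le_coe.2 le_top
  have D : ∀ {U : Type} [NormedAddCommGroup U] [NormedSpace ℝ U] {φ : R2 → U}, ContDiff ℝ ∞ φ →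
      Differentiable ℝ φ := fun hφ => hφ.differentiable (by simp)
  have dcx : dx (cc η F) p = (dx (cP η F) p, dx (cR η F) p) := by
    simp only [dx]; rw [show cc η F = fun q => (cP η F q, cR η F q) from rfl,
      DifferentiableAt.fderiv_prodMk (D hP p) (D hR p)]; rfl
  have dcy : dy (cc η F) p = (dy (cP η F) p, dy (cR η F) p) := by
    simp only [dy]; rw [show cc η F = fun q => (cP η F q, cR η F q) from rfl,
      DifferentiableAt.fderiv_prodMk (D hP p) (D hR p)]; rfl
  have Xp : (rowX η F).u p = dx (cc η F) p := by simp [rowX, mulN, c0]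
  have dMc : ∀ u : R2, fderiv ℝ (Algebra.mulM η F (cc η F)) p u =
      mulM (ca η F p) (cb η F p) (fderiv ℝ (cc η F) p u) := fun u =>
    fderiv_mulM (D ha p) (D hb p) (D hc p) c0 u
  have Wp : (rowBox η F).v p =
      boxTop (ca η F p) (cb η F p) (dx (cc η F) p) (dy (cc η F) p) := by
    have v0 : (rowX η F).v p = 0 := by simp [rowX, Algebra.mulM, c0]
    have e1 : dx (rowX η F).v p = mulM (ca η F p) (cb η F p) (dx (cc η F) p) := dMc _
    have e2 : dy (rowX η F).v p = mulM (ca η F p) (cb η F p) (dy (cc η F) p) := dMc _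
    simp only [rowBox, dXv, dYv]
    rw [e1, e2]
    simp [rowY, boxTop, v0, Xp, mulN, Algebra.mulM, mulM]
    refine Prod.ext ?_ ?_ <;>
      (simp only [Prod.fst_add, Prod.snd_add, Prod.fst_sub, Prod.snd_sub, Prod.smul_fst,
        Prod.smul_snd, smul_eq_mul]; ring)
  have hess : ∀ u v : R2, fderiv ℝ (fun x => fderiv ℝ (delta4 η F) x u) p v =
      delta4Hess (ca η F p) (cb η F p) (dx (cc η F) p) (dy (cc η F) p) (fderiv ℝ (cc η F) p u)
        (fderiv ℝ (cc η F) p v) := by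
    intro u v
    rw [hδ, second_deriv_delta4Rows (ha.of_le two) (hb.of_le two) (hc.of_le two) (hX.of_le two)
      (hY.of_le two) (hZ.of_le two) (hW.of_le two) c0 u v, Xp, Wp]
    rfl
  have first : fderiv ℝ (delta4 η F) p = 0 := by
    rw [hδ]
    exact fderiv_delta4Rows (D ha) (D hb) (D hc) (D hX) (D hY) (D hZ) (D hW) c0
  have fx : dx (delta4 η F) p = 0 := by simp [dx, first]
  have fy : dy (delta4 η F) p = 0 := by simp [dy, first]
  have k11 : hess11 η F (delta4 η F) p = _ :=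
    (show hess11 η F (delta4 η F) p = dx (dx (delta4 η F)) p by simp [hess11, fx, fy]).trans
      (hess (1, 0) (1, 0))
  have k12 : hess12 η F (delta4 η F) p = _ :=
    (show hess12 η F (delta4 η F) p = dy (dx (delta4 η F)) p by simp [hess12, fx, fy]).trans
      (hess (1, 0) (0, 1))
  have k22 : hess22 η F (delta4 η F) p = _ :=
    (show hess22 η F (delta4 η F) p = dy (dy (delta4 η F)) p by simp [hess22, fx, fy]).trans
      (hess (0, 1) (0, 1))
  have hd4 : ContDiff ℝ ∞ (delta4 η F) := by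
    rw [hδ]
    exact (((contDiff_det22 hc hX).mul (contDiff_det22 hc hW)).sub
      ((contDiff_det22 hc hY).mul (contDiff_det22 (contDiff_mulM ha hb hc) hW))).add
      ((contDiff_det22 hc hZ).mul (contDiff_det22 (contDiff_mulM ha hb hc) hc))
  have hh11 : ContDiff ℝ ∞ (hess11 η F (delta4 η F)) :=
    ((dd (dd hd4).1).1.sub (h111.mul (dd hd4).1)).sub (h211.mul (dd hd4).2)
  have hh12 : ContDiff ℝ ∞ (hess12 η F (delta4 η F)) :=
    ((dd (dd hd4).1).2.sub (h112.mul (dd hd4).1)).sub (h212.mul (dd hd4).2)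
  have hh22 : ContDiff ℝ ∞ (hess22 η F (delta4 η F)) :=
    ((dd (dd hd4).2).2.sub (h122.mul (dd hd4).1)).sub (h222.mul (dd hd4).2)
  have grad := fun u => fderiv_closure (D hP p) (D hR p) (D ha p) (D hb p) (D hh11 p) (D hh12 p)
    (D hh22 p) P0 R0 u
  have gx : dx (pHess η F (delta4 η F)) p = _ := grad (1, 0)
  have gy : dy (pHess η F (delta4 η F)) p = _ := grad (0, 1)
  rw [mainMult, m0, gx, gy, k11, k12, k22]
  simp only [show fderiv ℝ (cc η F) p (1, 0) = dx (cc η F) p from rfl,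
    show fderiv ℝ (cc η F) p (0, 1) = dy (cc η F) p from rfl, dcx, dcy, delta4Hess_xx,
    delta4Hess_xy, delta4Hess_yy]
  simp only [dx, dy] at *
  rw [closure_h0, closure_h1, ← qform_gradient_eq]
  rfl

end Vale.Agent.P205.Generic
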