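import Vale.Agent.P205.Generic.Climb
import Vale.Agent.P205.Generic.Link
import Vale.Agent.P205.Full.Bridge.Local

/-!
The invariants of the chain belong to every class of functionals which is closed under sums,
products and derivatives and contains the invariants of order zero.  Four instances: smoothness
in parameter and point, bounds of the base family, smoothness for a fixed map, equality of germs.
-/

namespace Vale.Agent.P205.Generic

open scoped ContDiff RealInnerProductSpace Topology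
open Set Metric Filter Vale.Agent.P205.Algebra

noncomputable section

/-- A functional of a cut and a map. -/
abbrev Fn (V : Type) := (R2 → ℝ) → (R2 → V4) → R2 → V

/-- A class of functionals. -/
abbrev Cls := ∀ (V : Type) [NormedAddCommGroup V] [NormedSpace ℝ V], Fn V → Prop

/-- Closure under sums, products and derivatives. -/
structure Closed (Q : Cls) : Prop where
  const : ∀ {V : Type} [NormedAddCommGroup V] [NormedSpace ℝ V] (v : V), Q V fun _ _ _ => v
  add : ∀ {V : Type} [NormedAddCommGroup V] [NormedSpace ℝ V] {Φ Ψ : Fn V}, Q V Φ → Q V Ψ →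
    Q V fun η F x => Φ η F x + Ψ η F x
  bilin : ∀ {V W X : Type} [NormedAddCommGroup V] [NormedSpace ℝ V] [NormedAddCommGroup W]
    [NormedSpace ℝ W] [NormedAddCommGroup X] [NormedSpace ℝ X] {Φ : Fn V} {Ψ : Fn W}
    (L : V →L[ℝ] W →L[ℝ] X), Q V Φ → Q W Ψ → Q X fun η F x => L (Φ η F x) (Ψ η F x)
  dx : ∀ {V : Type} [NormedAddCommGroup V] [NormedSpace ℝ V] {Φ : Fn V}, Q V Φ →
    Q V fun η F => Algebra.dx (Φ η F)
  dy : ∀ {V : Type} [NormedAddCommGroup V] [NormedSpace ℝ V] {Φ : Fn V}, Q V Φ →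
    Q V fun η F => Algebra.dy (Φ η F)

variable {Q : Cls} {V W : Type} [NormedAddCommGroup V] [NormedSpace ℝ V] [NormedAddCommGroup W]
  [NormedSpace ℝ W]

namespace Closed

variable (hQ : Closed Q)
include hQ

omit hQ in
lemma congr (_hQ : Closed Q) {Φ Ψ : Fn V} (h : Q V Φ) (e : ∀ η F x, Φ η F x = Ψ η F x) :
    Q V Ψ := by
  obtain rfl : Φ = Ψ := funext fun η => funext fun F => funext (e η F)
  exact h

lemma clm {Φ : Fn V} (L : V →L[ℝ] W) (h : Q V Φ) : Q W fun η F x => L (Φ η F x) :=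
  hQ.bilin (ContinuousLinearMap.id ℝ (V →L[ℝ] W)) (hQ.const L) h

lemma neg {Φ : Fn V} (h : Q V Φ) : Q V fun η F x => -Φ η F x :=
  hQ.congr (hQ.clm (-ContinuousLinearMap.id ℝ V) h) fun _ _ _ => rfl

lemma sub {Φ Ψ : Fn V} (h : Q V Φ) (h' : Q V Ψ) : Q V fun η F x => Φ η F x - Ψ η F x :=
  hQ.congr (hQ.add h (hQ.neg h')) fun _ _ _ => (sub_eq_add_neg _ _).symm

lemma smul {Φ : Fn ℝ} {Ψ : Fn V} (h : Q ℝ Φ) (h' : Q V Ψ) :
    Q V fun η F x => Φ η F x • Ψ η F x :=
  hQ.bilin (ContinuousLinearMap.lsmul ℝ ℝ) h h'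

lemma mul {Φ Ψ : Fn ℝ} (h : Q ℝ Φ) (h' : Q ℝ Ψ) : Q ℝ fun η F x => Φ η F x * Ψ η F x :=
  hQ.bilin (ContinuousLinearMap.mul ℝ ℝ) h h'

lemma sq {Φ : Fn ℝ} (h : Q ℝ Φ) : Q ℝ fun η F x => Φ η F x ^ 2 :=
  hQ.congr (hQ.mul h h) fun _ _ _ => (pow_two _).symm

lemma inner {Φ Ψ : Fn V4} (h : Q V4 Φ) (h' : Q V4 Ψ) : Q ℝ fun η F x => ⟪Φ η F x, Ψ η F x⟫ :=
  hQ.bilin (innerSL ℝ) h h'

lemma pair {Φ : Fn V} {Ψ : Fn W} (h : Q V Φ) (h' : Q W Ψ) :
    Q (V × W) fun η F x => (Φ η F x, Ψ η F x) :=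
  hQ.congr (hQ.add (hQ.clm (ContinuousLinearMap.inl ℝ V W) h)
    (hQ.clm (ContinuousLinearMap.inr ℝ V W) h')) fun _ _ _ => by simp

lemma fst {Φ : Fn R2} (h : Q R2 Φ) : Q ℝ fun η F x => (Φ η F x).1 :=
  hQ.clm (ContinuousLinearMap.fst ℝ ℝ ℝ) h

lemma snd {Φ : Fn R2} (h : Q R2 Φ) : Q ℝ fun η F x => (Φ η F x).2 :=
  hQ.clm (ContinuousLinearMap.snd ℝ ℝ ℝ) h

lemma det {Φ Ψ : Fn R2} (h : Q R2 Φ) (h' : Q R2 Ψ) :
    Q ℝ fun η F x => det2 (Φ η F x) (Ψ η F x) :=
  hQ.bilin detL h h'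

end Closed

/-- Closure also under smooth maps, containing the map and the two regularised inverses. -/
structure Framed (Q : Cls) : Prop extends Closed Q where
  base : Q V4 fun _ F => F
  comp : ∀ {V W : Type} [NormedAddCommGroup V] [NormedSpace ℝ V] [NormedAddCommGroup W]
    [NormedSpace ℝ W] {Φ : Fn V} {g : V → W}, ContDiff ℝ ∞ g → Q V Φ →
    Q W fun η F x => g (Φ η F x)
  idet : Q ℝ (fun _ F => detg F) → Q ℝ fun η F => rinv η (detg F)
  iW : Q ℝ Wsq → Q ℝ Algebra.iW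

/-- The invariants of order zero. -/
structure Inv0 (Q : Cls) : Prop extends Closed Q where
  cP : Q ℝ Algebra.cP
  cR : Q ℝ Algebra.cR
  ca : Q ℝ Algebra.ca
  cb : Q ℝ Algebra.cb
  G111 : Q ℝ Algebra.G111
  G112 : Q ℝ Algebra.G112
  G122 : Q ℝ Algebra.G122
  G211 : Q ℝ Algebra.G211
  G212 : Q ℝ Algebra.G212
  G222 : Q ℝ Algebra.G222

/-- A framed class contains the invariants of order zero. -/
theorem Framed.inv0 (hQ : Framed Q) : Inv0 Q := by
  have c := hQ.toClosed
  have x := c.dx hQ.base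
  have y := c.dy hQ.base
  have m11 : Q ℝ fun _ F => g11 F := c.congr (c.inner x x) fun _ _ _ => rfl
  have m12 : Q ℝ fun _ F => g12 F := c.congr (c.inner x y) fun _ _ _ => rfl
  have m22 : Q ℝ fun _ F => g22 F := c.congr (c.inner y y) fun _ _ _ => rfl
  have d : Q ℝ fun _ F => detg F :=
    c.congr (c.sub (c.mul m11 m22) (c.sq m12)) fun _ _ _ => rfl
  have i := hQ.idet d
  have hv1 : Q V4 v1 := c.congr (c.smul i (c.sub (c.smul m22 x) (c.smul m12 y))) fun _ _ _ => rfl
  have hv2 : Q V4 v2 := c.congr (c.smul i (c.sub (c.smul m11 y) (c.smul m12 x))) fun _ _ _ => rfl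
  have f11 : Q V4 fun _ F => F11 F := c.dx x
  have f12 : Q V4 fun _ F => F12 F := c.dy x
  have f22 : Q V4 fun _ F => F22 F := c.dy y
  have hn0 : Q V4 Algebra.n0 := c.congr
    (c.sub (c.sub f22 (c.smul (c.inner f22 x) hv1)) (c.smul (c.inner f22 y) hv2))
    fun _ _ _ => rfl
  have hcross : ContDiff ℝ ∞ fun z : (V4 × V4) × V4 => cross4 z.1.1 z.1.2 z.2 := by
    refine contDiff_piLp' 2 fun i => ?_
    fin_cases i <;> simp [cross4] <;> fun_prop
  have hn1 : Q V4 Algebra.n1 :=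
    c.congr (hQ.comp hcross (c.pair (c.pair x y) hn0)) fun _ _ _ => rfl
  have hw := hQ.iW (c.congr (c.inner hn0 hn0) fun _ _ _ => rfl)
  have two : Q ℝ fun _ _ _ => (2 : ℝ) := c.const 2
  exact
    { toClosed := c
      ca := c.congr (c.neg (c.mul (c.inner f11 hn0) hw)) fun _ _ _ => rfl
      cb := c.congr (c.neg (c.mul (c.mul two (c.inner f12 hn0)) hw)) fun _ _ _ => rfl
      cP := c.congr (c.mul (c.inner f11 hn1) hw) fun _ _ _ => rfl
      cR := c.congr (c.mul (c.mul two (c.inner f12 hn1)) hw) fun _ _ _ => rfl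
      G111 := c.inner f11 hv1
      G112 := c.inner f12 hv1
      G122 := c.inner f22 hv1
      G211 := c.inner f11 hv2
      G212 := c.inner f12 hv2
      G222 := c.inner f22 hv2 }

namespace Inv0

variable (h : Inv0 Q)
include h

lemma cc : Q R2 Algebra.cc := h.congr (h.pair h.cP h.cR) fun _ _ _ => rfl

lemma N1 : Q R2 Algebra.N1 :=
  h.congr (h.pair (h.neg (h.add h.G111 (h.mul h.ca h.G122)))
    (h.neg (h.add (h.mul (h.const (2 : ℝ)) h.G112) (h.mul h.cb h.G122)))) fun _ _ _ => rfl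

lemma N2 : Q R2 Algebra.N2 :=
  h.congr (h.pair (h.sub (h.neg (h.add h.G211 (h.mul h.ca h.G222))) (h.dy h.ca))
    (h.sub (h.neg (h.add (h.mul (h.const (2 : ℝ)) h.G212) (h.mul h.cb h.G222))) (h.dy h.cb)))
    fun _ _ _ => rfl

lemma perp : Q R2 Algebra.perp := h.congr (h.pair (h.neg h.cR) h.cP) fun _ _ _ => rfl

lemma mulN {u : Fn R2} (hu : Q R2 u) : Q R2 fun η F => Algebra.mulN η F (u η F) :=
  h.congr (h.add (h.smul (h.fst hu) h.N1) (h.smul (h.snd hu) h.N2)) fun _ _ _ => rfl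

lemma mulM {u : Fn R2} (hu : Q R2 u) : Q R2 fun η F => Algebra.mulM η F (u η F) :=
  h.congr (h.pair (h.mul (h.neg h.ca) (h.snd hu))
    (h.sub (h.neg (h.fst hu)) (h.mul h.cb (h.snd hu)))) fun _ _ _ => rfl

lemma k1 : Q ℝ Algebra.k1 := h.det h.perp h.cc

lemma k2 : Q ℝ Algebra.k2 := h.det (h.mulM h.perp) h.cc

lemma dXY {E : (R2 → ℝ) → (R2 → V4) → Row} (hu : Q R2 fun η F => (E η F).u)
    (hv : Q R2 fun η F => (E η F).v) :
    (Q R2 fun η F => dXu η F (E η F)) ∧ (Q R2 fun η F => dXv η F (E η F)) ∧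
      (Q R2 fun η F => dYu (E η F)) ∧ Q R2 fun η F => dYv (E η F) :=
  ⟨h.congr (h.add (h.add (h.dx hu) (h.mulN hu))
      (h.add (h.smul (h.fst hv) (h.dy h.N1)) (h.smul (h.snd hv) (h.dy h.N2)))) fun _ _ _ => rfl,
    h.congr (h.add (h.add (h.add (h.mulM hu) (h.dx hv)) (h.mulN hv))
      (h.pair (h.mul (h.neg (h.dy h.ca)) (h.snd hv)) (h.mul (h.neg (h.dy h.cb)) (h.snd hv))))
      fun _ _ _ => rfl,
    h.congr (h.dy hu) fun _ _ _ => rfl, h.congr (h.add hu (h.dy hv)) fun _ _ _ => rfl⟩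

lemma rowX : (Q R2 fun η F => (Algebra.rowX η F).u) ∧ Q R2 fun η F => (Algebra.rowX η F).v :=
  ⟨h.congr (h.add (h.dx h.cc) (h.mulN h.cc)) fun _ _ _ => rfl, h.mulM h.cc⟩

lemma rowBox : (Q R2 fun η F => (Algebra.rowBox η F).u) ∧
    Q R2 fun η F => (Algebra.rowBox η F).v := by
  obtain ⟨a, b, c, d⟩ := h.dXY h.rowX.1 h.rowX.2
  obtain ⟨-, -, e, f⟩ := h.dXY (E := fun η F => Algebra.rowY η F) (h.dy h.cc) h.cc
  exact ⟨h.congr (h.sub (h.add a (h.smul h.cb c)) (h.smul h.ca e)) fun _ _ _ => rfl,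
    h.congr (h.sub (h.add b (h.smul h.cb d)) (h.smul h.ca f)) fun _ _ _ => rfl⟩

lemma chain : ∀ k, (Q R2 fun η F => (Algebra.chain η F k).u) ∧
    Q R2 fun η F => (Algebra.chain η F k).v
  | 0 => h.rowX
  | k + 1 => by
    obtain ⟨hu, hv⟩ := Inv0.chain k
    have hd := h.det h.perp hv
    obtain ⟨a, b, c, d⟩ := h.dXY (E := fun η F => norm1 η F (Algebra.chain η F k))
      (h.congr (h.sub (h.smul h.k1 hu) (h.smul hd (h.dy h.cc))) fun _ _ _ => rfl)
      (h.congr (h.sub (h.smul h.k1 hv) (h.smul hd h.cc)) fun _ _ _ => rfl)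
    have q := h.mul (h.det hv h.cc) (h.det h.perp (h.mulM h.perp))
    exact ⟨h.congr (h.sub (h.sub (h.smul h.k1 a) (h.smul h.k2 c)) (h.smul q (h.dy (h.dy h.cc))))
        fun _ _ _ => rfl,
      h.congr (h.sub (h.sub (h.smul h.k1 b) (h.smul h.k2 d))
        (h.smul q (h.smul (h.const (2 : ℝ)) (h.dy h.cc)))) fun _ _ _ => rfl⟩

lemma dck (k : ℕ) : Q ℝ fun η F => Dc η F (Algebra.chain η F k) :=
  h.congr (h.det (h.chain k).2 h.cc) fun _ _ _ => rfl

lemma bck (k : ℕ) : Q ℝ fun η F => Bc η F (Algebra.chain η F k) :=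
  h.congr (h.det h.cc (h.sub (h.smul h.k1 (h.chain k).1)
    (h.smul (h.det h.perp (h.chain k).2) (h.dy h.cc)))) fun _ _ _ => rfl

lemma quad0 : Q ℝ Generic.quad0 := h.congr (h.det (h.mulM h.cc) h.cc) fun _ _ _ => rfl

lemma kdet (j k : ℕ) : Q ℝ fun η F x => Algebra.k1 η F x * detChain η F j k x :=
  h.congr (h.sub (h.mul (h.dck k) (h.bck j)) (h.mul (h.dck j) (h.bck k)))
    fun _ _ _ => (k1_mul_det4 _ _ _).symm

lemma tq : Q ℝ fun η F x =>
    Algebra.dx (Algebra.cR η F) x + 2 * Algebra.dy (Algebra.cP η F) x :=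
  h.add (h.dx h.cR) (h.mul (h.const (2 : ℝ)) (h.dy h.cP))

lemma jac : Q ℝ fun η F x => D1 (Algebra.dx (Algebra.cP η F) x) (Algebra.dy (Algebra.cP η F) x)
    (Algebra.dx (Algebra.cR η F) x) (Algebra.dy (Algebra.cR η F) x) :=
  h.congr (h.sub (h.mul (h.dx h.cP) (h.dy h.cR)) (h.mul (h.dy h.cP) (h.dx h.cR)))
    fun _ _ _ => rfl

lemma delta4 : Q ℝ Algebra.delta4 := by
  have hM := h.mulM h.cc
  refine h.congr (h.add (h.sub (h.mul (h.det h.cc h.rowX.1) (h.det h.cc h.rowBox.2))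
      (h.mul (h.det h.cc (h.dy h.cc)) (h.det hM h.rowBox.2)))
    (h.mul (h.det h.cc h.rowBox.1) (h.det hM h.cc))) fun η F x => ?_
  exact (det_rows_eq (Algebra.ca η F x) (Algebra.cb η F x) (Algebra.cc η F x)
    ((Algebra.rowX η F).u x) ((Algebra.rowY η F).u x) ((Algebra.rowBox η F).u x)
    ((Algebra.rowBox η F).v x)).symm

lemma pHess : Q ℝ fun η F => Algebra.pHess η F (Algebra.delta4 η F) := by
  have d := h.delta4
  have dx := h.dx d
  have dy := h.dy d
  have h11 := h.sub (h.sub (h.dx dx) (h.mul h.G111 dx)) (h.mul h.G211 dy)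
  have h12 := h.sub (h.sub (h.dy dx) (h.mul h.G112 dx)) (h.mul h.G212 dy)
  have h22 := h.sub (h.sub (h.dy dy) (h.mul h.G122 dx)) (h.mul h.G222 dy)
  exact h.congr (h.add (h.add (h.mul (h.neg h.cR) h11)
    (h.mul (h.mul (h.const (2 : ℝ)) h.cP) h12))
    (h.mul (h.sub (h.mul h.cb h.cP) (h.mul h.ca h.cR)) h22)) fun _ _ _ => rfl

lemma mainMult : Q ℝ Algebra.mainMult := by
  have dx := h.dx h.pHess
  have dy := h.dy h.pHess
  exact h.congr (h.sub (h.add (h.sq dx) (h.mul (h.mul h.cb dx) dy)) (h.mul h.ca (h.sq dy)))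
    fun _ _ _ => rfl

end Inv0

/-- Smoothness in parameter and point. -/
def clsSmooth {ι : Type*} {p : ℕ} (P : Pert ι p) : Cls := fun _ _ _ Φ =>
  ∀ i, ContDiffOn ℝ ∞ (fun z : (Fin p → ℝ) × R2 => Φ one (P.H i z.1) z.2)
    (ball (0 : Fin p → ℝ) 5 ×ˢ P.dom i)

/-- Bounded base family. -/
def clsBd {ι : Type*} (S : VScale ι) (G : ι → Ext → V4) : Cls := fun _ _ _ Φ =>
  BaseBd S (base0 (lf G (Φ one)))

/-- Smoothness at a fixed cut and map. -/
def clsFix (η : R2 → ℝ) (F : R2 → V4) : Cls := fun _ _ _ Φ => ContDiff ℝ ∞ (Φ η F)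

/-- Equal germs at two pairs of cut and map. -/
def clsGerm (η η' : R2 → ℝ) (F F' : R2 → V4) (x : R2) : Cls := fun _ _ _ Φ =>
  Φ η F =ᶠ[𝓝 x] Φ η' F'

section Smooth

variable {ι : Type*} {p : ℕ} {P : Pert ι p}

lemma closed_smooth (P : Pert ι p) : Closed (clsSmooth P) := by
  have ho : ∀ i, IsOpen (ball (0 : Fin p → ℝ) 5 ×ˢ P.dom i) := fun i =>
    isOpen_ball.prod (P.isOpen i)
  have hd : ∀ {V : Type} [NormedAddCommGroup V] [NormedSpace ℝ V] {Φ : Fn V} (v : R2),
      clsSmooth P V Φ → clsSmooth P V fun η F x => fderiv ℝ (Φ η F) x v := by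
    intro V _ _ Φ v h i
    refine (((h i).fderiv_of_isOpen (ho i) (m := ∞) le_rfl).clm_apply
      (contDiffOn_const (c := ((0 : Fin p → ℝ), v)))).congr fun z hz => ?_
    have hf := (((h i).contDiffAt ((ho i).mem_nhds hz)).differentiableAt (by simp)).hasFDerivAt
    have h2 := HasFDerivAt.comp z.2
      (f := fun x : R2 => (z.1, x)) hf ((hasFDerivAt_prodMk_right z.1 z.2))
    exact DFunLike.congr_fun h2.fderiv v
  exact
    { const := fun _ _ => contDiffOn_const
      add := fun h h' i => (h i).add (h' i)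
      bilin := fun L h h' i => (L.contDiff.comp_contDiffOn (h i)).clm_apply (h' i)
      dx := fun h => hd (1, 0) h
      dy := fun h => hd (0, 1) h }

lemma framed_smooth (hR : P.Regular) : Framed (clsSmooth P) :=
  { toClosed := closed_smooth P
    base := fun i => (hR i).1
    comp := fun hg h i => hg.comp_contDiffOn (h i)
    idet := fun h i => ((h i).inv fun z hz =>
      ((hR i).2 z.1 (mem_ball_zero_iff.1 hz.1) z.2 hz.2).1).congr fun z _ => by simp
    iW := fun h i => ((h i).inv fun z hz =>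
      ((hR i).2 z.1 (mem_ball_zero_iff.1 hz.1) z.2 hz.2).2).congr fun z _ => by simp [iW] }

/-- The functionals of the stages are smooth in parameter and point. -/
theorem Pert.Regular.smooth (hR : P.Regular) :
    P.Smooth (cP one) ∧ P.Smooth (cR one) ∧ P.Smooth tq ∧ P.Smooth jac ∧
      (∀ k, P.Smooth (sx k)) ∧ (∀ k, P.Smooth (dck k)) ∧ (∀ j k, P.Smooth (kdet j k)) ∧
      P.Smooth (mainMult one) ∧ P.Smooth (quad0 one) := by
  have h := (framed_smooth hR).inv0
  refine ⟨h.cP, h.cR, h.tq, h.jac, fun k => ?_, h.dck, h.kdet, h.mainMult, h.quad0⟩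
  let g : ℕ → (ℝ × ℝ × ℝ × ℝ × ℝ) × ℝ → ℝ := fun k z =>
    (Polynomial.derivative^[k]
      (sexticPoly z.1.1 z.1.2.1 z.1.2.2.1 z.1.2.2.2.1 z.1.2.2.2.2)).eval z.2
  have hg : ∀ k, ContDiff ℝ ∞ (g k) := by
    intro k
    induction k with
    | zero =>
      rw [show g 0 = fun z => sextic z.1.1 z.1.2.1 z.2 z.1.2.2.1 z.1.2.2.2.1 z.1.2.2.2.2 from
        funext fun z => eval_sexticPoly _ _ _ _ _ _]
      simp only [sextic, qform, h0, h1, K11, K12, K22]
      fun_prop
    | succ k ih =>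
      convert (ih.fderiv_right (m := ∞) le_rfl).clm_apply
        (contDiff_const (c := ((0 : ℝ × ℝ × ℝ × ℝ × ℝ), (1 : ℝ)))) using 1
      funext z
      have h2 := ((ih.differentiable (by simp) z).hasFDerivAt.comp z.2
        (hasFDerivAt_prodMk_right z.1 z.2)).hasDerivAt.deriv
      simp only [g, Function.iterate_succ_apply', Function.comp_def, ← Polynomial.deriv] at h2 ⊢
      exact h2
  have h5 := h.pair h.ca (h.pair h.cb (h.pair (h.dy h.cP) (h.pair (h.dx h.cR) (h.dy h.cR))))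
  exact (framed_smooth hR).comp (hg k) (h.pair h5 (h.dx h.cP))

end Smooth

section Bound

variable {ι : Type*} {S : VScale ι} {G : ι → Ext → V4} {ζ μ A20 A11 B20 B11 : ι → ℝ × ℝ → ℝ}

lemma closed_bd (S : VScale ι) (G : ι → Ext → V4) : Closed (clsBd S G) :=
  { const := fun v => baseBd_const v
    add := fun h h' => (BaseBd.add h h').congr fun _ _ _ => rfl
    bilin := fun L h h' => BaseBd.bilin L h h'
    dx := fun h => (BaseBd.dx h).congr fun _ _ _ => rfl
    dy := fun h => (BaseBd.dy h).congr fun _ _ _ => rfl }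

lemma Top.inv0_bd (hR : Top S G ζ μ A20 A11 B20 B11) : Inv0 (clsBd S G) := by
  have c : ∀ {Φ : (R2 → V4) → R2 → ℝ},
      Φ ∈ [G111 one, G112 one, G122 one, G211 one, G212 one, G222 one] →
        BaseBd S (base0 (lf G Φ)) := fun hΦ => by
    obtain ⟨_, _, h⟩ := hR.chris _ hΦ
    exact h.base
  exact
    { toClosed := closed_bd S G
      cP := hR.exp_cP.base
      cR := hR.exp_cR.base
      ca := hR.exp_ca.base
      cb := hR.exp_cb.base
      G111 := c (by simp)
      G112 := c (by simp)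
      G122 := c (by simp)
      G211 := c (by simp)
      G212 := c (by simp)
      G222 := c (by simp) }

/-- The closed multiplier has an expansion of order five. -/
theorem Top.mainMult_ex (hR : Top S G ζ μ A20 A11 B20 B11) : Ex S ζ G 5 (mainMult one) := by
  have dX : ∀ {W : Type} [NormedAddCommGroup W] [NormedSpace ℝ W] {n : ℕ}
      {Φ : (R2 → V4) → R2 → W}, Ex S ζ G n Φ → Ex S ζ G (n + 1) fun F => Algebra.dx (Φ F) :=
    fun h => let ⟨_, _, h⟩ := h; ⟨_, _, hR.ex_dx h⟩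
  have dY : ∀ {W : Type} [NormedAddCommGroup W] [NormedSpace ℝ W] {n : ℕ}
      {Φ : (R2 → V4) → R2 → W}, Ex S ζ G n Φ → Ex S ζ G (n + 1) fun F => Algebra.dy (Φ F) :=
    fun h => let ⟨_, _, h⟩ := h; ⟨_, _, hR.ex_dy h⟩
  have up : ∀ {W : Type} [NormedAddCommGroup W] [NormedSpace ℝ W] {n : ℕ} (m : ℕ)
      {Φ : (R2 → V4) → R2 → W}, Ex S ζ G n Φ → n ≤ m → Ex S ζ G m Φ :=
    fun _ _ h hn => hR.le_ex h hn
  have two : ∀ m, Ex S ζ G m fun _ _ => (2 : ℝ) := fun m => ⟨_, _, Flat.const (2 : ℝ)⟩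
  obtain ⟨Xu, Xv⟩ := hR.chain_ex 0
  have c1 := up 1 hR.cc_ex zero_le_one
  have dN1 := up 2 (dY hR.N1_ex) one_le_two
  have dN2 := dY hR.N2_ex
  have Xv1 := up 1 Xv zero_le_one
  have Xv2 := up 2 Xv (by norm_num)
  have dXu1 : Ex S ζ G 2 fun F => dXu one F (Algebra.rowX one F) :=
    (((dX Xu).add (up 2 (hR.mulN_ex le_rfl Xu) one_le_two)).add
      ((Xv2.fst.smul dN1).add (Xv2.snd.smul dN2))).congr fun _ _ => rfl
  have dXv1 : Ex S ζ G 1 fun F => dXv one F (Algebra.rowX one F) :=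
    ((((hR.mulM_ex Xu).add (dX Xv)).add (hR.mulN_ex le_rfl Xv1)).add
      (Ex.pair ((dY hR.ca_ex).neg.mul Xv1.snd) ((dY hR.cb_ex).neg.mul Xv1.snd))).congr
      fun _ _ => rfl
  have a2 := up 2 hR.ca_ex (by norm_num)
  have b2 := up 2 hR.cb_ex (by norm_num)
  have Zu : Ex S ζ G 2 fun F => (Algebra.rowBox one F).u :=
    ((dXu1.add (b2.smul (dY Xu))).sub (a2.smul (dY hR.dcc_ex))).congr fun _ _ => rfl
  have Zv : Ex S ζ G 2 fun F => (Algebra.rowBox one F).v :=
    (up 2 ((dXv1.add ((up 1 hR.cb_ex zero_le_one).smul (Xu.add (dY Xv)))).sub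
      ((up 1 hR.ca_ex zero_le_one).smul (hR.dcc_ex.add (dY hR.cc_ex)))) one_le_two).congr
      fun _ _ => rfl
  have C := up 2 hR.cc_ex (by norm_num)
  have M := hR.mulM_ex C
  have d4 : Ex S ζ G 2 (Algebra.delta4 one) := by
    refine ((((C.det (up 2 Xu one_le_two)).mul (C.det Zv)).sub
      ((C.det (up 2 hR.dcc_ex one_le_two)).mul (M.det Zv))).add
        ((C.det Zu).mul (M.det C))).congr fun F x => ?_
    exact det_rows_eq (Algebra.ca one F x) (Algebra.cb one F x) (Algebra.cc one F x)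
      ((Algebra.rowX one F).u x) ((Algebra.rowY one F).u x) ((Algebra.rowBox one F).u x)
      ((Algebra.rowBox one F).v x)
  have G4 : ∀ Φ ∈ [G111 one, G112 one, G122 one, G211 one, G212 one, G222 one],
      Ex S ζ G 4 Φ := fun Φ hΦ => up 4 (hR.chris Φ hΦ) (by norm_num)
  have x4 := up 4 (dX d4) (by norm_num)
  have y4 := up 4 (dY d4) (by norm_num)
  have z : ∀ {Φ : (R2 → V4) → R2 → ℝ}, Ex S ζ G 0 Φ → Ex S ζ G 4 Φ := fun h =>
    up 4 h (by norm_num)
  have h11 : Ex S ζ G 4 fun F => hess11 one F (Algebra.delta4 one F) :=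
    (((dX (dX d4)).sub ((G4 (G111 one) (by simp)).mul x4)).sub
      ((G4 (G211 one) (by simp)).mul y4)).congr fun _ _ => rfl
  have h12 : Ex S ζ G 4 fun F => hess12 one F (Algebra.delta4 one F) :=
    (((dY (dX d4)).sub ((G4 (G112 one) (by simp)).mul x4)).sub
      ((G4 (G212 one) (by simp)).mul y4)).congr fun _ _ => rfl
  have h22 : Ex S ζ G 4 fun F => hess22 one F (Algebra.delta4 one F) :=
    (((dY (dY d4)).sub ((G4 (G122 one) (by simp)).mul x4)).sub
      ((G4 (G222 one) (by simp)).mul y4)).congr fun _ _ => rfl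
  have ca' := z hR.ca_ex
  have cb' := z hR.cb_ex
  have cP' := z (Φ := cP one) ⟨_, _, hR.exp_cP⟩
  have cR' := z (Φ := cR one) ⟨_, _, hR.exp_cR⟩
  have ph : Ex S ζ G 4 fun F => Algebra.pHess one F (Algebra.delta4 one F) :=
    (((cR'.neg.mul h11).add (((two 4).mul cP').mul h12)).add
      (((cb'.mul cP').sub (ca'.mul cR')).mul h22)).congr fun _ _ => rfl
  have px := dX ph
  have py := dY ph
  exact (((px.mul px).add (((up 5 hR.cb_ex (by norm_num)).mul px).mul py)).sub
    ((up 5 hR.ca_ex (by norm_num)).mul (py.mul py))).congr fun F x => by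
      simp only [mainMult, m0, pow_two]

/-- The closed multiplier has a bounded base. -/
theorem Top.base_mainMult (hR : Top S G ζ μ A20 A11 B20 B11) :
    BaseBd S (base0 (lf G (mainMult one))) := hR.inv0_bd.mainMult

/-- The Jacobian of `(P, R)` has a bounded base. -/
theorem Top.base_jac (hR : Top S G ζ μ A20 A11 B20 B11) : BaseBd S (base0 (lf G jac)) :=
  hR.inv0_bd.jac

/-- The sextic has a bounded base. -/
theorem Top.base_sx (hR : Top S G ζ μ A20 A11 B20 B11) (k : ℕ) :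
    BaseBd S (base0 (lf G (sx k))) := by
  obtain ⟨_, h⟩ := hR.exp_sx k
  exact h.base

end Bound

lemma closed_fix (η : R2 → ℝ) (F : R2 → V4) : Closed (clsFix η F) :=
  { const := fun _ => contDiff_const
    add := fun h h' => ContDiff.add h h'
    bilin := fun L h h' => (L.contDiff.comp h).clm_apply h'
    dx := fun h => (ContDiff.fderiv_right h (m := ∞) le_rfl).clm_apply contDiff_const
    dy := fun h => (ContDiff.fderiv_right h (m := ∞) le_rfl).clm_apply contDiff_const }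

lemma closed_germ (η η' : R2 → ℝ) (F F' : R2 → V4) (x : R2) :
    Closed (clsGerm η η' F F' x) :=
  { const := fun _ => EventuallyEq.rfl
    add := fun h h' => EventuallyEq.add h h'
    bilin := fun L h h' => by
      filter_upwards [h, h'] with z e e'
      show L _ _ = L _ _
      rw [e, e']
    dx := fun h => (EventuallyEq.fderiv (𝕜 := ℝ) h).mono fun z e => by
      show _ = fderiv ℝ _ z (1, 0)
      rw [← e]; rfl
    dy := fun h => (EventuallyEq.fderiv (𝕜 := ℝ) h).mono fun z e => by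
      show _ = fderiv ℝ _ z (0, 1)
      rw [← e]; rfl }

/-- On `P = R = 0` the closed multiplier is `D1² * sextic`, for a map smooth and nondegenerate
near the point. -/
theorem mainMult_eq_of_zero_at {F : R2 → V4} {U : Set R2} (hU : IsOpen U)
    (hF : ContDiffOn ℝ ∞ F U) {x : R2} (hx : x ∈ U) (hd : detg F x ≠ 0)
    (hW : Wsq one F x ≠ 0) (P0 : cP one F x = 0) (R0 : cR one F x = 0) :
    mainMult one F x = jac F x ^ 2 * sx 0 F x := by
  obtain ⟨r, hr, hrU⟩ := nhds_basis_closedBall.mem_iff.1 (hU.mem_nhds hx)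
  let b : ContDiffBump x := ⟨r / 2, r, half_pos hr, half_lt_self hr⟩
  set G : R2 → V4 := fun y => b y • F y with hGd
  have hG : ContDiff ℝ ∞ G := by
    refine contDiff_iff_contDiffAt.mpr fun y => ?_
    by_cases hy : y ∈ U
    · exact b.contDiff.contDiffAt.smul (hF.contDiffAt (hU.mem_nhds hy))
    · refine (contDiffAt_const (c := (0 : V4))).congr_of_eventuallyEq ?_
      filter_upwards [isClosed_closedBall.isOpen_compl.mem_nhds
        (fun h : y ∈ closedBall x r => hy (hrU h))] with z hz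
      have : b z = 0 := b.zero_of_le_dist (le_of_lt (not_le.mp hz))
      simp [hGd, this]
  have eG : G =ᶠ[𝓝 x] F := by
    filter_upwards [b.eventuallyEq_one] with y hy
    simp only [hGd]
    rw [hy, Pi.one_apply, one_smul]
  -- plain jet functions of a smooth map
  have sdx : ContDiff ℝ ∞ (Algebra.dx G) := (closed_fix one G).dx (Φ := fun _ F => F) hG
  have sdy : ContDiff ℝ ∞ (Algebra.dy G) := (closed_fix one G).dy (Φ := fun _ F => F) hG
  have sdet : ContDiff ℝ ∞ (detg G) :=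
    (((sdx.inner ℝ sdx).mul (sdy.inner ℝ sdy)).sub ((sdx.inner ℝ sdy).pow 2))
  have e1 : detg G x = detg F x := by
    simp only [detg, g11, g12, g22, Algebra.dx, Algebra.dy, eG.fderiv_eq]
  set Z := {y | detg G y ≠ 0}
  have hZ : IsOpen Z := isOpen_ne.preimage sdet.continuous
  have hWc : ContinuousOn (Wsq one G) Z := by
    have hi : ContinuousOn (rinv one (detg G)) Z :=
      (sdet.continuous.continuousOn.inv₀ fun y hy => hy).congr fun y _ => by simp
    have c := fun {f : R2 → ℝ} (h : Continuous f) => h.continuousOn (s := Z)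
    have hyy : Continuous (F22 G) :=
      ((sdy.fderiv_right (m := ∞) le_rfl).clm_apply contDiff_const).continuous
    have x' := sdx.continuous
    have y' := sdy.continuous
    have h1 : ContinuousOn (v1 one G) Z :=
      (hi.smul ((((y'.inner (𝕜 := ℝ) y').smul x').sub ((x'.inner (𝕜 := ℝ) y').smul y')).continuousOn)).congr
        fun y _ => by simp [v1, g22, g12]
    have h2 : ContinuousOn (v2 one G) Z :=
      (hi.smul ((((x'.inner (𝕜 := ℝ) x').smul y').sub ((x'.inner (𝕜 := ℝ) y').smul x')).continuousOn)).congr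
        fun y _ => by simp [v2, g11, g12]
    have h0 : ContinuousOn (n0 one G) Z :=
      ((hyy.continuousOn.sub ((c (hyy.inner (𝕜 := ℝ) x')).smul h1)).sub ((c (hyy.inner (𝕜 := ℝ) y')).smul h2)).congr
        fun y _ => by simp [n0]
    exact (h0.inner (𝕜 := ℝ) h0).congr fun y _ => by simp [Wsq]
  have eW : Wsq one G x = Wsq one F x := by
    have h22 : F22 G x = F22 F x := by
      have e : Algebra.dy G =ᶠ[𝓝 x] Algebra.dy F :=
        eG.fderiv.mono fun z hz => congrArg (fun L : R2 →L[ℝ] V4 => L (0, 1)) hz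
      simp only [F22]
      exact congrArg (fun L : R2 →L[ℝ] V4 => L (0, 1)) e.fderiv_eq
    simp only [Wsq, n0, v1, v2, rinv, detg, g11, g12, g22, Algebra.dx, h22]
    simp only [Algebra.dy, eG.fderiv_eq]
  have hV : IsOpen (Z ∩ Wsq one G ⁻¹' {0}ᶜ) :=
    hWc.isOpen_inter_preimage hZ isOpen_compl_singleton
  obtain ⟨ρ, hρ, hρV⟩ := nhds_basis_closedBall.mem_iff.1
    (hV.mem_nhds ⟨show detg G x ≠ 0 by rwa [e1], show Wsq one G x ≠ 0 by rwa [eW]⟩)
  let η : ContDiffBump x := ⟨ρ / 2, ρ, half_pos hρ, half_lt_self hρ⟩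
  have eη : (η : R2 → ℝ) =ᶠ[𝓝 x] one := η.eventuallyEq_one
  have supp : ∀ y, η y ≠ 0 → y ∈ Z ∩ Wsq one G ⁻¹' {0}ᶜ := fun y hy => hρV <| by
    by_contra hn
    exact hy (η.zero_of_le_dist (le_of_lt (not_le.mp hn)))
  have pd : ∀ y, detg G y + (1 - η y) ≠ 0 := fun y => by
    by_cases hy : η y = 0
    · rw [hy]; linarith [Bridge.detg_nonneg G y]
    · have := (Bridge.detg_nonneg G y).lt_of_ne' (supp y hy).1
      have := η.le_one (x := y)
      linarith
  have pW : ∀ y, Wsq η G y + (1 - η y) ≠ 0 := fun y => by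
    have h0 : 0 ≤ Wsq η G y := real_inner_self_nonneg
    by_cases hy : η y = 0
    · rw [hy]; linarith
    · obtain ⟨h1, h2⟩ := supp y hy
      have h3 : 0 < Wsq one G y :=
        (real_inner_self_nonneg (x := n0 one G y)).lt_of_ne' h2
      have := Bridge.Wsq_le (η := η) G ((Bridge.detg_nonneg G y).lt_of_ne' h1)
      have := η.le_one (x := y)
      have : Wsq (fun _ => 1) G y = Wsq one G y := rfl
      linarith
  have hfix : Inv0 (clsFix η G) := Framed.inv0
    { toClosed := closed_fix η G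
      base := hG
      comp := fun hg h => ContDiff.comp hg h
      idet := fun h => (ContDiff.add h (contDiff_const.sub η.contDiff)).inv pd
      iW := fun h => (ContDiff.add h (contDiff_const.sub η.contDiff)).inv pW }
  have hger : Inv0 (clsGerm η one G F x) := Framed.inv0
    { toClosed := closed_germ _ _ _ _ x
      base := eG
      comp := fun _ h => h.fun_comp _
      idet := fun h => by
        filter_upwards [h, eη] with y e e'
        simp only [rinv, e, e']
      iW := fun h => by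
        filter_upwards [h, eη] with y e e'
        simp only [iW, rinv, e, e'] }
  have hP : cP η G x = 0 := by rw [hger.cP.eq_of_nhds, P0]
  have hR : cR η G x = 0 := by rw [hger.cR.eq_of_nhds, R0]
  have dPx : Algebra.dx (cP η G) x = Algebra.dx (cP one F) x := (hger.dx hger.cP).eq_of_nhds
  have dPy : Algebra.dy (cP η G) x = Algebra.dy (cP one F) x := (hger.dy hger.cP).eq_of_nhds
  have dRx : Algebra.dx (cR η G) x = Algebra.dx (cR one F) x := (hger.dx hger.cR).eq_of_nhds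
  have dRy : Algebra.dy (cR η G) x = Algebra.dy (cR one F) x := (hger.dy hger.cR).eq_of_nhds
  rw [← hger.mainMult.eq_of_nhds, mainMult_eq_of_zero hfix.cP hfix.cR hfix.ca hfix.cb hfix.N1
    hfix.N2 hfix.G111 hfix.G112 hfix.G122 hfix.G211 hfix.G212 hfix.G222 hP hR, sx_zero, jac,
    dPx, dPy, dRx, dRy, hger.ca.eq_of_nhds, hger.cb.eq_of_nhds]

end

end Vale.Agent.P205.Generic
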