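import Mathlib

/-!
Avoidance: if near every point of a parameter ball a family of maps into `ℝ^n` spreads out in
`n` directions, then some parameter keeps all of them away from a small ball, provided the
number of maps is below a power of the radius. Used for the perturbation of corrugations.
-/

namespace Vale.Agent.P205.Generic

open MeasureTheory Metric Set
open scoped ENNReal

variable {p n : ℕ}

/-- Derivative near an invertible map on a convex set gives an anti-Lipschitz bound. -/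
theorem dist_le_of_fderiv_near {E : Type*} [NormedAddCommGroup E] [NormedSpace ℝ E]
    {F : Type*} [NormedAddCommGroup F] [NormedSpace ℝ F] {f : E → F} {f' : E → E →L[ℝ] F}
    {S : Set E} (hS : Convex ℝ S) {J : E →L[ℝ] F} {B : ℝ} (hB : 0 < B)
    (hJ : ∀ h, ‖h‖ ≤ B * ‖J h‖) (hf : ∀ x ∈ S, HasFDerivWithinAt f (f' x) S x)
    (hn : ∀ x ∈ S, ‖f' x - J‖ ≤ 1 / (2 * B)) {x y : E} (hx : x ∈ S) (hy : y ∈ S) :
    ‖y - x‖ ≤ 2 * B * ‖f y - f x‖ := by
  have h := hS.norm_image_sub_le_of_norm_hasFDerivWithin_le' hf hn hx hy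
  have h2 := norm_le_norm_add_norm_sub' (J (y - x)) (f y - f x)
  have h3 : B * ‖J (y - x)‖ ≤ B * ‖f y - f x‖ + ‖y - x‖ / 2 := by
    have e : B * (1 / (2 * B) * ‖y - x‖) = ‖y - x‖ / 2 := by field_simp
    nlinarith [norm_sub_rev (J (y - x)) (f y - f x)]
  nlinarith [hJ (y - x)]

/-- One map: a set met in small pieces by all translates of an `n`-dimensional slice is small. -/
theorem volume_small {S : Set (Fin p → ℝ)} (hS : MeasurableSet S)
    (hsub : S ⊆ closedBall 0 1) {v : (Fin n → ℝ) →L[ℝ] (Fin p → ℝ)}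
    (hv : ∀ s, ‖s‖ ≤ 1 → ‖v s‖ ≤ 1) {d : ℝ} (hd : 0 ≤ d)
    (hdiam : ∀ τ : Fin p → ℝ, ∀ s s' : Fin n → ℝ, ‖s‖ ≤ 1 → ‖s'‖ ≤ 1 → τ + v s ∈ S →
      τ + v s' ∈ S → ‖s - s'‖ ≤ d) :
    volume S * ENNReal.ofReal ((2 : ℝ) ^ n) ≤
      ENNReal.ofReal ((4 : ℝ) ^ p) * ENNReal.ofReal ((2 * d) ^ n) := by
  set Bn : Set (Fin n → ℝ) := closedBall 0 1 with hBn
  have hvol : volume Bn = ENNReal.ofReal ((2 : ℝ) ^ n) := by
    rw [hBn, Real.volume_pi_closedBall _ zero_le_one]; simp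
  let f : (Fin n → ℝ) → (Fin p → ℝ) → ℝ≥0∞ := fun s τ => S.indicator 1 (τ + v s)
  have hf : Measurable (Function.uncurry f) :=
    (measurable_one.indicator hS).comp
      (measurable_snd.add (v.continuous.measurable.comp measurable_fst))
  have hleft : ∀ s, ∫⁻ τ, f s τ = volume S := fun s => by
    simp only [f]
    rw [lintegral_add_right_eq_self (μ := volume) (S.indicator 1) (v s)]
    exact lintegral_indicator_one hS
  have hright : ∀ τ, ∫⁻ s in Bn, f s τ ≤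
      (closedBall (0 : Fin p → ℝ) 2).indicator (fun _ => ENNReal.ofReal ((2 * d) ^ n)) τ := by
    intro τ
    have hm : MeasurableSet ((fun s => τ + v s) ⁻¹' S) :=
      hS.preimage (measurable_const.add v.continuous.measurable)
    have e : ∫⁻ s in Bn, f s τ = volume (((fun s => τ + v s) ⁻¹' S) ∩ Bn) := by
      have : (fun s => f s τ) = ((fun s => τ + v s) ⁻¹' S).indicator 1 := by
        funext s; rfl
      rw [this, lintegral_indicator_one hm, Measure.restrict_apply hm]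
    rw [e]
    by_cases hne : (((fun s => τ + v s) ⁻¹' S) ∩ Bn).Nonempty
    · obtain ⟨s₀, hs₀, hs₀B⟩ := hne
      have h₀ : ‖s₀‖ ≤ 1 := by simpa [hBn] using hs₀B
      have hτ : τ ∈ closedBall (0 : Fin p → ℝ) 2 := by
        have h1 : ‖τ + v s₀‖ ≤ 1 := by simpa using hsub hs₀
        have h2 := norm_sub_le (τ + v s₀) (v s₀)
        rw [add_sub_cancel_right] at h2
        simp only [mem_closedBall, dist_zero_right]
        linarith [hv s₀ h₀]
      rw [indicator_of_mem hτ]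
      refine (measure_mono (t := closedBall s₀ d) fun s hs => ?_).trans ?_
      · simpa [dist_eq_norm] using
          hdiam τ s s₀ (by simpa [hBn] using hs.2) h₀ hs.1 hs₀
      · rw [Real.volume_pi_closedBall _ hd]; simp
    · rw [Set.not_nonempty_iff_eq_empty.mp hne]; simp
  calc volume S * ENNReal.ofReal ((2 : ℝ) ^ n)
      = ∫⁻ s in Bn, ∫⁻ τ, f s τ := by
        simp only [hleft, setLIntegral_const, hvol]
    _ = ∫⁻ τ, ∫⁻ s in Bn, f s τ := lintegral_lintegral_swap hf.aemeasurable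
    _ ≤ ∫⁻ τ, (closedBall (0 : Fin p → ℝ) 2).indicator
          (fun _ => ENNReal.ofReal ((2 * d) ^ n)) τ := lintegral_mono hright
    _ = ENNReal.ofReal ((4 : ℝ) ^ p) * ENNReal.ofReal ((2 * d) ^ n) := by
        rw [lintegral_indicator_const measurableSet_closedBall,
          Real.volume_pi_closedBall _ (by norm_num : (0 : ℝ) ≤ 2), mul_comm]
        norm_num

/-- Finitely many maps can be kept away from the `η`-ball by one parameter. -/
theorem exists_avoid {ι : Type*} [Fintype ι] (Φ : ι → (Fin p → ℝ) → (Fin n → ℝ))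
    (hΦ : ∀ i, Continuous (Φ i)) (v : ι → (Fin n → ℝ) →L[ℝ] (Fin p → ℝ))
    (hv : ∀ i s, ‖s‖ ≤ 1 → ‖v i s‖ ≤ 1) {B η : ℝ} (hB : 0 ≤ B) (hη : 0 ≤ η)
    (hanti : ∀ i (τ : Fin p → ℝ) (s s' : Fin n → ℝ), ‖τ‖ ≤ 2 → ‖s‖ ≤ 1 → ‖s'‖ ≤ 1 →
      ‖s - s'‖ ≤ B * ‖Φ i (τ + v i s) - Φ i (τ + v i s')‖)
    (hsmall : (Fintype.card ι : ℝ) * 2 ^ p * (2 * B * η) ^ n < 1) :
    ∃ τ : Fin p → ℝ, ‖τ‖ ≤ 1 ∧ ∀ i, η ≤ ‖Φ i τ‖ := by
  let S : ι → Set (Fin p → ℝ) := fun i => closedBall 0 1 ∩ (fun τ => ‖Φ i τ‖) ⁻¹' Iio η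
  have hSm : ∀ i, MeasurableSet (S i) := fun i =>
    measurableSet_closedBall.inter ((hΦ i).norm.measurable measurableSet_Iio)
  have hd : 0 ≤ 2 * B * η := by positivity
  have hS : ∀ i, volume (S i) * ENNReal.ofReal ((2 : ℝ) ^ n) ≤
      ENNReal.ofReal ((4 : ℝ) ^ p) * ENNReal.ofReal ((2 * (2 * B * η)) ^ n) := fun i => by
    refine volume_small (hSm i) inter_subset_left (hv i) hd fun τ s s' h1 h2 h3 h4 => ?_
    have hτ : ‖τ‖ ≤ 2 := by
      have a1 : ‖τ + v i s‖ ≤ 1 := by simpa using h3.1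
      have a2 := norm_sub_le (τ + v i s) (v i s)
      rw [add_sub_cancel_right] at a2
      linarith [hv i s h1]
    refine (hanti i τ s s' hτ h1 h2).trans ?_
    have b1 : ‖Φ i (τ + v i s)‖ < η := h3.2
    have b2 : ‖Φ i (τ + v i s')‖ < η := h4.2
    calc B * ‖Φ i (τ + v i s) - Φ i (τ + v i s')‖
        ≤ B * (η + η) := by
          gcongr; exact (norm_sub_le _ _).trans (by linarith)
      _ = 2 * B * η := by ring
  have hne : ENNReal.ofReal ((2 : ℝ) ^ n) ≠ 0 := by simp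
  have hS' : ∀ i, volume (S i) ≤ ENNReal.ofReal (4 ^ p * (2 * B * η) ^ n) := fun i => by
    rw [← ENNReal.mul_le_mul_iff_left hne ENNReal.ofReal_ne_top]
    refine (hS i).trans (le_of_eq ?_)
    rw [← ENNReal.ofReal_mul (by positivity), ← ENNReal.ofReal_mul (by positivity), mul_pow]
    congr 1; ring
  have hlt : volume (⋃ i, S i) < volume (closedBall (0 : Fin p → ℝ) 1) := by
    calc volume (⋃ i, S i) ≤ ∑ i, volume (S i) := measure_iUnion_fintype_le _ _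
      _ ≤ ∑ _i : ι, ENNReal.ofReal (4 ^ p * (2 * B * η) ^ n) :=
          Finset.sum_le_sum fun i _ => hS' i
      _ = ENNReal.ofReal (Fintype.card ι * (4 ^ p * (2 * B * η) ^ n)) := by
          rw [Finset.sum_const, Finset.card_univ, nsmul_eq_mul,
            ENNReal.ofReal_mul (Nat.cast_nonneg _), ENNReal.ofReal_natCast]
      _ < volume (closedBall (0 : Fin p → ℝ) 1) := by
          rw [Real.volume_pi_closedBall _ zero_le_one]
          refine (ENNReal.ofReal_lt_ofReal_iff (by positivity)).mpr ?_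
          simp only [mul_one, Fintype.card_fin]
          have : (4 : ℝ) ^ p = 2 ^ p * 2 ^ p := by rw [← mul_pow]; norm_num
          rw [this]
          have h2 : (0 : ℝ) < 2 ^ p := by positivity
          nlinarith [mul_lt_mul_of_pos_left hsmall h2]
  obtain ⟨τ, hτ, hτS⟩ := Set.not_subset.mp fun h => (measure_mono h).not_gt hlt
  refine ⟨τ, by simpa using hτ, fun i => not_lt.mp fun h => hτS ?_⟩
  exact mem_iUnion.mpr ⟨i, hτ, h⟩

/-- The point of cell `k` of the grid of step `h` on `[-L, L]`. -/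
noncomputable def cellIdx (L h x : ℝ) : ℕ := ⌊(x + L) / h⌋₊

lemma abs_sub_le_of_cellIdx_eq {L h x y : ℝ} (hh : 0 < h) (hx : -L ≤ x) (hy : -L ≤ y)
    (e : cellIdx L h x = cellIdx L h y) : |x - y| ≤ h := by
  have key : ∀ z, -L ≤ z → ((cellIdx L h z : ℝ) * h ≤ z + L ∧
      z + L < ((cellIdx L h z : ℝ) + 1) * h) := fun z hz => by
    have h0 : 0 ≤ (z + L) / h := div_nonneg (by linarith) hh.le
    exact ⟨(le_div_iff₀ hh).mp (Nat.floor_le h0), (div_lt_iff₀ hh).mp (Nat.lt_floor_add_one _)⟩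
  obtain ⟨a1, a2⟩ := key x hx
  obtain ⟨b1, b2⟩ := key y hy
  rw [e] at a1 a2
  rw [abs_le]; constructor <;> nlinarith

lemma cellIdx_le {L h x : ℝ} {N : ℕ} (hh : 0 < h) (hN : 2 * L ≤ N * h) (hx : x ≤ L) :
    cellIdx L h x ≤ N :=
  Nat.floor_le_of_le ((div_le_iff₀ hh).mpr (by linarith))

/-- Avoidance uniformly over a region of the square `[-L, L]²`. -/
theorem exists_avoid_region (G : Set (ℝ × ℝ))
    (Φ : ℝ × ℝ → (Fin p → ℝ) → (Fin n → ℝ)) (hΦ : ∀ x ∈ G, Continuous (Φ x))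
    (v : ℝ × ℝ → (Fin n → ℝ) →L[ℝ] (Fin p → ℝ))
    (hv : ∀ x ∈ G, ∀ s, ‖s‖ ≤ 1 → ‖v x s‖ ≤ 1) {L B Λ η : ℝ} (hG : ∀ x ∈ G, ‖x‖ ≤ L)
    (hB : 0 ≤ B) (hΛ : 0 < Λ) (hη : 0 < η)
    (hlip : ∀ x ∈ G, ∀ y ∈ G, ∀ τ : Fin p → ℝ, ‖τ‖ ≤ 1 → ‖Φ x τ - Φ y τ‖ ≤ Λ * ‖x - y‖)
    (hanti : ∀ x ∈ G, ∀ (τ : Fin p → ℝ) (s s' : Fin n → ℝ), ‖τ‖ ≤ 2 → ‖s‖ ≤ 1 → ‖s'‖ ≤ 1 →
      ‖s - s'‖ ≤ B * ‖Φ x (τ + v x s) - Φ x (τ + v x s')‖)
    (hsmall : (2 * L * Λ / η + 2) ^ 2 * 2 ^ p * (4 * B * η) ^ n < 1) :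
    ∃ τ : Fin p → ℝ, ‖τ‖ ≤ 1 ∧ ∀ x ∈ G, η ≤ ‖Φ x τ‖ := by
  classical
  rcases G.eq_empty_or_nonempty with h0 | ⟨g₀, hg₀⟩
  · exact ⟨0, by simp, by simp [h0]⟩
  have hL : 0 ≤ L := (norm_nonneg g₀).trans (hG g₀ hg₀)
  set h := η / Λ with hh'
  have hh : 0 < h := div_pos hη hΛ
  set N := ⌈2 * L / h⌉₊ with hN'
  have hNh : 2 * L ≤ N * h := (div_le_iff₀ hh).mp (Nat.le_ceil _)
  have hb : ∀ x ∈ G, (-L ≤ x.1 ∧ x.1 ≤ L) ∧ (-L ≤ x.2 ∧ x.2 ≤ L) := fun x hx => by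
    have := hG x hx
    rw [Prod.norm_def, sup_le_iff, Real.norm_eq_abs, Real.norm_eq_abs, abs_le, abs_le] at this
    exact this
  let cell : ℝ × ℝ → ℕ × ℕ := fun x => (cellIdx L h x.1, cellIdx L h x.2)
  let T : Finset (ℕ × ℕ) :=
    (Finset.range (N + 1) ×ˢ Finset.range (N + 1)).filter fun k => ∃ x ∈ G, cell x = k
  have pick : ∀ k : T, ∃ x ∈ G, cell x = k.1 := fun k => (Finset.mem_filter.mp k.2).2
  choose pt hptG hptc using pick
  have hcard : (Fintype.card T : ℝ) ≤ (2 * L * Λ / η + 2) ^ 2 := by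
    have h1 : Fintype.card T ≤ (N + 1) * (N + 1) := by
      rw [Fintype.card_coe]
      exact (Finset.card_filter_le _ _).trans (le_of_eq (by simp))
    have h2 : (N : ℝ) + 1 ≤ 2 * L * Λ / η + 2 := by
      have e : 2 * L / h = 2 * L * Λ / η := by rw [hh']; field_simp
      linarith [Nat.ceil_lt_add_one (div_nonneg (by linarith : 0 ≤ 2 * L) hh.le)]
    calc (Fintype.card T : ℝ) ≤ ((N : ℝ) + 1) * ((N : ℝ) + 1) := by exact_mod_cast h1
      _ ≤ _ := by rw [sq]; gcongr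
  obtain ⟨τ, hτ, hτΦ⟩ := exists_avoid (fun k : T => Φ (pt k)) (fun k => hΦ _ (hptG k))
    (fun k => v (pt k)) (fun k => hv _ (hptG k)) hB (η := 2 * η) (by linarith)
    (fun k => hanti _ (hptG k)) (by
      refine lt_of_le_of_lt ?_ hsmall
      rw [show 2 * B * (2 * η) = 4 * B * η by ring]
      gcongr)
  refine ⟨τ, hτ, fun x hx => ?_⟩
  have hmem : cell x ∈ T := by
    simp only [T, Finset.mem_filter, Finset.mem_product, Finset.mem_range, cell]
    exact ⟨⟨Nat.lt_succ_of_le (cellIdx_le hh hNh (hb x hx).1.2),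
      Nat.lt_succ_of_le (cellIdx_le hh hNh (hb x hx).2.2)⟩, x, hx, rfl⟩
  set y := pt ⟨cell x, hmem⟩ with hy
  have hyG : y ∈ G := hptG _
  have hc := hptc ⟨cell x, hmem⟩
  rw [← hy] at hc
  have hxy : ‖x - y‖ ≤ h := by
    rw [Prod.norm_def, sup_le_iff]
    exact ⟨abs_sub_le_of_cellIdx_eq hh (hb x hx).1.1 (hb y hyG).1.1
        (Prod.ext_iff.mp hc).1.symm,
      abs_sub_le_of_cellIdx_eq hh (hb x hx).2.1 (hb y hyG).2.1 (Prod.ext_iff.mp hc).2.symm⟩
  have h3 : Λ * ‖x - y‖ ≤ η := by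
    have := mul_le_mul_of_nonneg_left hxy hΛ.le
    have e : Λ * h = η := by rw [hh']; field_simp
    linarith
  have h4 := hlip x hx y hyG τ hτ
  have h5 : 2 * η ≤ ‖Φ y τ‖ := hτΦ ⟨cell x, hmem⟩
  have h6 := norm_le_norm_add_norm_sub' (Φ y τ) (Φ x τ)
  linarith [norm_sub_rev (Φ y τ) (Φ x τ)]

end Vale.Agent.P205.Generic
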