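import Vale.Agent.P205.Generic.Top

/-!
The response to a normal variation `ψ ν` (up to a class two orders lower): with `ζ = ∂x ψ` the top
coefficients are `δP = μ iW ζ(1,0)`, `δR = 2 μ iW ζ(0,1)`, `δa = -κ iW ζ(1,0)`,
`δb = -2 κ iW ζ(0,1)` for `μ = ⟪ν, n1⟫`, `κ = ⟪ν, n0⟫`.
-/

namespace Vale.Agent.P205.Generic

open scoped ContDiff RealInnerProductSpace
open Set Vale.Agent.P205.Algebra

noncomputable section

variable {ι : Type*}

/-- The variation is `ψ ν` up to a class two orders lower, `ν` normal. -/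
structure NormalResp (S : VScale ι) (G : ι → Ext → V4) (ψ : ι → ℝ × ℝ → ℝ)
    (ν : ι → ℝ × ℝ → V4) : Prop extends Nondeg S G where
  psi : O S 0 ψ
  nu : BaseBd S ν
  nu_x : ∀ i, ∀ p ∈ S.dom i, ⟪ν i p, Algebra.dx (slice G i 0) p⟫ = 0
  nu_y : ∀ i, ∀ p ∈ S.dom i, ⟪ν i p, Algebra.dy (slice G i 0) p⟫ = 0
  err : Tiny S fun i p => var1 G i p - ψ i p • ν i p

/-- The scalar variation of a normal variation. -/
def normalZeta (ψ : ι → ℝ × ℝ → ℝ) (i : ι) : ℝ × ℝ → ℝ := Generic.dx (ψ i)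

variable {S : VScale ι} {G : ι → Ext → V4} {ψ : ι → ℝ × ℝ → ℝ} {ν : ι → ℝ × ℝ → V4}

namespace NormalResp

variable (hN : NormalResp S G ψ ν)
include hN

lemma zeta_O : O S 1 (normalZeta ψ) := hN.psi.dx

lemma var_O : O S 0 (var1 G) :=
  (hN.err.toO.add (hN.psi.smul_base hN.nu)).congr fun i p _ => by simp

lemma base_lX : BaseBd S (base0 (lX G)) := hN.base.dx.congr fun i => base0_lX hN.sm i

lemma base_lY : BaseBd S (base0 (lY G)) := hN.base.dy.congr fun i => base0_lY hN.sm i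

lemma base_lYY : BaseBd S (base0 (lY (lY G))) :=
  hN.base_lY.dy.congr fun i => base0_lY hN.sm.lY i

lemma smooth_var (i : ι) : ContDiffOn ℝ ∞ (var1 G i) (S.dom i) := hN.var_O.smooth i

lemma dx_var (i : ι) :
    EqOn (Generic.dx (var1 G i))
      (fun p => normalZeta ψ i p • ν i p + (ψ i p • Generic.dx (ν i) p
        + Generic.dx (fun q => var1 G i q - ψ i q • ν i q) p)) (S.dom i) := fun p hp => by
  have e : var1 G i = (fun q => ψ i q • ν i q) + fun q => var1 G i q - ψ i q • ν i q :=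
    funext fun q => by simp
  have b : Generic.dx (fun q => ψ i q • ν i q) p = _ := dx_bilin (ContinuousLinearMap.lsmul ℝ ℝ)
    (S.isOpen i) (hN.psi.smooth i) (hN.nu.smooth i) hp
  simp only [ContinuousLinearMap.lsmul_apply, Pi.add_apply] at b
  have sm : ContDiffOn ℝ ∞ (fun q => ψ i q • ν i q) (S.dom i) :=
    (hN.psi.smooth i).smul (hN.nu.smooth i)
  conv_lhs => rw [e]
  rw [dx_add (S.isOpen i) sm (hN.err.smooth i) hp,
    Pi.add_apply, b]
  simp [normalZeta, add_assoc]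

lemma var_lX_sub : O S 0 fun i p => var1 (lX G) i p - normalZeta ψ i p • ν i p :=
  ((hN.psi.smul_base hN.nu.dx).add hN.err.dxO).congr fun i p hp => by
    simp [(var1_lX hN.sm i hp), hN.dx_var i hp]

lemma frame : FrameFlat S (normalZeta ψ) 0 G :=
  hN.toNondeg.frameFlat
    ⟨hN.sm.lX, hN.base_lX, baseBd_zero, baseBd_zero, ν, hN.nu,
      hN.var_lX_sub.congr fun i p _ => by simp [zj, pd]⟩
    (Exp.of_O hN.sm.lY hN.base_lY (hN.var_O.dy.congr fun i => var1_lY hN.sm i))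
    (Exp.of_O hN.sm.lY.lY hN.base_lYY (hN.var_O.dy.dy.congr fun i => var1_dyy hN.sm i))

lemma exp_F11 : Exp S (normalZeta ψ) 0 (lf G F11) ν (fun _ _ => 0) := by
  refine Exp.congr (G := lX (lX G)) ⟨hN.sm.lX.lX,
    hN.base_lX.dx.congr (fun i => base0_lX hN.sm.lX i), hN.nu, baseBd_zero,
    fun i p => Generic.dx (ν i) p + Generic.dx (ν i) p, hN.nu.dx.add hN.nu.dx,
    ((hN.psi.smul_base hN.nu.dx.dx).add hN.err.dxxO).congr fun i p hp => ?_⟩ hN.toNondeg.j11
  have hz := hN.zeta_O.smooth i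
  have hr : ContDiffOn ℝ ∞ (fun p => ψ i p • Generic.dx (ν i) p) (S.dom i) :=
    (hN.psi.smooth i).smul (hN.nu.dx.smooth i)
  have he : ContDiffOn ℝ ∞ (Generic.dx (fun q => var1 G i q - ψ i q • ν i q)) (S.dom i) :=
    contDiffOn_dx (S.isOpen i) (hN.err.smooth i)
  have h2 : ContDiffOn ℝ ∞ ((fun p => ψ i p • Generic.dx (ν i) p)
      + Generic.dx (fun q => var1 G i q - ψ i q • ν i q)) (S.dom i) := hr.add he
  have b1 : Generic.dx (fun q => normalZeta ψ i q • ν i q) p = _ :=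
    dx_bilin (ContinuousLinearMap.lsmul ℝ ℝ) (S.isOpen i) hz (hN.nu.smooth i) hp
  have b2 : Generic.dx (fun q => ψ i q • Generic.dx (ν i) q) p = _ :=
    dx_bilin (ContinuousLinearMap.lsmul ℝ ℝ) (S.isOpen i) (hN.psi.smooth i) (hN.nu.dx.smooth i) hp
  simp only [ContinuousLinearMap.lsmul_apply, Pi.add_apply] at b1 b2
  have l : var1 (lX (lX G)) i p = Generic.dx (Generic.dx (var1 G i)) p := var1_dxx hN.sm i hp
  rw [eqOn_dx (S.isOpen i) (hN.dx_var i) hp] at l
  have s : (fun p => normalZeta ψ i p • ν i p + (ψ i p • Generic.dx (ν i) p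
      + Generic.dx (fun q => var1 G i q - ψ i q • ν i q) p)) =
      (fun p => normalZeta ψ i p • ν i p) + ((fun p => ψ i p • Generic.dx (ν i) p)
        + Generic.dx (fun q => var1 G i q - ψ i q • ν i q)) := rfl
  have sm : ContDiffOn ℝ ∞ (fun q => normalZeta ψ i q • ν i q) (S.dom i) :=
    hz.smul (hN.nu.smooth i)
  rw [s, dx_add (S.isOpen i) sm h2 hp, Pi.add_apply,
    dx_add (S.isOpen i) hr he hp, Pi.add_apply, b1, b2] at l
  simp only [l, Pi.add_apply, smul_zero, add_zero, smul_add, zj, pd, Nat.zero_add,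
    Function.iterate_succ_apply, Function.iterate_zero, id_eq]
  rw [show Generic.dx (ψ i) p = normalZeta ψ i p from rfl]
  abel

lemma exp_F12 : Exp S (normalZeta ψ) 0 (lf G F12) (fun _ _ => 0) ν := by
  have hr := hN.var_lX_sub
  refine Exp.congr (G := lY (lX G)) ⟨hN.sm.lX.lY,
    hN.base_lX.dy.congr (fun i => base0_lY hN.sm.lX i), baseBd_zero, hN.nu,
    fun i => Generic.dy (ν i), hN.nu.dy, hr.dy.congr fun i p hp => ?_⟩ hN.toNondeg.j12
  have hz := hN.zeta_O.smooth i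
  have e : var1 (lX G) i = (fun q => normalZeta ψ i q • ν i q) +
      fun q => var1 (lX G) i q - normalZeta ψ i q • ν i q := funext fun q => by simp
  have b : Generic.dy (fun q => normalZeta ψ i q • ν i q) p = _ :=
    dy_bilin (ContinuousLinearMap.lsmul ℝ ℝ) (S.isOpen i) hz (hN.nu.smooth i) hp
  simp only [ContinuousLinearMap.lsmul_apply, Pi.add_apply] at b
  have l : var1 (lY (lX G)) i p = Generic.dy (var1 (lX G) i) p := var1_lY hN.sm.lX i hp
  have sm : ContDiffOn ℝ ∞ (fun q => normalZeta ψ i q • ν i q) (S.dom i) :=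
    hz.smul (hN.nu.smooth i)
  rw [e, dy_add (S.isOpen i) sm (hr.smooth i) hp, Pi.add_apply, b] at l
  simp [l, zj, pd]

lemma nu_v (i : ι) {p : ℝ × ℝ} (hp : p ∈ S.dom i) :
    ⟪ν i p, v1 one (slice G i 0) p⟫ = 0 ∧ ⟪ν i p, v2 one (slice G i 0) p⟫ = 0 := by
  simp [v1, v2, real_inner_smul_right, inner_sub_right, hN.nu_x i p hp, hN.nu_y i p hp]

/-- The top coefficients of a normal variation. -/
theorem top : Top S G (normalZeta ψ) (fun i p => ⟪ν i p, n1 one (slice G i 0) p⟫)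
    (fun i p => -(⟪ν i p, n0 one (slice G i 0) p⟫ * iW one (slice G i 0) p)) (fun _ _ => 0)
    (fun _ _ => 0)
    (fun i p => -(2 * ⟪ν i p, n0 one (slice G i 0) p⟫ * iW one (slice G i 0) p)) := by
  have hF := hN.frame
  have h1 := hN.exp_F11
  have h2 := hN.exp_F12
  have v : ∀ {T : ι → Ext → V4}, Flat S (normalZeta ψ) 0 T →
      (∀ i, ∀ p ∈ S.dom i, ⟪ν i p, base0 T i p⟫ = 0) →
      Flat S (normalZeta ψ) 0 (fun i q => ⟪lf G F11 i q, T i q⟫) ∧
        Flat S (normalZeta ψ) 0 (fun i q => ⟪lf G F12 i q, T i q⟫) := fun hT h0 =>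
    ⟨(h1.inner hT).coeff (fun i p hp => by simp [h0 i p hp]) (fun i p _ => by simp),
      (h2.inner hT).coeff (fun i p _ => by simp) (fun i p hp => by simp [h0 i p hp])⟩
  obtain ⟨a, b⟩ := v hF.v1 fun i p hp => (hN.nu_v i hp).1
  obtain ⟨c, d⟩ := v hF.v2 fun i p hp => (hN.nu_v i hp).2
  refine ⟨hN.zeta_O, hN.toNondeg, ?_, ?_, ?_, ?_, ?_⟩
  · exact (((h1.inner hF.n1).mul hF.iW).congr fun _ _ _ => rfl).coeff
      (fun i p _ => by simp [base0, lf]) (fun i p _ => by simp)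
  · exact ((((h2.inner hF.n1).const_mul 2).mul hF.iW).congr fun _ _ _ => rfl).coeff
      (fun i p _ => by simp) (fun i p _ => by simp [base0, lf])
  · exact (((h1.inner hF.n0).mul hF.iW).neg.congr fun _ _ _ => rfl).coeff
      (fun i p _ => by simp [base0, lf]) (fun i p _ => by simp)
  · exact ((((h2.inner hF.n0).const_mul 2).mul hF.iW).neg.congr fun _ _ _ => rfl).coeff
      (fun i p _ => by simp) (fun i p _ => by simp [base0, lf])
  · simp only [List.mem_cons, List.not_mem_nil, or_false, forall_eq_or_imp, forall_eq]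
    exact ⟨⟨_, _, a.congr fun _ _ _ => rfl⟩, ⟨_, _, b.congr fun _ _ _ => rfl⟩,
      ⟨_, _, (hF.fyy.inner hF.v1).congr fun _ _ _ => rfl⟩, ⟨_, _, c.congr fun _ _ _ => rfl⟩,
      ⟨_, _, d.congr fun _ _ _ => rfl⟩, _, _, (hF.fyy.inner hF.v2).congr fun _ _ _ => rfl⟩

end NormalResp

end

end Vale.Agent.P205.Generic
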