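import Vale.Agent.P205.Full.Algebra.Jets

/-!
Exact identities for the rows of `Algebra.chain`: their two invariants `Dc` and `Bc`.
-/

namespace Vale.Agent.P205.Generic

open Vale.Agent.P205.Algebra

noncomputable section

variable (η : R2 → ℝ) (F : R2 → V4)

/-- `det (E.v, c)`. -/
def Dc (E : Row) (p : R2) : ℝ := det2 (E.v p) (cc η F p)

/-- `det (c, (norm1 E).u)`. -/
def Bc (E : Row) (p : R2) : ℝ :=
  det2 (cc η F p) (k1 η F p • E.u p - det2 (perp η F p) (E.v p) • dy (cc η F) p)

/-- `det (Mc, c) = P² + b P R - a R²`. -/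
def quad0 (p : R2) : ℝ := det2 (mulM η F (cc η F) p) (cc η F p)

/-- `det (π, Mπ)`. -/
def quad1 (p : R2) : ℝ := det2 (perp η F p) (mulM η F (perp η F) p)

/-- The zero order part of the `x`-derivative of `π`. -/
def perpX (p : R2) : R2 :=
  dx (perp η F) p + mulN η F (perp η F) p
    + (-dy (ca η F) p * (perp η F p).2, -dy (cb η F) p * (perp η F p).2)

/-- Coefficient of `Dc E` in `Dc (next E)`. -/
def coefDD (p : R2) : ℝ :=
  k1 η F p * det2 (perpX η F p) (cc η F p) - k2 η F p * det2 (dy (perp η F) p) (cc η F p)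
    - 2 * quad1 η F p * det2 (dy (cc η F) p) (cc η F p)

/-- Coefficient of `Dc E` in `Bc (next E)`. -/
def coefBD (p : R2) : ℝ :=
  k1 η F p ^ 2 * det2 (cc η F p)
      ((perp η F p).1 • dy (N1 η F) p + (perp η F p).2 • dy (N2 η F) p)
    - k1 η F p * quad1 η F p * det2 (cc η F p) (dy (dy (cc η F)) p)
    - det2 (cc η F p) (dy (cc η F) p) *
      (k1 η F p * det2 (perp η F p) (perpX η F p) - k2 η F p * det2 (perp η F p) (dy (perp η F) p)
        - 2 * quad1 η F p * det2 (perp η F p) (dy (cc η F) p))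

/-- The part of `Bc (next E)` which is linear in `w = (norm1 E).u`. -/
def linW (w : R2) (p : R2) : ℝ :=
  k1 η F p ^ 2 * (det2 (cc η F p) (w.1 • N1 η F p + w.2 • N2 η F p) - det2 (dx (cc η F) p) w)
    + k1 η F p * k2 η F p * det2 (dy (cc η F) p) w
    - det2 (cc η F p) (dy (cc η F) p) *
      (k1 η F p * det2 (perp η F p) (-ca η F p * w.2, -w.1 - cb η F p * w.2)
        - k2 η F p * det2 (perp η F p) w)

variable {η F}

theorem norm1_v (E : Row) (p : R2) : (norm1 η F E).v p = Dc η F E p • perp η F p := by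
  simp only [norm1, Dc, k1, det2, cc, perp, Prod.ext_iff, Prod.fst_sub, Prod.snd_sub,
    Prod.smul_fst, Prod.smul_snd, smul_eq_mul]
  constructor <;> ring

theorem det2_norm1_u (E : Row) (p : R2) :
    det2 (cc η F p) ((norm1 η F E).u p) = Bc η F E p := rfl

theorem k1_eq (p : R2) : k1 η F p = -(cP η F p ^ 2 + cR η F p ^ 2) := by
  simp only [k1, det2, perp, cc]; ring

theorem quad0_eq (p : R2) : quad0 η F p =
    cP η F p ^ 2 + cb η F p * cP η F p * cR η F p - ca η F p * cR η F p ^ 2 := by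
  simp only [quad0, det2, mulM, cc]; ring

/-- (B) The chain determinants in terms of `Dc` and `Bc`. -/
theorem k1_mul_det4 (E1 E2 : Row) (p : R2) :
    k1 η F p * det4 (rowC η F) (rowY η F) E1 E2 p =
      Dc η F E2 p * Bc η F E1 p - Dc η F E1 p * Bc η F E2 p := by
  simp [det4, rowC, rowY, Matrix.det_succ_row_zero, Fin.sum_univ_succ, Fin.succAbove, Dc, Bc, k1,
    det2, perp, cc]
  ring

theorem Dc_rowX (p : R2) : Dc η F (rowX η F) p = quad0 η F p := rfl

theorem Bc_rowX (p : R2) : Bc η F (rowX η F) p = det2 (cc η F p)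
    (k1 η F p • (dx (cc η F) p + mulN η F (cc η F) p)
      - det2 (perp η F p) (mulM η F (cc η F) p) • dy (cc η F) p) := rfl

theorem fderiv_det2 {c w : R2 → R2} {p : R2} (hc : DifferentiableAt ℝ c p)
    (hw : DifferentiableAt ℝ w p) (v : R2) :
    fderiv ℝ (fun x => det2 (c x) (w x)) p v =
      det2 (fderiv ℝ c p v) (w p) + det2 (c p) (fderiv ℝ w p v) := by
  simp only [det2]
  rw [fderiv_fun_sub (hc.fst.fun_mul hw.snd) (hc.snd.fun_mul hw.fst),
    fderiv_fun_mul hc.fst hw.snd, fderiv_fun_mul hc.snd hw.fst, fderiv.fst hc, fderiv.snd hc,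
    fderiv.fst hw, fderiv.snd hw]
  simp only [sub_apply, add_apply, smul_apply, smul_eq_mul, ContinuousLinearMap.comp_apply,
    ContinuousLinearMap.coe_fst', ContinuousLinearMap.coe_snd']
  ring

theorem differentiableAt_det2 {c w : R2 → R2} {p : R2} (hc : DifferentiableAt ℝ c p)
    (hw : DifferentiableAt ℝ w p) : DifferentiableAt ℝ (fun x => det2 (c x) (w x)) p :=
  (hc.fst.fun_mul hw.snd).fun_sub (hc.snd.fun_mul hw.fst)

variable {E : Row} {p : R2}

theorem differentiableAt_perp (hc : DifferentiableAt ℝ (cc η F) p) :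
    DifferentiableAt ℝ (perp η F) p :=
  hc.snd.fun_neg.prodMk hc.fst

theorem differentiableAt_Dc (hc : DifferentiableAt ℝ (cc η F) p)
    (hv : DifferentiableAt ℝ E.v p) : DifferentiableAt ℝ (Dc η F E) p :=
  differentiableAt_det2 hv hc

theorem differentiableAt_norm1_u (hc : DifferentiableAt ℝ (cc η F) p)
    (hcy : DifferentiableAt ℝ (dy (cc η F)) p) (hu : DifferentiableAt ℝ E.u p)
    (hv : DifferentiableAt ℝ E.v p) : DifferentiableAt ℝ (norm1 η F E).u p :=
  ((differentiableAt_det2 (differentiableAt_perp hc) hc).fun_smul hu).fun_sub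
    ((differentiableAt_det2 (differentiableAt_perp hc) hv).fun_smul hcy)

theorem fderiv_norm1_v (hc : DifferentiableAt ℝ (cc η F) p) (hv : DifferentiableAt ℝ E.v p)
    (d : R2) : fderiv ℝ (norm1 η F E).v p d =
      fderiv ℝ (Dc η F E) p d • perp η F p + Dc η F E p • fderiv ℝ (perp η F) p d := by
  rw [show (norm1 η F E).v = fun q => Dc η F E q • perp η F q from funext fun q => norm1_v E q,
    fderiv_fun_smul (differentiableAt_Dc hc hv) (differentiableAt_perp hc)]
  simp only [add_apply, smul_apply, ContinuousLinearMap.smulRight_apply]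
  abel

/-- (C) The recursion for `Dc`. -/
theorem Dc_next (hc : DifferentiableAt ℝ (cc η F) p) (hv : DifferentiableAt ℝ E.v p) :
    Dc η F (Algebra.next η F E) p =
      k1 η F p ^ 2 * dx (Dc η F E) p - k1 η F p * k2 η F p * dy (Dc η F E) p
        + Dc η F E p * coefDD η F p
        + quad0 η F p * det2 (perp η F p) ((norm1 η F E).u p) := by
  have ex : dx (norm1 η F E).v p = dx (Dc η F E) p • perp η F p + Dc η F E p • dx (perp η F) p :=
    fderiv_norm1_v hc hv _
  have ey : dy (norm1 η F E).v p = dy (Dc η F E) p • perp η F p + Dc η F E p • dy (perp η F) p :=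
    fderiv_norm1_v hc hv _
  generalize hW : (norm1 η F E).u p = w
  rw [Dc]
  simp only [Algebra.next, dXv, dYv, mulM, mulN, norm1_v, ex, ey, hW]
  rw [show det2 (E.v p) (cc η F p) = Dc η F E p from rfl]
  simp only [coefDD, perpX, quad0, quad1, k1, k2, det2, mulM, mulN, Prod.fst_add, Prod.snd_add,
    Prod.fst_sub, Prod.snd_sub, Prod.smul_fst, Prod.smul_snd, smul_eq_mul, cc, perp]
  ring

/-- (C) The recursion for `Bc`. -/
theorem Bc_next (hc : DifferentiableAt ℝ (cc η F) p) (hcy : DifferentiableAt ℝ (dy (cc η F)) p)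
    (hu : DifferentiableAt ℝ E.u p) (hv : DifferentiableAt ℝ E.v p) :
    Bc η F (Algebra.next η F E) p =
      k1 η F p ^ 2 * dx (Bc η F E) p - k1 η F p * k2 η F p * dy (Bc η F E) p
        + linW η F ((norm1 η F E).u p) p + Dc η F E p * coefBD η F p := by
  have hw := differentiableAt_norm1_u hc hcy hu hv
  have bx : dx (Bc η F E) p = det2 (dx (cc η F) p) ((norm1 η F E).u p)
      + det2 (cc η F p) (dx (norm1 η F E).u p) := fderiv_det2 hc hw _
  have by' : dy (Bc η F E) p = det2 (dy (cc η F) p) ((norm1 η F E).u p)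
      + det2 (cc η F p) (dy (norm1 η F E).u p) := fderiv_det2 hc hw _
  have ex : dx (norm1 η F E).v p = dx (Dc η F E) p • perp η F p + Dc η F E p • dx (perp η F) p :=
    fderiv_norm1_v hc hv _
  have ey : dy (norm1 η F E).v p = dy (Dc η F E) p • perp η F p + Dc η F E p • dy (perp η F) p :=
    fderiv_norm1_v hc hv _
  rw [bx, by']
  generalize hW : (norm1 η F E).u p = w
  rw [Bc]
  simp only [Algebra.next, dXv, dYv, dXu, dYu, mulM, mulN, norm1_v, ex, ey, hW]
  rw [show det2 (E.v p) (cc η F p) = Dc η F E p from rfl]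
  simp only [coefBD, linW, perpX, quad1, k1, k2, det2, mulM, mulN, Prod.fst_add, Prod.snd_add,
    Prod.fst_sub, Prod.snd_sub, Prod.smul_fst, Prod.smul_snd, smul_eq_mul, cc, perp]
  ring

end

end Vale.Agent.P205.Generic
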