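import Vale.Agent.P205.Generic.Orders

/-!
Top coefficients of the invariants `Dc`, `Bc` of the multiplier chain and of its determinants:
those of `Dc` are powers of `k1` times those of `P² + b P R - a R²`, up to multiples of that
function itself; those of the determinants are `-Dc_j` times those of `Bc_k`.
-/

namespace Vale.Agent.P205.Generic

open scoped ContDiff RealInnerProductSpace
open Set Vale.Agent.P205.Algebra

noncomputable section

variable {ι : Type*}

/-- `∂ quad0 / ∂ ζ(1,0)`, given those of `a` and `b`. -/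
def a20 (G : ι → Ext → V4) (μ A20 B20 : ι → ℝ × ℝ → ℝ) (i : ι) (p : R2) : ℝ :=
  μ i p * iW one (slice G i 0) p * (2 * cP one (slice G i 0) p
      + cb one (slice G i 0) p * cR one (slice G i 0) p)
    + cP one (slice G i 0) p * cR one (slice G i 0) p * B20 i p
    - cR one (slice G i 0) p ^ 2 * A20 i p

/-- `∂ quad0 / ∂ ζ(0,1)`, given those of `a` and `b`. -/
def a11 (G : ι → Ext → V4) (μ A11 B11 : ι → ℝ × ℝ → ℝ) (i : ι) (p : R2) : ℝ :=
  2 * μ i p * iW one (slice G i 0) p * (cb one (slice G i 0) p * cP one (slice G i 0) p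
      - 2 * ca one (slice G i 0) p * cR one (slice G i 0) p)
    + cP one (slice G i 0) p * cR one (slice G i 0) p * B11 i p
    - cR one (slice G i 0) p ^ 2 * A11 i p

/-- `∂ Bc₀ / ∂ ζ(2,0)`. -/
def b20 (G : ι → Ext → V4) (μ : ι → ℝ × ℝ → ℝ) (i : ι) (p : R2) : ℝ :=
  -(μ i p * k1 one (slice G i 0) p * iW one (slice G i 0) p * cR one (slice G i 0) p)

/-- `∂ Bc₀ / ∂ ζ(1,1)`. -/
def b11 (G : ι → Ext → V4) (μ A20 B20 : ι → ℝ × ℝ → ℝ) (i : ι) (p : R2) : ℝ :=
  2 * μ i p * k1 one (slice G i 0) p * iW one (slice G i 0) p * cP one (slice G i 0) p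
    + μ i p * det2 (perp one (slice G i 0) p) (mulM one (slice G i 0) (cc one (slice G i 0)) p)
      * iW one (slice G i 0) p * cR one (slice G i 0) p
    + k1 one (slice G i 0) p * cR one (slice G i 0) p
      * (cR one (slice G i 0) p * A20 i p - cP one (slice G i 0) p * B20 i p)

/-- The first top coefficient after `k` steps. -/
def topC (k : ℕ) (a : ℝ) (F : R2 → V4) (p : R2) : ℝ :=
  k1 one F p ^ (2 * k) * a

/-- The second top coefficient after `k` steps. -/
def crossC (k : ℕ) (a b : ℝ) (F : R2 → V4) (p : R2) : ℝ :=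
  k1 one F p ^ (2 * k) * b - k * k1 one F p ^ (2 * k - 1) * k2 one F p * a

lemma crossC_succ (k : ℕ) (a b : ℝ) (F : R2 → V4) (p : R2) :
    crossC (k + 1) a b F p =
      k1 one F p ^ 2 * crossC k a b F p - k1 one F p * k2 one F p * topC k a F p := by
  rcases k with _ | k
  · simp [crossC, topC]
  · simp only [crossC, topC, show 2 * (k + 1 + 1) - 1 = 2 * k + 3 by omega,
      show 2 * (k + 1) - 1 = 2 * k + 1 by omega]
    push_cast
    ring

variable {S : VScale ι} {G : ι → Ext → V4} {ζ μ A20 A11 B20 B11 : ι → ℝ × ℝ → ℝ}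
variable {V : Type*} [NormedAddCommGroup V] [NormedSpace ℝ V]

lemma diffAt_lf {Φ : (R2 → V4) → R2 → V} (h : Sm S (lf G Φ)) (i : ι) {q : Ext}
    (hq : q ∈ S.win i) : DifferentiableAt ℝ (Φ (slice G i q.1)) q.2 :=
  (hasFDerivAt_slice (G := lf G Φ) h i hq).differentiableAt

namespace Top

variable (hR : Top S G ζ μ A20 A11 B20 B11)
include hR

lemma exp_quad0 : Exp S ζ 0 (lf G (quad0 one)) (a20 G μ A20 B20) (a11 G μ A11 B11) := by
  refine (Exp.congr (((hR.exp_cP.mul hR.exp_cP).add ((Exp.mul hR.exp_cb hR.exp_cP).mul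
      hR.exp_cR)).sub ((hR.exp_ca.mul hR.exp_cR).mul hR.exp_cR)) fun i q _ => ?_).coeff
    (fun i p _ => ?_) (fun i p _ => ?_)
  · simp only [lf, quad0_eq]; ring
  · simp only [a20, base0, lf]; ring
  · simp only [a11, base0, lf]; ring

lemma k1sq_fl {n : ℕ} (hn : 0 < n) : Fl S ζ G n fun F p => k1 one F p ^ 2 :=
  hR.lift_ex ((hR.k1_ex.mul hR.k1_ex).congr fun F p => by ring) hn

lemma k12_fl {n : ℕ} (hn : 0 < n) : Fl S ζ G n fun F p => k1 one F p * k2 one F p :=
  hR.lift_ex (hR.k1_ex.mul hR.k2_ex) hn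

lemma norm1_u_ex (k : ℕ) : Ex S ζ G (k + 1) fun F => (norm1 one F (chain one F k)).u :=
  (((hR.le_ex hR.k1_ex (k + 1).zero_le).smul (hR.chain_ex k).1).sub
    (((hR.le_ex hR.perp_ex (k + 1).zero_le).det (hR.le_ex (hR.chain_ex k).2 k.le_succ)).smul
      (hR.le_ex hR.dcc_ex (by omega)))).congr fun _ _ => rfl

lemma dperp_ex : Ex S ζ G 1 (fun F => Algebra.dy (perp one F)) ∧
    Ex S ζ G 1 (fun F => Algebra.dx (perp one F)) := by
  obtain ⟨A, B, h⟩ := hR.perp_ex
  exact ⟨⟨_, _, hR.ex_dy h⟩, _, _, hR.ex_dx h⟩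

lemma quad1_ex : Ex S ζ G 0 (quad1 one) :=
  (hR.perp_ex.det (hR.mulM_ex hR.perp_ex)).congr fun _ _ => rfl

lemma perpX_ex : Ex S ζ G 1 (perpX one) := by
  have p1 := hR.le_ex hR.perp_ex zero_le_one
  have da : Ex S ζ G 1 fun F => Algebra.dy (ca one F) := ⟨_, _, hR.ex_dy hR.exp_ca⟩
  have db : Ex S ζ G 1 fun F => Algebra.dy (cb one F) := ⟨_, _, hR.ex_dy hR.exp_cb⟩
  exact ((hR.dperp_ex.2.add (hR.mulN_ex le_rfl p1)).add
    (Ex.pair (da.neg.mul p1.snd) (db.neg.mul p1.snd))).congr fun _ _ => rfl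

lemma coefDD_ex : Ex S ζ G 1 (coefDD one) :=
  ((((hR.le_ex hR.k1_ex zero_le_one).mul
      (hR.perpX_ex.det (hR.le_ex hR.cc_ex zero_le_one))).sub
    ((hR.le_ex hR.k2_ex zero_le_one).mul
      (hR.dperp_ex.1.det (hR.le_ex hR.cc_ex zero_le_one)))).sub
    (((hR.le_ex hR.quad1_ex zero_le_one).clm ((2 : ℝ) • ContinuousLinearMap.id ℝ ℝ)).mul
      (hR.dcc_ex.det (hR.le_ex hR.cc_ex zero_le_one)))).congr fun F p => by
        simp [coefDD]

lemma coefBD_fl : Fl S ζ G 2 (coefBD one) := by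
  have up : ∀ {Φ : (R2 → V4) → R2 → ℝ}, Ex S ζ G 1 Φ → Fl S ζ G 2 Φ := fun h =>
    hR.lift_ex h one_lt_two
  have p2 : Flat S ζ 2 (lf G fun F p => (perp one F p).2) :=
    hR.lift_ex hR.perp_ex.snd two_pos
  have p1 : Flat S ζ 2 (lf G fun F p => (perp one F p).1) :=
    hR.lift_ex hR.perp_ex.fst two_pos
  have c0 : Flat S ζ 2 (lf G (cc one)) := hR.lift_ex hR.cc_ex two_pos
  obtain ⟨A, B, hN⟩ := hR.N1_ex
  have n1 : Flat S ζ 2 (lf G fun F => Algebra.dy (N1 one F)) :=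
    hR.lift_ex ⟨_, _, hR.ex_dy hN⟩ one_lt_two
  have n2 : Flat S ζ 2 (lf G fun F => Algebra.dy (N2 one F)) := hR.ex_dy hR.N2_exp
  have dyy : Flat S ζ 2 (lf G fun F => Algebra.dy (Algebra.dy (cc one F))) :=
    hR.ex_dy (hR.ex_dy hR.cc_exp)
  have s : Flat S ζ 2 (lf G fun F p =>
      (perp one F p).1 • Algebra.dy (N1 one F) p + (perp one F p).2 • Algebra.dy (N2 one F) p) :=
    ((p1.smul n1).add (p2.smul n2)).congr fun _ _ _ => rfl
  have d1 : Flat S ζ 2 (lf G fun F p => det2 (cc one F p)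
      ((perp one F p).1 • Algebra.dy (N1 one F) p + (perp one F p).2 • Algebra.dy (N2 one F) p)) :=
    ((Exp.det2 c0 s).congr fun _ _ _ => rfl).coeff (fun i p _ => by simp [P205.det2])
      (fun i p _ => by simp [P205.det2])
  have d2 : Flat S ζ 2 (lf G fun F p =>
      det2 (cc one F p) (Algebra.dy (Algebra.dy (cc one F)) p)) :=
    ((Exp.det2 c0 dyy).congr fun _ _ _ => rfl).coeff (fun i p _ => by simp [P205.det2])
      (fun i p _ => by simp [P205.det2])
  have rest : Fl S ζ G 2 fun F p => det2 (cc one F p) (Algebra.dy (cc one F) p) *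
      (k1 one F p * det2 (perp one F p) (perpX one F p)
        - k2 one F p * det2 (perp one F p) (Algebra.dy (perp one F) p)
        - 2 * quad1 one F p * det2 (perp one F p) (Algebra.dy (cc one F) p)) := by
    have l : ∀ {Φ : (R2 → V4) → R2 → ℝ}, Ex S ζ G 0 Φ → Ex S ζ G 1 Φ := fun h =>
      hR.le_ex h zero_le_one
    have pp := hR.le_ex hR.perp_ex zero_le_one
    exact up ((((hR.le_ex hR.cc_ex zero_le_one).det hR.dcc_ex).mul
      ((((l hR.k1_ex).mul (pp.det hR.perpX_ex)).sub ((l hR.k2_ex).mul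
        (pp.det hR.dperp_ex.1))).sub
        (((l hR.quad1_ex).clm ((2 : ℝ) • ContinuousLinearMap.id ℝ ℝ)).mul
          (pp.det hR.dcc_ex)))).congr fun F p => by simp)
  exact ((((hR.k1sq_fl two_pos).mul d1).sub
    ((Flat.mul (hR.lift_ex (hR.k1_ex.mul hR.quad1_ex) two_pos) d2))).sub rest).congr
      fun _ _ _ => rfl

lemma linW_fl (k : ℕ) :
    Fl S ζ G (k + 2) fun F p => linW one F ((norm1 one F (chain one F k)).u p) p := by
  have z : ∀ {U : Type} [NormedAddCommGroup U] [NormedSpace ℝ U] {Φ : (R2 → V4) → R2 → U},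
      Ex S ζ G 0 Φ → Ex S ζ G (k + 1) Φ := fun h => hR.le_ex h (k + 1).zero_le
  have o : ∀ {U : Type} [NormedAddCommGroup U] [NormedSpace ℝ U] {Φ : (R2 → V4) → R2 → U},
      Ex S ζ G 1 Φ → Ex S ζ G (k + 1) Φ := fun h => hR.le_ex h (by omega)
  have w := hR.norm1_u_ex k
  have dxc : Ex S ζ G 1 fun F => Algebra.dx (cc one F) := ⟨_, _, hR.ex_dx hR.cc_exp⟩
  have cdy := (z hR.cc_ex).det (o hR.dcc_ex)
  refine hR.lift_ex ((((((z hR.k1_ex).mul (z hR.k1_ex)).mul (((z hR.cc_ex).det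
      ((w.fst.smul (z hR.N1_ex)).add (w.snd.smul (o hR.N2_ex)))).sub
        ((o dxc).det w))).add
      (((z hR.k1_ex).mul (z hR.k2_ex)).mul ((o hR.dcc_ex).det w))).sub
      (cdy.mul (((z hR.k1_ex).mul ((z hR.perp_ex).det (hR.mulM_ex w))).sub
        ((z hR.k2_ex).mul ((z hR.perp_ex).det w))))).congr fun F p => ?_) (Nat.lt_succ_self _)
  simp only [linW, mulM]
  ring

lemma sm_chain (k : ℕ) :
    Sm S (lf G fun F => (chain one F k).u) ∧ Sm S (lf G fun F => (chain one F k).v) := by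
  obtain ⟨⟨_, _, a⟩, ⟨_, _, b⟩⟩ := hR.chain_ex k
  exact ⟨a.sm, b.sm⟩

/-- Top coefficients of `Dc (chain k)`. -/
theorem exp_Dc : ∀ k, ∃ β β' : ι → ℝ × ℝ → ℝ, BaseBd S β ∧ BaseBd S β' ∧
    Exp S ζ k (lf G fun F => Dc one F (chain one F k))
      (fun i p => topC k (a20 G μ A20 B20 i p) (slice G i 0) p + quad0 one (slice G i 0) p * β i p)
      (fun i p => crossC k (a20 G μ A20 B20 i p) (a11 G μ A11 B11 i p) (slice G i 0) p + quad0 one (slice G i 0) p * β' i p)
  | 0 => ⟨_, _, baseBd_zero, baseBd_zero, (hR.exp_quad0.congr fun i q _ => by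
      simp only [lf, chain, Dc_rowX]).coeff (fun i p _ => by simp [topC])
      (fun i p _ => by simp [crossC])⟩
  | k + 1 => by
    obtain ⟨β, β', hβ, hβ', hD⟩ := exp_Dc k
    -- the coefficient of `Dc` only contributes at the first step
    obtain ⟨A, B, hC, hA⟩ : ∃ A B, Exp S ζ (k + 1) (lf G (coefDD one)) A B ∧
        ((k = 0) ∨ (A = fun _ _ => 0) ∧ B = fun _ _ => 0) := by
      rcases k with _ | k
      · obtain ⟨A, B, h⟩ := hR.coefDD_ex; exact ⟨A, B, h, Or.inl rfl⟩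
      · exact ⟨_, _, hR.lift_ex hR.coefDD_ex (by omega), Or.inr ⟨rfl, rfl⟩⟩
    obtain ⟨A', B', hW⟩ := (hR.le_ex hR.perp_ex (k + 1).zero_le).det (hR.norm1_u_ex k)
    have hDc : ∀ i p, Dc one (slice G i 0) (chain one (slice G i 0) k) p * A i p
          = quad0 one (slice G i 0) p * A i p ∧
        Dc one (slice G i 0) (chain one (slice G i 0) k) p * B i p
          = quad0 one (slice G i 0) p * B i p := fun i p => by
      rcases hA with rfl | ⟨rfl, rfl⟩ <;> simp [chain, Dc_rowX]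
    have k0 : ∀ {Φ : (R2 → V4) → R2 → ℝ}, Ex S ζ G 0 Φ → BaseBd S (base0 (lf G Φ)) :=
      fun ⟨_, _, h⟩ => h.base
    have q0 : Fl S ζ G (k + 1) (quad0 one) := hR.lift_ex ⟨_, _, hR.exp_quad0⟩ k.succ_pos
    refine ⟨fun i p => k1 one (slice G i 0) p ^ 2 * β i p + A i p + A' i p,
      fun i p => k1 one (slice G i 0) p ^ 2 * β' i p
        + (-(k1 one (slice G i 0) p * k2 one (slice G i 0) p * β i p)) + B i p + B' i p, ?_, ?_, ?_⟩
    · exact ((BaseBd.mul (hR.k1sq_fl one_pos).base hβ).add hC.top).add hW.top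
    · exact ((((BaseBd.mul (hR.k1sq_fl one_pos).base hβ').add
        ((BaseBd.mul (hR.k12_fl one_pos).base hβ).clm (-ContinuousLinearMap.id ℝ ℝ))).add
        hC.cross).add hW.cross).congr fun i p _ => by simp [base0, lf]
    refine (Exp.congr ((((Exp.mul (hR.k1sq_fl k.succ_pos) (hR.ex_dx hD)).sub
        (Exp.mul (hR.k12_fl k.succ_pos) (hR.ex_dy hD))).add
        (Exp.mul (hD.lift hR.zeta) hC)).add (Exp.mul q0 hW)) fun i q hq => ?_).coeff
      (fun i p _ => ?_) (fun i p _ => ?_)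
    · have hc := diffAt_lf hR.cc_exp.sm i hq
      have hv := diffAt_lf (hR.sm_chain k).2 i hq
      simp only [lf, chain]
      rw [Dc_next hc hv]
    · simp only [topC, base0, lf, (hDc i p).1]
      ring
    · simp only [topC, crossC_succ, base0, lf, (hDc i p).2]
      ring

lemma exp_Bc0 : Exp S ζ 1 (lf G fun F => Bc one F (rowX one F))
    (b20 G μ) (b11 G μ A20 B20) := by
  have lift : ∀ {U : Type} [NormedAddCommGroup U] [NormedSpace ℝ U] {Φ : (R2 → V4) → R2 → U},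
      Ex S ζ G 0 Φ → Fl S ζ G 1 Φ := fun h => hR.lift_ex h one_pos
  have hN : Exp S ζ 1 (lf G fun F => mulN one F (cc one F)) (fun _ _ => 0)
      (fun i p => cR one (slice G i 0) p • (-A20 i p, -B20 i p)) :=
    (((Exp.bilin (ContinuousLinearMap.lsmul ℝ ℝ) (lift hR.cc_ex.fst) (lift hR.N1_ex)).add
      (Exp.bilin (ContinuousLinearMap.lsmul ℝ ℝ) (lift hR.cc_ex.snd) hR.N2_exp)).congr
        fun _ _ _ => rfl).coeff (fun i p _ => by simp) (fun i p _ => by simp [base0, lf, cc])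
  have hm : Fl S ζ G 1 fun F p => det2 (perp one F p) (mulM one F (cc one F) p) :=
    lift (hR.perp_ex.det (hR.mulM_ex hR.cc_ex))
  have w := ((lift hR.k1_ex).bilin (ContinuousLinearMap.lsmul ℝ ℝ)
    ((hR.ex_dx hR.cc_exp).add hN)).sub
    (hm.bilin (ContinuousLinearMap.lsmul ℝ ℝ) (hR.ex_dy hR.cc_exp))
  refine (Exp.congr (Exp.det2 (lift hR.cc_ex) w) fun i q _ => ?_).coeff (fun i p _ => ?_)
    (fun i p _ => ?_)
  · simp only [lf, Bc_rowX]; rfl
  · simp [b20, base0, lf, P205.det2, cc]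
    ring
  · simp [b11, base0, lf, P205.det2, cc]
    ring

/-- Top coefficients of `Bc (chain k)`. -/
theorem exp_Bc : ∀ k, Exp S ζ (k + 1) (lf G fun F => Bc one F (chain one F k))
    (fun i p => topC k (b20 G μ i p) (slice G i 0) p) (fun i p => crossC k (b20 G μ i p) (b11 G μ A20 B20 i p) (slice G i 0) p)
  | 0 => hR.exp_Bc0.coeff (fun i p _ => by simp [topC]) (fun i p _ => by simp [crossC])
  | k + 1 => by
    obtain ⟨β, β', -, -, hD⟩ := hR.exp_Dc k
    refine (Exp.congr ((((Exp.mul (hR.k1sq_fl (k + 1).succ_pos) (hR.ex_dx (exp_Bc k))).sub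
        (Exp.mul (hR.k12_fl (k + 1).succ_pos) (hR.ex_dy (exp_Bc k)))).add (hR.linW_fl k)).add
        (Exp.mul (hR.lift_ex (m := k + 2) ⟨_, _, hD⟩ (by omega))
          (hR.le_fl hR.coefBD_fl (by omega)))) fun i q hq => ?_).coeff
      (fun i p _ => ?_) (fun i p _ => ?_)
    · have hu := diffAt_lf (hR.sm_chain k).1 i hq
      have hv := diffAt_lf (hR.sm_chain k).2 i hq
      have hc := diffAt_lf hR.cc_exp.sm i hq
      obtain ⟨_, _, hy⟩ := hR.dcc_ex
      simp only [lf, chain]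
      rw [Bc_next hc (diffAt_lf hy.sm i hq) hu hv]
    · simp only [topC, base0, lf]
      ring
    · simp only [crossC_succ, base0, lf]
      ring

/-- Top coefficients of the chain determinants. -/
theorem exp_det {j k : ℕ} (hjk : j < k) : Exp S ζ (k + 1)
    (lf G fun F p => k1 one F p * detChain one F j k p)
    (fun i p => -(Dc one (slice G i 0) (chain one (slice G i 0) j) p
      * topC k (b20 G μ i p) (slice G i 0) p))
    (fun i p => -(Dc one (slice G i 0) (chain one (slice G i 0) j) p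
      * crossC k (b20 G μ i p) (b11 G μ A20 B20 i p) (slice G i 0) p)) := by
  obtain ⟨_, _, -, -, hDk⟩ := hR.exp_Dc k
  obtain ⟨_, _, -, -, hDj⟩ := hR.exp_Dc j
  refine (Exp.congr ((Exp.mul (hR.lift_ex (m := k + 1) ⟨_, _, hDk⟩ k.lt_succ_self)
      (hR.lift_ex (m := k + 1) ⟨_, _, hR.exp_Bc j⟩ (by omega))).sub
      (Exp.mul (hR.lift_ex (m := k + 1) ⟨_, _, hDj⟩ (by omega)) (hR.exp_Bc k)))
      fun i q _ => ?_).coeff (fun i p _ => ?_) (fun i p _ => ?_)
  · simp only [lf, detChain, k1_mul_det4]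
  · simp [base0, lf]
  · simp [base0, lf]

end Top

end

end Vale.Agent.P205.Generic
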