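import Vale.Agent.P205.Generic.Strata

/-!
Twelve stages in a row on a family of states.  A state carries its scale, its map (at parameter
zero) and a perturbation; a move chooses a parameter and multiplies the scale by frequency over
amplitude.  Levels: `0` `∂x R + 2 ∂y P`, `1` Jacobian, `2`-`7` the sextic, `8` the first `Dc`,
`9`-`11` the determinants of the chain.
-/

namespace Vale.Agent.P205.Generic

open scoped ContDiff
open Set Metric Vale.Agent.P205.Algebra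

noncomputable section

variable {ι : Type*} {p : ℕ}

/-- The maps are smooth in parameter and point and nondegenerate. -/
def Pert.Regular (P : Pert ι p) : Prop :=
  ∀ i, ContDiffOn ℝ ∞ (fun z : (Fin p → ℝ) × R2 => P.H i z.1 z.2)
      (ball (0 : Fin p → ℝ) 5 ×ˢ P.dom i) ∧
    ∀ τ : Fin p → ℝ, ‖τ‖ < 5 → ∀ x ∈ P.dom i,
      detg (P.H i τ) x ≠ 0 ∧ Wsq one (P.H i τ) x ≠ 0

/-- The moves between states. -/
structure Climb (P : Pert ι p) (G : ι → Set R2) (lev N : ι → ℕ)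
    (next : ι → (Fin p → ℝ) → ι) : Prop where
  small : ∀ i, lev i < 12 → P.Small (N i) i
  lev_next : ∀ i τ, lev i < 12 → ‖τ‖ ≤ 1 → lev (next i τ) = lev i + 1
  N_next : ∀ i τ, lev i < 12 → ‖τ‖ ≤ 1 → N i ≤ N (next i τ)
  big_next : ∀ i τ, lev i < 12 → ‖τ‖ ≤ 1 →
    P.big (next i τ) = P.big i * P.freq i / P.amp i
  G_next : ∀ i τ, lev i < 12 → ‖τ‖ ≤ 1 → G i ⊆ G (next i τ)
  H_next : ∀ i τ, lev i < 12 → ‖τ‖ ≤ 1 → P.H (next i τ) 0 = P.H i τ

/-- `i'` is reached from `i` by moves. -/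
inductive Desc (lev : ι → ℕ) (next : ι → (Fin p → ℝ) → ι) : ι → ι → Prop
  | refl (i : ι) : Desc lev next i i
  | move {i i' : ι} {τ : Fin p → ℝ} (h : Desc lev next i i') (hl : lev i' < 12) (hτ : ‖τ‖ ≤ 1) :
      Desc lev next i (next i' τ)

/-- Where `c` is large and `Dc₀` small, a top coefficient of the `Dc` is large at level eight. -/
def DcLow (P : Pert ι p) (G : ι → Set R2) (lev : ι → ℕ)
    (μ A20 A11 B20 B11 : Dir ι p → R2 → ℝ) : Prop :=
  ∀ d : ℕ, ∃ (d' : ℕ) (sel : ι → R2 → Bool), ∀ j : Dir ι p, lev j.1 = 8 → ∀ x ∈ G j.1,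
    P.Small d' j.1 → 1 ≤ P.big j.1 ^ d * ‖cc one (P.H j.1 0) x‖ →
    P.big j.1 ^ d' * |quad0 one (P.H j.1 0) x| ≤ 1 → ∀ k ≤ 2, 1 ≤ P.big j.1 ^ d' *
      |if sel j.1 x then topC k (a20 P.var μ A20 B20 j x) (slice P.var j 0) x
        else crossC k (a20 P.var μ A20 B20 j x) (a11 P.var μ A11 B11 j x) (slice P.var j 0) x|

end

end Vale.Agent.P205.Generic
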