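import Vale.Agent.P205.Generic.Reach

/-!
Where `(P, R)` is tiny there is a zero of it nearby, at which the closed multiplier is the square
of the Jacobian times the sextic.
-/

namespace Vale.Agent.P205.Generic

open scoped ContDiff
open Set Metric Vale.Agent.P205.Algebra

noncomputable section

variable {ι : Type*} {p : ℕ} {P : Pert ι p} {G : ι → Set R2}
variable {ζ μ A20 A11 B20 B11 : Dir ι p → R2 → ℝ}

/-- The direction at the map of a state. -/
def Pert.origin (P : Pert ι p) (i : ι) : Dir ι p :=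
  (i, ⟨0, mem_closedBall_self (by norm_num)⟩, ⟨0, mem_closedBall_self (by norm_num)⟩)

lemma Pert.base_bound {Φ : (R2 → V4) → R2 → ℝ} (h : BaseBd P.vscale (base0 (lf P.var Φ))) :
    ∃ C : ℕ, ∀ i, ∀ x ∈ P.dom i, |Φ (P.H i 0) x| ≤ P.big i ^ C := by
  obtain ⟨C, hC⟩ := h.norm_le
  exact ⟨C, fun i x hx => by
    simpa [Pert.base0_var, Pert.origin, Pert.vscale] using hC (P.origin i) x hx⟩

/-- A functional is Lipschitz where there is room in the domain. -/
lemma Pert.lipschitz {Φ : (R2 → V4) → R2 → ℝ} (h : BaseBd P.vscale (base0 (lf P.var Φ)))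
    (L : ℕ) :
    ∃ C : ℕ, ∀ i, ∀ x y, closedBall x (P.big i ^ L)⁻¹ ⊆ P.dom i →
      closedBall y (P.big i ^ L)⁻¹ ⊆ P.dom i →
      |Φ (P.H i 0) x - Φ (P.H i 0) y| ≤ P.big i ^ C * ‖x - y‖ := by
  obtain ⟨C, hC⟩ := h.lipschitz
    (G := fun j : Dir ι p => {x | closedBall x (P.big j.1 ^ L)⁻¹ ⊆ P.dom j.1}) (L := L)
    fun j x hx => hx
  exact ⟨C, fun i x y hx hy => by
    simpa [Pert.base0_var, Pert.origin, Pert.vscale] using hC (P.origin i) x hx y hy⟩

/-- The differential of `c` at the map of a state. -/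
lemma Pert.fderiv_cc (hP : P.Smooth (cP one)) (hR : P.Smooth (cR one)) (i : ι) {y : R2}
    (hy : y ∈ P.dom i) :
    HasFDerivAt (cc one (P.H i 0)) (fderiv ℝ (cc one (P.H i 0)) y) y ∧
      ∀ v : R2, fderiv ℝ (cc one (P.H i 0)) y v =
        (v.1 * Algebra.dx (cP one (P.H i 0)) y + v.2 * Algebra.dy (cP one (P.H i 0)) y,
         v.1 * Algebra.dx (cR one (P.H i 0)) y + v.2 * Algebra.dy (cR one (P.H i 0)) y) := by
  have sl : ∀ {Φ : (R2 → V4) → R2 → ℝ}, P.Smooth Φ → DifferentiableAt ℝ (Φ (P.H i 0)) y :=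
    fun {Φ} h => ((((h i).comp (contDiffOn_const.prodMk contDiffOn_id)
      fun x hx => (⟨mem_ball_self (by norm_num), hx⟩ :
        ((0 : Fin p → ℝ), x) ∈ ball (0 : Fin p → ℝ) 5 ×ˢ P.dom i))).contDiffAt
      ((P.isOpen i).mem_nhds hy)).differentiableAt (by simp)
  have e : cc one (P.H i 0) = fun q => (cP one (P.H i 0) q, cR one (P.H i 0) q) := rfl
  refine ⟨((sl hP).prodMk (sl hR)).hasFDerivAt, fun v => ?_⟩
  rw [e, DifferentiableAt.fderiv_prodMk (sl hP) (sl hR)]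
  have lin : ∀ (T : R2 →L[ℝ] ℝ), T v = v.1 * T (1, 0) + v.2 * T (0, 1) := fun T => by
    have : v = v.1 • ((1 : ℝ), (0 : ℝ)) + v.2 • ((0 : ℝ), (1 : ℝ)) := by simp
    conv_lhs => rw [this]
    rw [map_add, map_smul, map_smul]; rfl
  exact Prod.ext (lin _) (lin _)

/-- Where `(P, R)` is tiny, the Jacobian and the sextic bound the closed multiplier below. -/
theorem Setting.endgame (hS : Setting P G ζ μ A20 A11 B20 B11) (hP : P.Smooth (cP one))
    (hR : P.Smooth (cR one)) {n : ℕ} {m20 m11 : Dir ι p → R2 → ℝ}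
    (hm : Exp P.vscale ζ n (lf P.var (mainMult one)) m20 m11)
    (hlink : ∀ i, ∀ y ∈ P.dom i, cP one (P.H i 0) y = 0 → cR one (P.H i 0) y = 0 →
      mainMult one (P.H i 0) y = jac (P.H i 0) y ^ 2 * sx 0 (P.H i 0) y) (d : ℕ) :
    ∃ e : ℕ, ∀ i, ∀ x ∈ G i, (CBig P d i x ∨ Big P jac d i x) →
      (CBig P d i x ∨ Big P (sx 0) d i x) → CBig P e i x ∨ Big P (mainMult one) e i x := by
  obtain ⟨L, hL⟩ := hS.thick
  obtain ⟨a1, ha1⟩ := Pert.base_bound hS.top.exp_dPx.base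
  obtain ⟨a2, ha2⟩ := Pert.base_bound hS.top.exp_dPy.base
  obtain ⟨a3, ha3⟩ := Pert.base_bound hS.top.exp_dRx.base
  obtain ⟨a4, ha4⟩ := Pert.base_bound hS.top.exp_dRy.base
  obtain ⟨c1, hc1⟩ := Pert.lipschitz hS.top.exp_dPx.base (L + 1)
  obtain ⟨c2, hc2⟩ := Pert.lipschitz hS.top.exp_dPy.base (L + 1)
  obtain ⟨c3, hc3⟩ := Pert.lipschitz hS.top.exp_dRx.base (L + 1)
  obtain ⟨c4, hc4⟩ := Pert.lipschitz hS.top.exp_dRy.base (L + 1)
  obtain ⟨c5, hc5⟩ := Pert.lipschitz hS.exp_jac.base (L + 1)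
  obtain ⟨_, hsx⟩ := hS.top.exp_sx 0
  obtain ⟨c6, hc6⟩ := Pert.lipschitz hsx.base (L + 1)
  obtain ⟨c7, hc7⟩ := Pert.lipschitz hm.base (L + 1)
  set a := a1 + a2 + a3 + a4 with hadef
  set b := c1 + c2 + c3 + c4 + c5 + c6 + c7 with hbdef
  set r := L + 1 + a + b + 3 * d + 6 with hrdef
  clear_value a b r
  refine ⟨r + a + d + 2, fun i x hx hJ hX => ?_⟩
  by_cases hce : CBig P (r + a + d + 2) i x
  · exact Or.inl hce
  have hcd : ¬ CBig P d i x := fun h => hce (h.mono (by omega))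
  have hjx := hJ.resolve_left hcd
  have hsxx := hX.resolve_left hcd
  refine Or.inr ?_
  unfold CBig at hce
  unfold Big at hjx hsxx ⊢
  set F := P.H i 0
  set B := P.big i
  have h2 : 2 ≤ B := P.two_le i
  have hB : 1 ≤ B := P.toScale.one_le i
  have hB0 : 0 < B := by linarith
  have pow : ∀ {m m' : ℕ}, m ≤ m' → B ^ m ≤ B ^ m' := fun h => pow_le_pow_right₀ hB h
  have hball : closedBall x (B ^ r)⁻¹ ⊆ closedBall x (B ^ (L + 1))⁻¹ :=
    closedBall_subset_closedBall (inv_anti₀ (by positivity) (pow (by omega)))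
  have room : ∀ y ∈ closedBall x (B ^ r)⁻¹, closedBall y (B ^ (L + 1))⁻¹ ⊆ P.dom i := by
    intro y hy
    refine (closedBall_subset_closedBall' ?_).trans (hL i x hx).2
    have h' := mem_closedBall.1 (hball hy)
    have h'' : 2 * (B ^ (L + 1))⁻¹ ≤ (B ^ L)⁻¹ := by
      rw [pow_succ, mul_inv, ← mul_assoc, mul_comm (2 : ℝ)]
      exact (mul_assoc _ _ _).trans_le (mul_le_of_le_one_right (by positivity)
        (by rw [← div_eq_mul_inv, div_le_one hB0]; exact h2))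
    linarith
  have hxx : x ∈ closedBall x (B ^ r)⁻¹ := mem_closedBall_self (by positivity)
  have roomx := room x hxx
  have indom : ∀ y ∈ closedBall x (B ^ r)⁻¹, y ∈ P.dom i := fun y hy =>
    room y hy (mem_closedBall_self (by positivity))
  have hxd := indom x hxx
  have near : ∀ y ∈ closedBall x (B ^ r)⁻¹, ‖y - x‖ ≤ (B ^ r)⁻¹ := fun y hy => by
    rwa [mem_closedBall, dist_eq_norm] at hy
  have lip : ∀ {Φ : (R2 → V4) → R2 → ℝ} {c : ℕ}, c ≤ b →
      (∀ i, ∀ x y, closedBall x (P.big i ^ (L + 1))⁻¹ ⊆ P.dom i →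
        closedBall y (P.big i ^ (L + 1))⁻¹ ⊆ P.dom i →
        |Φ (P.H i 0) x - Φ (P.H i 0) y| ≤ P.big i ^ c * ‖x - y‖) →
      ∀ y ∈ closedBall x (B ^ r)⁻¹, |Φ F y - Φ F x| ≤ B ^ b * (B ^ r)⁻¹ := fun hc h y hy =>
    (h i y x (room y hy) roomx).trans (mul_le_mul (pow hc) (near y hy) (norm_nonneg _)
      (by positivity))
  have hcw : B ^ (r + a + d + 2) * ‖cc one F x‖ < 1 := not_le.1 hce
  set px := Algebra.dx (cP one F) x
  set py := Algebra.dy (cP one F) x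
  set rx := Algebra.dx (cR one F) x
  set ry := Algebra.dy (cR one F) x
  have bp : |px| ≤ B ^ a ∧ |py| ≤ B ^ a ∧ |rx| ≤ B ^ a ∧ |ry| ≤ B ^ a :=
    ⟨(ha1 i x hxd).trans (pow (by omega)), (ha2 i x hxd).trans (pow (by omega)),
      (ha3 i x hxd).trans (pow (by omega)), (ha4 i x hxd).trans (pow (by omega))⟩
  have hinv : ∀ v, ‖v‖ ≤ B ^ (a + d + 1) * ‖fderiv ℝ (cc one F) x v‖ := by
    intro v
    rw [(Pert.fderiv_cc hP hR i hxd).2 v]
    set w1 := v.1 * px + v.2 * py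
    set w2 := v.1 * rx + v.2 * ry
    have hw1 : |w1| ≤ ‖((w1, w2) : ℝ × ℝ)‖ := by simpa using norm_fst_le ((w1, w2) : ℝ × ℝ)
    have hw2 : |w2| ≤ ‖((w1, w2) : ℝ × ℝ)‖ := by simpa using norm_snd_le ((w1, w2) : ℝ × ℝ)
    have hD : jac F x = px * ry - py * rx := rfl
    have e1 : |v.1| * |jac F x| = |w1 * ry - w2 * py| := by
      rw [← abs_mul, hD]; congr 1; simp only [w1, w2]; ring
    have e2 : |v.2| * |jac F x| = |w2 * px - w1 * rx| := by
      rw [← abs_mul, hD]; congr 1; simp only [w1, w2]; ring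
    have key : ∀ t s u : ℝ, |u| * |jac F x| = |s| → |s| ≤ 2 * B ^ a * t →
        |u| ≤ B ^ (a + d + 1) * t := fun t s u he hs => by
      have h4 := mul_le_mul_of_nonneg_left hs (by positivity : (0 : ℝ) ≤ B ^ d)
      have h5 : |u| ≤ B ^ d * (|u| * |jac F x|) := by
        rw [mul_left_comm]
        exact le_mul_of_one_le_right (abs_nonneg _) hjx
      rw [he] at h5
      have h6 : 0 ≤ 2 * B ^ a * t := (abs_nonneg s).trans hs
      have ht : 0 ≤ t := nonneg_of_mul_nonneg_right h6 (by positivity)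
      refine (h5.trans h4).trans ?_
      rw [pow_add, pow_add, pow_one]
      nlinarith [mul_le_mul_of_nonneg_left h2 (by positivity : 0 ≤ B ^ a * B ^ d * t)]
    set T := ‖((w1, w2) : ℝ × ℝ)‖
    have two : ∀ {p q u u' : ℝ}, |p| ≤ T → |q| ≤ T → |u| ≤ B ^ a → |u'| ≤ B ^ a →
        |p * u - q * u'| ≤ 2 * B ^ a * T := fun {p q u u'} hp hq hu hu' => by
      have hT : 0 ≤ T := norm_nonneg _
      calc |p * u - q * u'| ≤ |p * u| + |q * u'| := abs_sub _ _
        _ = |p| * |u| + |q| * |u'| := by rw [abs_mul, abs_mul]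
        _ ≤ T * B ^ a + T * B ^ a :=
            add_le_add (mul_le_mul hp hu (abs_nonneg _) hT) (mul_le_mul hq hu' (abs_nonneg _) hT)
        _ = 2 * B ^ a * T := by ring
    rw [Prod.norm_def v]
    exact max_le (key T _ v.1 e1 (two hw1 hw2 bp.2.2.2 bp.2.1))
      (key T _ v.2 e2 (two hw2 hw1 bp.1 bp.2.2.1))
  have hlipD : ∀ y ∈ closedBall x (B ^ r)⁻¹,
      ‖fderiv ℝ (cc one F) y - fderiv ℝ (cc one F) x‖ ≤ 2 * (B ^ b * (B ^ r)⁻¹) := by
    intro y hy
    refine ContinuousLinearMap.opNorm_le_bound _ (by positivity) fun v => ?_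
    rw [sub_apply, (Pert.fderiv_cc hP hR i hxd).2 v, (Pert.fderiv_cc hP hR i (indom y hy)).2 v]
    have one' : ∀ {Φ Ψ : (R2 → V4) → R2 → ℝ}, |Φ F y - Φ F x| ≤ B ^ b * (B ^ r)⁻¹ →
        |Ψ F y - Ψ F x| ≤ B ^ b * (B ^ r)⁻¹ →
        |(v.1 * Φ F y + v.2 * Ψ F y) - (v.1 * Φ F x + v.2 * Ψ F x)| ≤
          2 * (B ^ b * (B ^ r)⁻¹) * ‖v‖ := fun {Φ Ψ} hΦ hΨ => by
      calc |(v.1 * Φ F y + v.2 * Ψ F y) - (v.1 * Φ F x + v.2 * Ψ F x)|
          = |v.1 * (Φ F y - Φ F x) + v.2 * (Ψ F y - Ψ F x)| := by congr 1; ring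
        _ ≤ |v.1 * (Φ F y - Φ F x)| + |v.2 * (Ψ F y - Ψ F x)| := abs_add_le _ _
        _ = |v.1| * |Φ F y - Φ F x| + |v.2| * |Ψ F y - Ψ F x| := by rw [abs_mul, abs_mul]
        _ ≤ ‖v‖ * (B ^ b * (B ^ r)⁻¹) + ‖v‖ * (B ^ b * (B ^ r)⁻¹) :=
            add_le_add (mul_le_mul (by simpa using norm_fst_le v) hΦ (abs_nonneg _) (norm_nonneg _))
              (mul_le_mul (by simpa using norm_snd_le v) hΨ (abs_nonneg _) (norm_nonneg _))
        _ = 2 * (B ^ b * (B ^ r)⁻¹) * ‖v‖ := by ring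
    rw [Prod.norm_def]
    exact max_le
      (one' (Φ := fun F => Algebra.dx (cP one F)) (Ψ := fun F => Algebra.dy (cP one F))
        (lip (Φ := fun F => Algebra.dx (cP one F)) (c := c1) (by omega) hc1 y hy)
        (lip (Φ := fun F => Algebra.dy (cP one F)) (c := c2) (by omega) hc2 y hy))
      (one' (Φ := fun F => Algebra.dx (cR one F)) (Ψ := fun F => Algebra.dy (cR one F))
        (lip (Φ := fun F => Algebra.dx (cR one F)) (c := c3) (by omega) hc3 y hy)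
        (lip (Φ := fun F => Algebra.dy (cR one F)) (c := c4) (by omega) hc4 y hy))
  have hL2 : 2 * B ^ (a + d + 1) * (2 * (B ^ b * (B ^ r)⁻¹)) ≤ 1 := by
    rw [← mul_assoc, ← mul_assoc, ← div_eq_mul_inv, div_le_one (by positivity)]
    calc 2 * B ^ (a + d + 1) * 2 * B ^ b = 2 * 2 * (B ^ (a + d + 1) * B ^ b) := by ring
      _ ≤ B * B * (B ^ (a + d + 1) * B ^ b) := by gcongr
      _ = B ^ (a + d + b + 3) := by ring
      _ ≤ B ^ r := pow (by omega)
  have hsmall : 2 * B ^ (a + d + 1) * ‖cc one F x‖ ≤ (B ^ r)⁻¹ := by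
    rw [inv_eq_one_div, le_div_iff₀ (by positivity)]
    refine le_trans ?_ hcw.le
    calc 2 * B ^ (a + d + 1) * ‖cc one F x‖ * B ^ r
        ≤ B * B ^ (a + d + 1) * ‖cc one F x‖ * B ^ r := by gcongr
      _ = B ^ (r + a + d + 2) * ‖cc one F x‖ := by ring
  obtain ⟨y, hy, hcy⟩ := exists_zero_near (pow_pos hB0 (a + d + 1))
    (fun y hy => (Pert.fderiv_cc hP hR i (indom y hy)).1) hinv hlipD hL2 hsmall
  have hyb : y ∈ closedBall x (B ^ r)⁻¹ := by
    rw [mem_closedBall, dist_eq_norm]; exact hy.trans hsmall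
  have hz := hlink i y (indom y hyb) (congrArg Prod.fst hcy) (congrArg Prod.snd hcy)
  have low : ∀ {Φ : (R2 → V4) → R2 → ℝ}, |Φ F y - Φ F x| ≤ B ^ b * (B ^ r)⁻¹ →
      1 ≤ B ^ d * |Φ F x| → 1 ≤ B ^ (d + 1) * |Φ F y| := fun {Φ} hΦ h1 => by
    have h3 : B ^ (d + 1) * (B ^ b * (B ^ r)⁻¹) ≤ 1 := by
      rw [← mul_assoc, ← div_eq_mul_inv, div_le_one (by positivity), ← pow_add]
      exact pow (by omega)
    have h4 := mul_le_mul_of_nonneg_left ((abs_sub_abs_le_abs_sub (Φ F x) (Φ F y)).trans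
      ((abs_sub_comm _ _).le.trans hΦ)) (by positivity : (0 : ℝ) ≤ B ^ (d + 1))
    have h5 := mul_le_mul_of_nonneg_left h1 hB0.le
    rw [pow_succ] at h3 h4 ⊢
    nlinarith
  have j1 := low (lip (c := c5) (by omega) hc5 y hyb) hjx
  have s1 := low (lip (c := c6) (by omega) hc6 y hyb) hsxx
  have hmy : 1 ≤ B ^ (3 * (d + 1)) * |mainMult one F y| := by
    rw [hz, abs_mul, abs_pow]
    calc (1 : ℝ) ≤ (B ^ (d + 1) * |jac F y|) * (B ^ (d + 1) * |jac F y|) *
          (B ^ (d + 1) * |sx 0 F y|) :=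
          one_le_mul_of_one_le_of_one_le (one_le_mul_of_one_le_of_one_le j1 j1) s1
      _ = _ := by ring
  have hmlip := lip (c := c7) (by omega) hc7 y hyb
  have h6 : B ^ (3 * (d + 1)) * (B ^ b * (B ^ r)⁻¹) * B ≤ 1 := by
    rw [← mul_assoc, ← div_eq_mul_inv, div_mul_eq_mul_div, div_le_one (by positivity), ← pow_add,
      ← pow_succ]
    exact pow (by omega)
  have h7 := mul_le_mul_of_nonneg_left ((abs_sub_abs_le_abs_sub (mainMult one F y)
    (mainMult one F x)).trans hmlip) (by positivity : (0 : ℝ) ≤ B ^ (3 * (d + 1)) * B)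
  have h8 : 1 ≤ B ^ (3 * (d + 1) + 1) * |mainMult one F x| := by
    rw [pow_succ]
    nlinarith [mul_le_mul_of_nonneg_left hmy hB0.le]
  exact h8.trans (mul_le_mul_of_nonneg_right (pow (by omega)) (abs_nonneg _))

end

end Vale.Agent.P205.Generic
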