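import Vale.Agent.P205.Generic.DetLow
import Vale.Agent.P205.Generic.End

/-!
The climb ends with a lower bound of the criterion.
-/

namespace Vale.Agent.P205.Generic

open scoped ContDiff
open Set Metric Vale.Agent.P205.Algebra

noncomputable section

variable {ι : Type*} {p : ℕ} {P : Pert ι p} {G : ι → Set R2}
variable {lev N : ι → ℕ} {next : ι → (Fin p → ℝ) → ι}
variable {ζ μ A20 A11 B20 B11 : Dir ι p → R2 → ℝ}

/-- The functionals of the stages are smooth along the perturbations. -/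
structure Pert.SmoothAll (P : Pert ι p) : Prop where
  sP : P.Smooth (cP one)
  sR : P.Smooth (cR one)
  stq : P.Smooth tq
  sjac : P.Smooth jac
  ssx : ∀ k, P.Smooth (sx k)
  sdck : ∀ k, P.Smooth (dck k)
  skdet : ∀ j k, P.Smooth (kdet j k)
  sMult : P.Smooth (mainMult one)

/-- Some multiplier of the criterion is large. -/
def Done (P : Pert ι p) (d : ℕ) (i : ι) (x : R2) : Prop :=
  Big P (mainMult one) d i x ∨ ∃ j k, j ≤ 2 ∧ 3 ≤ k ∧ k ≤ 5 ∧ Big P (kdet j k) d i x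

/-- After the first `Dc` and `m` stages of determinants. -/
def After (P : Pert ι p) (m d : ℕ) (i : ι) (x : R2) : Prop :=
  Done P d i x ∨ (CBig P d i x ∧ ∃ j, m ≤ j ∧ j ≤ 2 ∧ Big P (dck j) d i x)

lemma Done.mono {d d' : ℕ} {i : ι} {x : R2} (h : Done P d i x) (hd : d ≤ d') : Done P d' i x := by
  rcases h with h | ⟨j, k, a, b, c, h⟩
  exacts [Or.inl (h.mono hd), Or.inr ⟨j, k, a, b, c, h.mono hd⟩]

namespace Setting

variable (hS : Setting P G ζ μ A20 A11 B20 B11) (hC : Climb P G lev N next)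
variable (hs : P.SmoothAll)
include hS hC hs

lemma keep_done {n : ℕ} (hn : n + 2 ≤ 10) {m20 m11 : Dir ι p → R2 → ℝ}
    (hm : Exp P.vscale ζ n (lf P.var (mainMult one)) m20 m11) (d : ℕ) :
    ∃ C, ∀ i τ, lev i < 12 → ‖τ‖ ≤ 1 → P.Small C i → ∀ x ∈ G i,
      Done P d i x → Done P (d + 1) (next i τ) x := by
  obtain ⟨C0, h0⟩ := hC.keep hS hs.sMult hn hm d
  have h1 : ∀ a : Fin 3 × Fin 3, ∃ C, ∀ i τ, lev i < 12 → ‖τ‖ ≤ 1 → P.Small C i → ∀ x ∈ G i,
      Big P (kdet a.1 (a.2 + 3)) d i x → Big P (kdet a.1 (a.2 + 3)) (d + 1) (next i τ) x :=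
    fun a => hC.keep hS (hs.skdet _ _) (by omega)
      (hS.top.exp_det (by omega : (a.1 : ℕ) < a.2 + 3)) d
  choose C hC' using h1
  refine ⟨C0 + ∑ a, C a, fun i τ hl hτ hsm x hx h => ?_⟩
  rcases h with h | ⟨j, k, hj, hk3, hk5, h⟩
  · exact Or.inl (h0 i τ hl hτ (hsm.mono (Nat.le_add_right _ _)) x hx h)
  · obtain ⟨k', rfl⟩ : ∃ k', k = k' + 3 := ⟨k - 3, by omega⟩
    have hle := Finset.single_le_sum (f := C) (fun _ _ => Nat.zero_le _)
      (Finset.mem_univ ((⟨j, by omega⟩, ⟨k', by omega⟩) : Fin 3 × Fin 3))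
    exact Or.inr ⟨j, k' + 3, hj, hk3, hk5,
      hC' (⟨j, by omega⟩, ⟨k', by omega⟩) i τ hl hτ (hsm.mono (by omega)) x hx h⟩

omit hs in
lemma reach_tq {d : ℕ} (hμ : MuLow P μ (fun i => {x ∈ G i | lev i ≠ 8}) d)
    (hP : P.Smooth (cP one)) (hR : P.Smooth (cR one)) (hq : P.Smooth tq) :
    Reach P G lev N next 1 fun e i x => CBig P e i x ∨ Big P tq e i x := by
  refine hC.step (Reach.start P G lev N next) (by norm_num) fun _ => ?_
  obtain ⟨K, hK⟩ := (hS.mono (G' := fun i => {x ∈ G i | lev i ≠ 8}) fun i x hx => hx.1).stage_tq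
    hμ hP hR hq
  refine ⟨K, K, fun i hi hsm => ?_⟩
  obtain ⟨τ, hτ, h⟩ := hC.avoid (by omega) (hK i hsm)
  refine ⟨τ, hτ, fun x hx _ => ?_⟩
  obtain ⟨l, hl⟩ := h x ⟨hx, by omega⟩
  fin_cases l
  · exact Or.inl (cBig_iff.2 (Or.inl hl))
  · exact Or.inl (cBig_iff.2 (Or.inr hl))
  · exact Or.inr hl

lemma reach_jac {d : ℕ} (hμ : MuLow P μ (fun i => {x ∈ G i | lev i ≠ 8}) d) :
    Reach P G lev N next 2 fun e i x => (CBig P e i x ∨ Big P jac e i x) ∧
      (CBig P e i x ∨ Big P (sx 6) e i x) := by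
  refine hC.step (hS.reach_tq hC hμ hs.sP hs.sR hs.stq) (by norm_num) fun e => ?_
  obtain ⟨K, hK⟩ := (hS.mono (G' := fun i => {x ∈ G i | lev i ≠ 8}) fun i x hx => hx.1).stage_jac
    (hμ.mono (le_max_left d e)) hs.sP hs.sR hs.stq hs.sjac
  obtain ⟨C, hC'⟩ := hC.keep_c hS hs.sP hs.sR e
  refine ⟨max K C, max K (e + 1), fun i hi hsm => ?_⟩
  obtain ⟨τ, hτ, h⟩ := hC.avoid (by omega) (hK i (hsm.mono (le_max_left _ _)))
  refine ⟨τ, hτ, fun x hx hx0 => ⟨?_, Or.inr ?_⟩⟩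
  · rcases hx0 with hc | ht
    · exact Or.inl ((hC' i τ (by omega) hτ (hsm.mono (le_max_right _ _)) x hx hc).mono
        (le_max_right _ _))
    · obtain ⟨l, hl⟩ := h x ⟨⟨hx, by omega⟩, ht.mono (le_max_right _ _)⟩
      fin_cases l
      · exact Or.inl ((cBig_iff.2 (Or.inl hl)).mono (le_max_left _ _))
      · exact Or.inl ((cBig_iff.2 (Or.inr hl)).mono (le_max_left _ _))
      · exact Or.inr (hl.mono (le_max_left _ _))
  · rw [Big, sx_six]
    exact one_le_mul_of_one_le_of_one_le (one_le_pow₀ (P.toScale.one_le _)) (by norm_num)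

lemma step_sx {d s : ℕ} (hμ : MuLow P μ (fun i => {x ∈ G i | lev i ≠ 8}) d) (k : ℕ)
    (hs8 : s < 8)
    (h : Reach P G lev N next s fun e i x => (CBig P e i x ∨ Big P jac e i x) ∧
      (CBig P e i x ∨ Big P (sx (k + 1)) e i x)) :
    Reach P G lev N next (s + 1) fun e i x => (CBig P e i x ∨ Big P jac e i x) ∧
      (CBig P e i x ∨ Big P (sx k) e i x) := by
  refine hC.step h (by omega) fun e => ?_
  obtain ⟨K, hK⟩ := (hS.mono (G' := fun i => {x ∈ G i | lev i ≠ 8}) fun i x hx => hx.1).stage_sx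
    k (hμ.mono (le_max_left d e)) hs.sP hs.sR (hs.ssx k) (hs.ssx (k + 1))
  obtain ⟨C, hC'⟩ := hC.keep_c hS hs.sP hs.sR e
  obtain ⟨Cj, hCj⟩ := hC.keep hS hs.sjac (by norm_num) hS.exp_jac e
  refine ⟨max K (max C Cj), max K (e + 1), fun i hi hsm => ?_⟩
  obtain ⟨τ, hτ, h⟩ := hC.avoid (by omega) (hK i (hsm.mono (le_max_left _ _)))
  have hkc := hC' i τ (by omega) hτ (hsm.mono (le_max_of_le_right (le_max_left _ _)))
  refine ⟨τ, hτ, fun x hx hx0 => ⟨?_, ?_⟩⟩
  · rcases hx0.1 with hc | hj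
    · exact Or.inl ((hkc x hx hc).mono (le_max_right _ _))
    · exact Or.inr ((hCj i τ (by omega) hτ (hsm.mono (le_max_of_le_right (le_max_right _ _))) x hx
        hj).mono (le_max_right _ _))
  · rcases hx0.2 with hc | ht
    · exact Or.inl ((hkc x hx hc).mono (le_max_right _ _))
    · obtain ⟨l, hl⟩ := h x ⟨⟨hx, by omega⟩, ht.mono (le_max_right _ _)⟩
      fin_cases l
      · exact Or.inl ((cBig_iff.2 (Or.inl hl)).mono (le_max_left _ _))
      · exact Or.inl ((cBig_iff.2 (Or.inr hl)).mono (le_max_left _ _))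
      · exact Or.inr (hl.mono (le_max_left _ _))

lemma step_det {d : ℕ} (hμ : MuLow P μ (fun i => {x ∈ G i | lev i ≠ 8}) d) {n : ℕ}
    (hn : n + 2 ≤ 10) {m20 m11 : Dir ι p → R2 → ℝ}
    (hm : Exp P.vscale ζ n (lf P.var (mainMult one)) m20 m11) (m : ℕ) (hm3 : m ≤ 2)
    (h : Reach P G lev N next (9 + m) (After P m)) :
    Reach P G lev N next (9 + m + 1) (After P (m + 1)) := by
  refine hC.step h (by omega) fun e => ?_
  set D := max d e
  set G₁ : ι → Set R2 := fun i => {x ∈ G i | lev i ≠ 8}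
  obtain ⟨dl, sel, hdl, hlow⟩ :=
    (hS.mono (G' := G₁) fun i x hx => hx.1).det_low hs.sP hs.sR (hμ.mono (le_max_left d e))
  obtain ⟨C, hC'⟩ := hC.keep_c hS hs.sP hs.sR D
  have hd : ∀ j : Fin 3, ∃ C, ∀ i τ, lev i < 12 → ‖τ‖ ≤ 1 → P.Small C i → ∀ x ∈ G i,
      Big P (dck j) D i x → Big P (dck j) (D + 1) (next i τ) x := fun j => by
    obtain ⟨_, _, _, _, hE⟩ := hS.top.exp_Dc (j : ℕ)
    exact hC.keep hS (hs.sdck _) (by omega) hE D
  choose Cd hCd using hd
  obtain ⟨Cn, hCn⟩ := hS.keep_done hC hs hn hm D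
  obtain ⟨K, hK⟩ := (hS.mono
    (G' := fun i => {x ∈ G₁ i | CBig P D i x}) fun i x hx => hx.1.1).stage_det hm3
    (hs.sdck m) (hs.skdet m) sel (d := dl)
    (fun j x hx hsm _ k hk3 hk5 => hlow j x hx.1 hsm hx.2 k hk3 hk5)
  refine ⟨K + C + Cn + ∑ j, Cd j, K + D + 1, fun i hi hsm => ?_⟩
  obtain ⟨τ, hτ, h⟩ := hC.avoid (by omega) (hK i (hsm.mono (by omega)))
  refine ⟨τ, hτ, fun x hx hx0 => ?_⟩
  have up : D + 1 ≤ K + D + 1 := by omega
  rcases hx0 with hdone | ⟨hc, j, hmj, hj2, hj⟩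
  · exact Or.inl ((hCn i τ (by omega) hτ (hsm.mono (by omega)) x hx
      (hdone.mono (le_max_right _ _))).mono up)
  rcases eq_or_lt_of_le hmj with rfl | hlt
  · obtain ⟨l, hl⟩ := h x ⟨⟨⟨hx, by omega⟩, hc.mono (le_max_right _ _)⟩,
      hj.mono ((le_max_right d e).trans hdl)⟩
    refine Or.inl (Or.inr ⟨m, l + 3, hj2, by omega, by omega, ?_⟩)
    fin_cases l <;> exact hl.mono (by omega)
  · have hle := Finset.single_le_sum (f := Cd) (fun _ _ => Nat.zero_le _)
      (Finset.mem_univ (⟨j, by omega⟩ : Fin 3))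
    exact Or.inr ⟨(hC' i τ (by omega) hτ (hsm.mono (by omega)) x hx
      (hc.mono (le_max_right _ _))).mono up, j, hlt, hj2,
      (hCd ⟨j, by omega⟩ i τ (by omega) hτ (hsm.mono (by omega)) x hx
        (hj.mono (le_max_right _ _))).mono up⟩

/-- The climb ends with a lower bound of the criterion. -/
theorem exists_margin_aux {d : ℕ} (hμ : MuLow P μ (fun i => {x ∈ G i | lev i ≠ 8}) d) {n : ℕ}
    (hn : n + 2 ≤ 10) {m20 m11 : Dir ι p → R2 → ℝ}
    (hm : Exp P.vscale ζ n (lf P.var (mainMult one)) m20 m11)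
    (hlink : ∀ i, ∀ y ∈ P.dom i, cP one (P.H i 0) y = 0 → cR one (P.H i 0) y = 0 →
      mainMult one (P.H i 0) y = jac (P.H i 0) y ^ 2 * sx 0 (P.H i 0) y)
    (hDc : DcLow P G lev μ A20 A11 B20 B11) :
    ∃ K, ∀ i, lev i = 0 → K ≤ N i → ∃ i', Desc lev next i i' ∧ lev i' = 12 ∧
      ∀ x ∈ G i, 1 ≤ P.big i' ^ K * criterion one (P.H i' 0) x := by
  have r2 := hS.reach_jac hC hs hμ
  have r8 := hS.step_sx hC hs hμ 0 (by norm_num) (hS.step_sx hC hs hμ 1 (by norm_num)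
    (hS.step_sx hC hs hμ 2 (by norm_num) (hS.step_sx hC hs hμ 3 (by norm_num)
      (hS.step_sx hC hs hμ 4 (by norm_num) (hS.step_sx hC hs hμ 5 (by norm_num) r2)))))
  have r8' : Reach P G lev N next 8 fun e i x => CBig P e i x ∨ Big P (mainMult one) e i x := by
    refine r8.imp fun e => ?_
    obtain ⟨e', he'⟩ := hS.endgame hs.sP hs.sR hm hlink e
    exact ⟨e', fun i _ x hx h => he' i x hx h.1 h.2⟩
  have r9 : Reach P G lev N next (9 + 0) (After P 0) := by
    refine hC.step r8' (by norm_num) fun e => ?_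
    obtain ⟨dl, sel, hlow⟩ := hDc e
    obtain ⟨C, hC'⟩ := hC.keep_c hS hs.sP hs.sR e
    obtain ⟨Cm, hCm⟩ := hC.keep hS hs.sMult hn hm e
    obtain ⟨K, hK⟩ := (hS.mono
      (G' := fun i => {x ∈ G i | lev i = 8 ∧ CBig P e i x}) fun i x hx => hx.1).stage_Dc
      hs.sdck sel (d := dl) (fun j x hx hsm hq k hk => hlow j hx.2.1 x hx.1 hsm hx.2.2 hq k hk)
    refine ⟨K + C + Cm, K + e + 1, fun i hi hsm => ?_⟩
    obtain ⟨τ, hτ, h⟩ := hC.avoid (by omega) (hK i (hsm.mono (by omega)))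
    refine ⟨τ, hτ, fun x hx hx0 => ?_⟩
    rcases hx0 with hc | hmm
    · obtain ⟨l, hl⟩ := h x ⟨hx, hi, hc⟩
      refine Or.inr ⟨(hC' i τ (by omega) hτ (hsm.mono (by omega)) x hx hc).mono (by omega),
        l, Nat.zero_le _, by omega, ?_⟩
      fin_cases l <;> exact hl.mono (by omega)
    · exact Or.inl (Or.inl ((hCm i τ (by omega) hτ (hsm.mono (by omega)) x hx hmm).mono (by omega)))
  obtain ⟨K, d', hK⟩ := hS.step_det hC hs hμ hn hm 2 le_rfl
    (hS.step_det hC hs hμ hn hm 1 (by norm_num) (hS.step_det hC hs hμ hn hm 0 (by norm_num) r9))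
  obtain ⟨a, ha⟩ := Pert.base_bound hS.top.k1_ex.choose_spec.choose_spec.base
  obtain ⟨L, hL⟩ := hS.thick
  refine ⟨max K (2 * (d' + a)), fun i hi hN => ?_⟩
  obtain ⟨i', h1, h2, -, hG, h5⟩ := hK i hi ((le_max_left _ _).trans hN)
  refine ⟨i', h1, h2, fun x hx => ?_⟩
  have hB := P.toScale.one_le i'
  have key : ∀ z : ℝ, 1 ≤ P.big i' ^ (d' + a) * |z| → z ^ 2 ≤ criterion one (P.H i' 0) x →
      1 ≤ P.big i' ^ max K (2 * (d' + a)) * criterion one (P.H i' 0) x := fun z hz hle => by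
    have h := one_le_pow₀ hz (n := 2)
    rw [mul_pow, sq_abs, ← pow_mul] at h
    exact h.trans (mul_le_mul (pow_le_pow_right₀ hB (by omega)) hle (sq_nonneg z) (by positivity))
  rcases h5 x hx with hdone | ⟨-, j, hj, hj2, -⟩
  · rcases hdone with hmm | ⟨j, k, hj, hk3, hk5, hk⟩
    · refine key _ (hmm.mono (Nat.le_add_right d' a)) (le_add_of_nonneg_right ?_)
      exact Finset.sum_nonneg fun k _ => Finset.sum_nonneg fun j _ => sq_nonneg _
    · refine key (detChain one (P.H i' 0) j k x) ?_ ?_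
      · rw [Big, kdet, abs_mul] at hk
        refine hk.trans ?_
        rw [pow_add, mul_assoc]
        exact mul_le_mul_of_nonneg_left (mul_le_mul_of_nonneg_right
          (ha i' x (hL.sub _ (hG hx))) (abs_nonneg _)) (by positivity)
      · refine le_trans ?_ (le_add_of_nonneg_left (sq_nonneg _))
        exact le_trans (Finset.single_le_sum (f := fun j => detChain one (P.H i' 0) j k x ^ 2)
          (fun _ _ => sq_nonneg _) (Finset.mem_range.2 (by omega : j < k)))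
          (Finset.single_le_sum (f := fun k => ∑ j ∈ Finset.range k,
            detChain one (P.H i' 0) j k x ^ 2) (fun _ _ => Finset.sum_nonneg fun _ _ => sq_nonneg _)
            (Finset.mem_range.2 (by omega : k < 6)))
  · omega

end Setting

end

end Vale.Agent.P205.Generic
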