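import Vale.Agent.P205.Generic.Formula

/-!
`δ₄`: the determinant of the rows of `c·U, ∂ξ(c·U), ∂η(c·U), Box(c·U)` in `(U, U_η)`.

The rows have the shape `(c, 0)`, `(X, cM)`, `(Y, c)`, `(Z, W)`, where `M = [[0, -1], [-a, -b]]`,
`X = c_ξ + cN`, `Y = c_η` and `W = 2 c_ξ M + b (c_ξ + c_η M) - 2 a c_η + O(c)`.
We give the exact expansion, which is quadratic in `c`, and identify the Hessian on `c = 0`.
-/

namespace Vale.Agent.P205.Generic

variable {A : Type*} [CommRing A]

/-- Two by two determinant of row vectors. -/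
def det22 (u v : A × A) : A := u.1 * v.2 - u.2 * v.1

/-- `u ↦ u M` for `M = [[0, -1], [-a, -b]]`. -/
def mulM (a b : A) (u : A × A) : A × A := (-a * u.2, -u.1 - b * u.2)

/-- The value at a point of the `U_η` part of `Box (c·U)` when `c = 0` there. -/
def boxTop (a b : A) (cx cy : A × A) : A × A :=
  (2 * (mulM a b cx).1 + b * (cx.1 + (mulM a b cy).1) - 2 * a * cy.1,
   2 * (mulM a b cx).2 + b * (cx.2 + (mulM a b cy).2) - 2 * a * cy.2)

/-- The expansion of `δ₄` from the rows. -/
def delta4Rows (a b : A) (c X Y Z W : A × A) : A :=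
  det22 c X * det22 c W - det22 c Y * det22 (mulM a b c) W + det22 c Z * det22 (mulM a b c) c

theorem det_rows_eq (a b : A) (c X Y Z W : A × A) :
    Matrix.det !![c.1, c.2, 0, 0; X.1, X.2, (mulM a b c).1, (mulM a b c).2;
      Y.1, Y.2, c.1, c.2; Z.1, Z.2, W.1, W.2] = delta4Rows a b c X Y Z W := by
  simp [Matrix.det_succ_row_zero, Fin.sum_univ_succ, Fin.succAbove, delta4Rows, det22, mulM]
  ring

/-- The symmetrised quadratic part: the second derivative along directions with first derivatives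
`u`, `v` of `c` at a zero of `c`. -/
def delta4Hess (a b : A) (cx cy u v : A × A) : A :=
  det22 u cx * det22 v (boxTop a b cx cy) + det22 v cx * det22 u (boxTop a b cx cy)
    - (det22 u cy * det22 (mulM a b v) (boxTop a b cx cy)
      + det22 v cy * det22 (mulM a b u) (boxTop a b cx cy))

theorem delta4Hess_xx (a b px py rx ry : A) :
    delta4Hess a b (px, rx) (py, ry) (px, rx) (px, rx) =
      D1 px py rx ry * K11 a b px py rx ry := by
  simp only [delta4Hess, det22, mulM, boxTop, D1, K11]; ring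

theorem delta4Hess_xy (a b px py rx ry : A) :
    delta4Hess a b (px, rx) (py, ry) (px, rx) (py, ry) =
      D1 px py rx ry * K12 a b px py rx ry := by
  simp only [delta4Hess, det22, mulM, boxTop, D1, K12]; ring

theorem delta4Hess_yy (a b px py rx ry : A) :
    delta4Hess a b (px, rx) (py, ry) (py, ry) (py, ry) =
      D1 px py rx ry * K22 a b px py rx ry := by
  simp only [delta4Hess, det22, mulM, boxTop, D1, K22]; ring

section Calculus

variable {E : Type*} [NormedAddCommGroup E] [NormedSpace ℝ E]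

/-- Second derivative of `f * g * h` at a common zero of `f` and `g`. -/
theorem second_deriv_mul_mul {f g h : E → ℝ} (hf : ContDiff ℝ 2 f) (hg : ContDiff ℝ 2 g)
    (hh : ContDiff ℝ 2 h) {p : E} (f0 : f p = 0) (g0 : g p = 0) (u v : E) :
    fderiv ℝ (fun x => fderiv ℝ (fun y => f y * g y * h y) x u) p v =
      (fderiv ℝ f p u * fderiv ℝ g p v + fderiv ℝ f p v * fderiv ℝ g p u) * h p := by
  have d1 : ∀ (φ : E → ℝ), ContDiff ℝ 2 φ → Differentiable ℝ φ := fun φ hφ =>
    hφ.differentiable (by norm_num)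
  have d2 : ∀ (φ : E → ℝ), ContDiff ℝ 2 φ → Differentiable ℝ fun x => fderiv ℝ φ x u := fun φ hφ =>
    ((hφ.fderiv_right (m := 1) (by norm_num)).clm_apply contDiff_const).differentiable (by norm_num)
  have e : (fun x => fderiv ℝ (fun y => f y * g y * h y) x u) = fun x =>
      fderiv ℝ f x u * g x * h x + f x * fderiv ℝ g x u * h x + f x * g x * fderiv ℝ h x u := by
    funext x
    rw [fderiv_fun_mul ((d1 f hf x).fun_mul (d1 g hg x)) (d1 h hh x),
      fderiv_fun_mul (d1 f hf x) (d1 g hg x)]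
    simp only [add_apply, smul_apply, smul_eq_mul]
    ring
  rw [e, fderiv_fun_add (((d2 f hf p).fun_mul (d1 g hg p)).fun_mul (d1 h hh p) |>.fun_add
      (((d1 f hf p).fun_mul (d2 g hg p)).fun_mul (d1 h hh p)))
      (((d1 f hf p).fun_mul (d1 g hg p)).fun_mul (d2 h hh p)),
    fderiv_fun_add (((d2 f hf p).fun_mul (d1 g hg p)).fun_mul (d1 h hh p))
      (((d1 f hf p).fun_mul (d2 g hg p)).fun_mul (d1 h hh p)),
    fderiv_fun_mul ((d2 f hf p).fun_mul (d1 g hg p)) (d1 h hh p),
    fderiv_fun_mul ((d1 f hf p).fun_mul (d2 g hg p)) (d1 h hh p),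
    fderiv_fun_mul ((d1 f hf p).fun_mul (d1 g hg p)) (d2 h hh p),
    fderiv_fun_mul (d2 f hf p) (d1 g hg p), fderiv_fun_mul (d1 f hf p) (d2 g hg p),
    fderiv_fun_mul (d1 f hf p) (d1 g hg p)]
  simp only [add_apply, smul_apply, smul_eq_mul, f0, g0]
  ring

/-- Derivative of `-R A₁₁ + 2 P A₁₂ + (b P - a R) A₂₂` at a common zero of `P` and `R`. -/
theorem fderiv_closure {P R a b A11 A12 A22 : E → ℝ} {p : E} (hP : DifferentiableAt ℝ P p)
    (hR : DifferentiableAt ℝ R p) (ha : DifferentiableAt ℝ a p) (hb : DifferentiableAt ℝ b p)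
    (h11 : DifferentiableAt ℝ A11 p) (h12 : DifferentiableAt ℝ A12 p)
    (h22 : DifferentiableAt ℝ A22 p) (P0 : P p = 0) (R0 : R p = 0) (u : E) :
    fderiv ℝ (fun x => -R x * A11 x + 2 * P x * A12 x + (b x * P x - a x * R x) * A22 x) p u =
      -fderiv ℝ R p u * A11 p + 2 * fderiv ℝ P p u * A12 p
        + (b p * fderiv ℝ P p u - a p * fderiv ℝ R p u) * A22 p := by
  rw [fderiv_fun_add ((hR.fun_neg.fun_mul h11).fun_add ((hP.const_mul 2).fun_mul h12))
      (((hb.fun_mul hP).fun_sub (ha.fun_mul hR)).fun_mul h22),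
    fderiv_fun_add (hR.fun_neg.fun_mul h11) ((hP.const_mul 2).fun_mul h12),
    fderiv_fun_mul hR.fun_neg h11, fderiv_fun_mul (hP.const_mul 2) h12,
    fderiv_fun_mul ((hb.fun_mul hP).fun_sub (ha.fun_mul hR)) h22,
    fderiv_fun_sub (hb.fun_mul hP) (ha.fun_mul hR), fderiv_fun_mul hb hP, fderiv_fun_mul ha hR,
    fderiv_fun_neg, fderiv_const_mul hP]
  simp only [add_apply, sub_apply, neg_apply, smul_apply, smul_eq_mul, P0, R0]
  ring

end Calculus

section Closure

variable {A : Type*} [CommRing A]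

theorem closure_h0 (a b px py rx ry : A) :
    -rx * (D1 px py rx ry * K11 a b px py rx ry) + 2 * px * (D1 px py rx ry * K12 a b px py rx ry)
      + (b * px - a * rx) * (D1 px py rx ry * K22 a b px py rx ry) =
        D1 px py rx ry * h0 a b px py rx ry := by
  simp only [h0]; ring

theorem closure_h1 (a b px py rx ry : A) :
    -ry * (D1 px py rx ry * K11 a b px py rx ry) + 2 * py * (D1 px py rx ry * K12 a b px py rx ry)
      + (b * py - a * ry) * (D1 px py rx ry * K22 a b px py rx ry) =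
        D1 px py rx ry * h1 a b px py rx ry := by
  simp only [h1]; ring

end Closure

/-- `det [II₀, dφ ∘ e₁, dφ ∘ e₂] = q (dφ) / 2`. -/
theorem det_II0_rows (a b z0 z1 : ℝ) :
    Matrix.det !![-a, -b / 2, 1; z0, z1 / 2, 0; 0, z0 / 2, z1] = qform a b z0 z1 / 2 := by
  simp only [Matrix.det_fin_three, qform, Matrix.of_apply, Matrix.cons_val, Matrix.cons_val',
    Matrix.cons_val_zero, Matrix.cons_val_one, Matrix.cons_val_fin_one]
  ring

end Vale.Agent.P205.Generic
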