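import Vale.Agent.P205.Generic.Reach

/-!
Where `(P, R)` is large and `μ iW` too, one of the top coefficients of the chain determinants is
large: the first if `R` is large, otherwise the second.
-/

namespace Vale.Agent.P205.Generic

open scoped ContDiff
open Set Metric Vale.Agent.P205.Algebra

noncomputable section

variable {ι : Type*} {p : ℕ} {P : Pert ι p} {G : ι → Set R2}
variable {ζ μ A20 A11 B20 B11 : Dir ι p → R2 → ℝ}

/-- Bounds of a functional at all parameters. -/
lemma Pert.bound {Φ : (R2 → V4) → R2 → ℝ} (h : BaseBd P.vscale (base0 (lf P.var Φ))) :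
    ∃ C : ℕ, ∀ j : Dir ι p, ∀ x ∈ P.dom j.1, |Φ (slice P.var j 0) x| ≤ P.big j.1 ^ C := by
  obtain ⟨C, hC⟩ := h.norm_le
  exact ⟨C, fun j x hx => by
    simpa [Pert.base0_var, Pert.slice_var, Pert.vscale] using hC j x hx⟩

/-- `k1 = -|c|²`. -/
lemma one_le_k1 {F : R2 → V4} {x : R2} {b : ℝ} (hb : 0 ≤ b)
    (h : 1 ≤ b * |cP one F x| ∨ 1 ≤ b * |cR one F x|) : 1 ≤ b ^ 2 * |k1 one F x| := by
  rw [k1_eq, abs_neg, abs_of_nonneg (by positivity)]
  rcases h with h | h
  · have := one_le_pow₀ h (n := 2)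
    rw [mul_pow, sq_abs] at this
    nlinarith [sq_nonneg (cR one F x), sq_nonneg b]
  · have := one_le_pow₀ h (n := 2)
    rw [mul_pow, sq_abs] at this
    nlinarith [sq_nonneg (cP one F x), sq_nonneg b]

/-- The coefficients of the determinants. -/
theorem Setting.det_low (hS : Setting P G ζ μ A20 A11 B20 B11) (hP : P.Smooth (cP one))
    (hR : P.Smooth (cR one)) {d : ℕ} (hμ : MuLow P μ G d) :
    ∃ (d' : ℕ) (sel : ι → R2 → Bool), d ≤ d' ∧ ∀ j : Dir ι p, ∀ x ∈ G j.1, P.Small d' j.1 →
      CBig P d j.1 x → ∀ k, 3 ≤ k → k ≤ 5 → 1 ≤ P.big j.1 ^ d' *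
        |if sel j.1 x then topC k (b20 P.var μ j x) (slice P.var j 0) x
          else crossC k (b20 P.var μ j x) (b11 P.var μ A20 B20 j x) (slice P.var j 0) x| := by
  obtain ⟨a, ha⟩ := Pert.bound hS.top.k1_ex.choose_spec.choose_spec.base
  obtain ⟨b, hb⟩ := Pert.bound hS.top.k2_ex.choose_spec.choose_spec.base
  obtain ⟨c, hc⟩ := Pert.bound
    (Φ := fun F x => det2 (perp one F x) (mulM one F (cc one F) x))
    (hS.top.perp_ex.det (hS.top.mulM_ex hS.top.cc_ex)).choose_spec.choose_spec.base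
  obtain ⟨cp, hcp⟩ := Pert.bound hS.top.exp_cP.base
  obtain ⟨cr, hcr⟩ := Pert.bound hS.top.exp_cR.base
  obtain ⟨m0, hm0⟩ := hS.top.exp_cP.top.norm_le
  obtain ⟨aA, haA⟩ := hS.top.exp_ca.top.norm_le
  obtain ⟨bB, hbB⟩ := hS.top.exp_cb.top.norm_le
  obtain ⟨Cp, hCp⟩ := Pert.drift_lower hP hS.top.zeta hS.top.exp_cP
  obtain ⟨Cr, hCr⟩ := Pert.drift_lower hR hS.top.zeta hS.top.exp_cR
  obtain ⟨Dr, hDr⟩ := Pert.drift hR hS.top.zeta hS.top.exp_cR
  obtain ⟨L, hL⟩ := hS.thick
  set E := a + b + c + cp + cr + m0 + aA + bB + 6 * d + 20 with hE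
  clear_value E
  classical
  refine ⟨Cp + Cr + Dr + 30 * E, fun i x => decide (1 ≤ P.big i ^ E * |cR one (P.H i 0) x|),
    by omega, fun j x hx hsm hcb k hk3 hk5 => ?_⟩
  have hxd := hL.sub _ hx
  have hB : 1 ≤ P.big j.1 := P.toScale.one_le j.1
  have h2 : 2 ≤ P.big j.1 := P.two_le j.1
  have hτ : ‖(j.2.1 : Fin p → ℝ)‖ ≤ 3 := mem_closedBall_zero_iff.mp j.2.1.2
  have hm := hμ j x hx
  have hsl : slice P.var j 0 = P.H j.1 j.2.1 := Pert.slice_var j
  have ba := ha j x hxd
  have bb := hb j x hxd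
  have bc := hc j x hxd
  rw [hsl] at ba bb bc ⊢
  set F := P.H j.1 j.2.1
  set B := P.big j.1
  have pow : ∀ {m m' : ℕ}, m ≤ m' → B ^ m ≤ B ^ m' := fun h => pow_le_pow_right₀ hB h
  have hk1 : 1 ≤ B ^ (2 * (d + 1)) * |k1 one F x| := by
    rw [mul_comm 2, pow_mul]
    refine one_le_k1 (by positivity) ((cBig_iff.1 hcb).imp (fun h => ?_) (fun h => ?_))
    · exact hCp d j.1 ((hsm.mono (by omega)).drift (by norm_num)) x hxd h _ hτ
    · exact hCr d j.1 ((hsm.mono (by omega)).drift (by norm_num)) x hxd h _ hτ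
  have hpk : ∀ m : ℕ, 1 ≤ B ^ (2 * (d + 1) * m) * |k1 one F x| ^ m := fun m => by
    rw [pow_mul, ← mul_pow]; exact one_le_pow₀ hk1
  have big : ∀ {e : ℕ} {z : ℝ}, e ≤ Cp + Cr + Dr + 30 * E → 1 ≤ B ^ e * z → 0 ≤ z →
      1 ≤ B ^ (Cp + Cr + Dr + 30 * E) * z := fun he hz h0 =>
    hz.trans (mul_le_mul_of_nonneg_right (pow he) h0)
  by_cases hsel : 1 ≤ B ^ E * |cR one (P.H j.1 0) x|
  · rw [if_pos (by simpa using hsel)]
    have hR1 := hCr E j.1 ((hsm.mono (by omega)).drift (by norm_num)) x hxd hsel _ hτ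
    refine big (e := 2 * (d + 1) * (2 * k + 1) + d + (E + 1))
      (by have := Nat.mul_le_mul_left (2 * (d + 1)) (show 2 * k + 1 ≤ 11 by omega); omega) ?_
      (abs_nonneg _)
    simp only [topC, b20, hsl, abs_mul, abs_neg, abs_pow]
    have h := one_le_mul_of_one_le_of_one_le (one_le_mul_of_one_le_of_one_le
      (hpk (2 * k + 1)) hm) hR1
    rw [abs_mul] at h
    refine h.trans_eq ?_
    rw [pow_succ |k1 one F x| (2 * k), pow_add _ (2 * (d + 1) * (2 * k + 1) + d), pow_add _ _ d]
    ring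
  · rw [if_neg (by simpa using hsel)]
    have hRs : |cR one F x| * B ^ (E - 2) ≤ 1 := by
      have h1 := hDr j.1 x hxd _ hτ
      have h3 := (hsm.mono (show Dr + E ≤ _ by omega)).drift (n := 0) (by norm_num)
      have h4 : |cR one F x| ≤ |cR one (P.H j.1 0) x| + B ^ Dr * (P.amp j.1 * P.freq j.1 ^ (0 + 2)) := by
        linarith [abs_sub_abs_le_abs_sub (cR one F x) (cR one (P.H j.1 0) x)]
      have h5 : B ^ E * |cR one F x| ≤ 2 := by
        have h6 := mul_le_mul_of_nonneg_left h4 (by positivity : (0 : ℝ) ≤ B ^ E)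
        rw [mul_add, ← mul_assoc, ← pow_add] at h6
        rw [show E + Dr = Dr + E by omega] at h6
        norm_num at h6 h3 ⊢
        linarith [not_le.1 hsel]
      rw [show E = E - 2 + 2 by omega, pow_add] at h5
      have h7 := mul_le_mul_of_nonneg_left (mul_le_mul h2 hB zero_le_one (by linarith))
        (by positivity : (0 : ℝ) ≤ B ^ (E - 2) * |cR one F x|)
      nlinarith
    have hPbig : 1 ≤ B ^ (d + 1) * |cP one F x| := by
      rcases cBig_iff.1 hcb with h | h
      · exact hCp d j.1 ((hsm.mono (by omega)).drift (by norm_num)) x hxd h _ hτ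
      · exact absurd (h.trans (mul_le_mul_of_nonneg_right (pow (by omega : d ≤ E)) (abs_nonneg _)))
          hsel
    have bp := hcp j x hxd
    have br := hcr j x hxd
    have bm : |μ j x * iW one (slice P.var j 0) x| ≤ B ^ m0 := by
      simpa [Pert.vscale] using hm0 j x hxd
    have bA : |A20 j x| ≤ B ^ aA := by simpa [Pert.vscale] using haA j x hxd
    have bB' : |B20 j x| ≤ B ^ bB := by simpa [Pert.vscale] using hbB j x hxd
    rw [hsl] at bp br bm
    set u := det2 (perp one F x) (mulM one F (cc one F) x) + (k : ℝ) * k2 one F x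
    set z := cR one F x * A20 j x - cP one F x * B20 j x
    set w := μ j x * iW one F x * u + k1 one F x * z
    have hw : |w| ≤ B ^ (a + b + c + cp + cr + m0 + aA + bB + 6) := by
      set T := a + b + c + cp + cr + m0 + aA + bB
      have b0 : ∀ {z : ℝ} {e : ℕ}, e ≤ T → |z| ≤ B ^ e → |z| ≤ B ^ T := fun he hz =>
        hz.trans (pow he)
      have hk' : (k : ℝ) ≤ 5 := by exact_mod_cast hk5
      have hu : |u| ≤ 6 * B ^ (b + c) := by
        refine (abs_add_le _ _).trans ?_
        rw [abs_mul, Nat.abs_cast]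
        have e1 : |det2 (perp one F x) (mulM one F (cc one F) x)| ≤ B ^ (b + c) :=
          bc.trans (pow (by omega))
        have e3 : (k : ℝ) * |k2 one F x| ≤ 5 * B ^ (b + c) :=
          mul_le_mul hk' (bb.trans (pow (by omega))) (abs_nonneg _) (by norm_num)
        linarith
      have hz : |z| ≤ 2 * B ^ (cp + cr + aA + bB) := by
        refine (abs_sub _ _).trans ?_
        rw [abs_mul, abs_mul, two_mul]
        refine add_le_add ?_ ?_
        · exact (mul_le_mul br bA (abs_nonneg _) (by positivity)).trans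
            ((pow_add _ _ _).symm.trans_le (pow (by omega)))
        · exact (mul_le_mul bp bB' (abs_nonneg _) (by positivity)).trans
            ((pow_add _ _ _).symm.trans_le (pow (by omega)))
      have h1 : |μ j x * iW one F x * u| ≤ 6 * B ^ T := by
        rw [abs_mul]
        refine (mul_le_mul bm hu (abs_nonneg _) (by positivity)).trans ?_
        rw [mul_left_comm, ← pow_add]
        exact mul_le_mul_of_nonneg_left (pow (by omega)) (by norm_num)
      have h3 : |k1 one F x * z| ≤ 2 * B ^ T := by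
        rw [abs_mul]
        refine (mul_le_mul ba hz (abs_nonneg _) (by positivity)).trans ?_
        rw [mul_left_comm, ← pow_add]
        exact mul_le_mul_of_nonneg_left (pow (by omega)) (by norm_num)
      have h4 : (8 : ℝ) ≤ B ^ 6 :=
        le_trans (by norm_num) (pow_le_pow_left₀ (by norm_num) h2 6)
      refine (abs_add_le _ _).trans ?_
      rw [pow_add _ T 6]
      nlinarith [mul_le_mul_of_nonneg_left h4 (by positivity : (0 : ℝ) ≤ B ^ T)]
    have hform : crossC k (b20 P.var μ j x) (b11 P.var μ A20 B20 j x) F x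
        = k1 one F x ^ (2 * k) *
          (2 * (μ j x * iW one F x) * (k1 one F x * cP one F x) + cR one F x * w) := by
      obtain ⟨m, rfl⟩ : ∃ m, k = m + 1 := ⟨k - 1, by omega⟩
      simp only [crossC, b20, b11, hsl, show 2 * (m + 1) - 1 = 2 * m + 1 by omega, w, z, u]
      push_cast
      ring
    have hmain : 1 ≤ B ^ (4 * (d + 1)) *
        |2 * (μ j x * iW one F x) * (k1 one F x * cP one F x) + cR one F x * w| := by
      have h1 : 1 ≤ B ^ (4 * (d + 1)) * (|μ j x * iW one F x| * (|k1 one F x| * |cP one F x|)) := by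
        refine (one_le_mul_of_one_le_of_one_le hm
          (one_le_mul_of_one_le_of_one_le hk1 hPbig)).trans ?_
        rw [show B ^ d * |μ j x * iW one F x| * (B ^ (2 * (d + 1)) * |k1 one F x| *
          (B ^ (d + 1) * |cP one F x|)) = B ^ (d + 2 * (d + 1) + (d + 1)) *
          (|μ j x * iW one F x| * (|k1 one F x| * |cP one F x|)) by rw [pow_add, pow_add]; ring]
        exact mul_le_mul_of_nonneg_right (pow (by omega)) (by positivity)
      have h3 : B ^ (4 * (d + 1)) * |cR one F x * w| ≤ 1 := by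
        rw [abs_mul]
        calc B ^ (4 * (d + 1)) * (|cR one F x| * |w|)
            ≤ B ^ (4 * (d + 1)) * (|cR one F x| * B ^ (a + b + c + cp + cr + m0 + aA + bB + 6)) := by
              gcongr
          _ = |cR one F x| * B ^ (4 * (d + 1) + (a + b + c + cp + cr + m0 + aA + bB + 6)) := by
              rw [pow_add _ (4 * (d + 1))]; ring
          _ ≤ |cR one F x| * B ^ (E - 2) :=
              mul_le_mul_of_nonneg_left (pow (by omega)) (abs_nonneg _)
          _ ≤ 1 := hRs
      have h4 := mul_le_mul_of_nonneg_left (abs_sub_abs_le_abs_sub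
        (2 * (μ j x * iW one F x) * (k1 one F x * cP one F x))
        (-(cR one F x * w))) (by positivity : (0 : ℝ) ≤ B ^ (4 * (d + 1)))
      rw [abs_neg, sub_neg_eq_add, abs_mul (2 * _), abs_mul (2 : ℝ),
        abs_mul (k1 one F x) (cP one F x), abs_two] at h4
      linarith
    refine big (e := 2 * (d + 1) * (2 * k) + 4 * (d + 1))
      (by have := Nat.mul_le_mul_left (2 * (d + 1)) (show 2 * k ≤ 10 by omega); omega) ?_
      (abs_nonneg _)
    rw [hform, abs_mul, abs_pow]
    refine (one_le_mul_of_one_le_of_one_le (hpk (2 * k)) hmain).trans_eq ?_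
    rw [pow_add]
    ring

end

end Vale.Agent.P205.Generic
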