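import Vale.Agent.P205.Generic.Spread

/-!
Avoidance when, along chosen directions, the diagonal of the partial derivatives dominates: no
comparison with a fixed linear map is needed.
-/

namespace Vale.Agent.P205.Generic

open Set Metric

variable {p n : ℕ}

/-- A map whose derivative has a dominant diagonal spreads points. -/
lemma dist_le_of_dominant {f : (Fin n → ℝ) → (Fin n → ℝ)}
    {f' : (Fin n → ℝ) → (Fin n → ℝ) →L[ℝ] (Fin n → ℝ)} {δ ε : ℝ} (hδ : 0 < δ) (hε : 0 ≤ ε)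
    (hεδ : 2 * (n * ε) ≤ δ) {s s' : Fin n → ℝ}
    (hd : ∀ t ∈ segment ℝ s s', HasFDerivAt f (f' t) t)
    (hdiag : ∀ t ∈ segment ℝ s s', ∀ i, δ ≤ |f' t (Pi.single i 1) i|)
    (hoff : ∀ t ∈ segment ℝ s s', ∀ i j, i ≠ j → |f' t (Pi.single j 1) i| ≤ ε) :
    ‖s - s'‖ ≤ 2 * δ⁻¹ * ‖f s - f s'‖ := by
  set h := s' - s with hh
  rcases isEmpty_or_nonempty (Fin n) with he | hne
  · rw [Subsingleton.elim (s - s') 0, norm_zero]; positivity
  obtain ⟨i, -, hi⟩ := Finset.exists_max_image Finset.univ (fun i => |h i|)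
    Finset.univ_nonempty
  have hnorm : ‖h‖ ≤ |h i| := (pi_norm_le_iff_of_nonneg (abs_nonneg _)).mpr fun j => by
    simpa [Real.norm_eq_abs] using hi j (Finset.mem_univ j)
  have hseg : ∀ t ∈ Icc (0 : ℝ) 1, s + t • h ∈ segment ℝ s s' := fun t ht => by
    rw [segment_eq_image']
    exact ⟨t, ht, rfl⟩
  have hg : ∀ t ∈ Icc (0 : ℝ) 1,
      HasDerivAt (fun t => f (s + t • h) i) (f' (s + t • h) h i) t := fun t ht =>
    ((ContinuousLinearMap.proj (R := ℝ) (φ := fun _ : Fin n => ℝ) i).hasFDerivAt.comp_hasDerivAt t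
      ((hd _ (hseg t ht)).comp_hasDerivAt t
        (((hasDerivAt_id t).smul_const h).const_add s))).congr_deriv (by simp)
  obtain ⟨c, hc, hslope⟩ := exists_hasDerivAt_eq_slope (fun t => f (s + t • h) i)
    (fun t => f' (s + t • h) h i) zero_lt_one
    (fun t ht => (hg t ht).continuousAt.continuousWithinAt)
    fun t ht => hg t (Ioo_subset_Icc_self ht)
  have hc' := hseg c (Ioo_subset_Icc_self hc)
  have e : f' (s + c • h) h i = ∑ j, h j * f' (s + c • h) (Pi.single j 1) i := by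
    generalize f' (s + c • h) = T
    conv_lhs => rw [show h = ∑ j, h j • (Pi.single j (1 : ℝ) : Fin n → ℝ) from by
      funext k; simp [Finset.sum_apply, Pi.single_apply]]
    simp [map_sum, Finset.sum_apply]
  have hrest : |∑ j ∈ Finset.univ.erase i, h j * f' (s + c • h) (Pi.single j 1) i|
      ≤ n * ε * |h i| := by
    refine (Finset.abs_sum_le_sum_abs _ _).trans ?_
    calc ∑ j ∈ Finset.univ.erase i, |h j * f' (s + c • h) (Pi.single j 1) i|
        ≤ ∑ _j ∈ Finset.univ.erase i, |h i| * ε := Finset.sum_le_sum fun j hj => by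
          rw [abs_mul]
          exact mul_le_mul (hi j (Finset.mem_univ j))
            (hoff _ hc' i j (Finset.ne_of_mem_erase hj).symm) (abs_nonneg _) (abs_nonneg _)
      _ ≤ n * ε * |h i| := by
          rw [Finset.sum_const, nsmul_eq_mul]
          have : ((Finset.univ.erase i).card : ℝ) ≤ n := by
            exact_mod_cast (Finset.card_erase_le).trans_eq (Finset.card_fin n)
          nlinarith [mul_le_mul_of_nonneg_right this (mul_nonneg (abs_nonneg (h i)) hε)]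
  rw [← Finset.add_sum_erase _ _ (Finset.mem_univ i)] at e
  have hmain : δ / 2 * ‖h‖ ≤ ‖f s - f s'‖ := by
    have h1 : δ * |h i| ≤ |h i * f' (s + c • h) (Pi.single i 1) i| := by
      rw [abs_mul, mul_comm δ]
      exact mul_le_mul_of_nonneg_left (hdiag _ hc' i) (abs_nonneg _)
    have h2 : |f' (s + c • h) h i| ≤ ‖f s - f s'‖ := by
      rw [hslope]
      have := norm_le_pi_norm (f s - f s') i
      simp only [Pi.sub_apply, Real.norm_eq_abs] at this
      simpa [hh, abs_sub_comm] using this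
    have h3 := abs_sub_abs_le_abs_sub (h i * f' (s + c • h) (Pi.single i 1) i)
      (-(∑ j ∈ Finset.univ.erase i, h j * f' (s + c • h) (Pi.single j 1) i))
    rw [sub_neg_eq_add, ← e, abs_neg] at h3
    nlinarith [mul_le_mul_of_nonneg_right hεδ (abs_nonneg (h i))]
  rw [norm_sub_rev s s', ← hh]
  have : ‖h‖ = 2 * δ⁻¹ * (δ / 2 * ‖h‖) := by field_simp
  rw [this]
  exact mul_le_mul_of_nonneg_left hmain (by positivity)

/-- Avoidance on a region when along `n` directions at each point the diagonal of the partial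
derivatives dominates. -/
theorem exists_avoid_of_dominant (G : Set (ℝ × ℝ))
    (Φ : ℝ × ℝ → (Fin p → ℝ) → (Fin n → ℝ)) (hΦ : ∀ x ∈ G, Continuous (Φ x))
    (v : ℝ × ℝ → (Fin n → ℝ) →L[ℝ] (Fin p → ℝ))
    (hv : ∀ x ∈ G, ∀ s, ‖s‖ ≤ 1 → ‖v x s‖ ≤ 1)
    (dΦ : ℝ × ℝ → (Fin p → ℝ) → (Fin p → ℝ) →L[ℝ] (Fin n → ℝ))
    (hd : ∀ x ∈ G, ∀ τ, ‖τ‖ ≤ 3 → HasFDerivAt (Φ x) (dΦ x τ) τ)
    {L δ ε Λ η : ℝ} (hδ : 0 < δ) (hε : 0 ≤ ε) (hεδ : 2 * (n * ε) ≤ δ)
    (hdiag : ∀ x ∈ G, ∀ τ, ‖τ‖ ≤ 3 → ∀ i, δ ≤ |dΦ x τ (v x (Pi.single i 1)) i|)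
    (hoff : ∀ x ∈ G, ∀ τ, ‖τ‖ ≤ 3 → ∀ i j, i ≠ j → |dΦ x τ (v x (Pi.single j 1)) i| ≤ ε)
    (hG : ∀ x ∈ G, ‖x‖ ≤ L) (hΛ : 0 < Λ) (hη : 0 < η)
    (hlip : ∀ x ∈ G, ∀ y ∈ G, ∀ τ : Fin p → ℝ, ‖τ‖ ≤ 1 → ‖Φ x τ - Φ y τ‖ ≤ Λ * ‖x - y‖)
    (hsmall : (2 * L * Λ / η + 2) ^ 2 * 2 ^ p * (8 * η / δ) ^ n < 1) :
    ∃ τ : Fin p → ℝ, ‖τ‖ ≤ 1 ∧ ∀ x ∈ G, η ≤ ‖Φ x τ‖ := by
  refine exists_avoid_region G Φ hΦ v hv hG (B := δ⁻¹ * 2) (by positivity) hΛ hη hlip
    (fun x hx τ s s' hτ hs hs' => ?_) ?_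
  · have hmem : ∀ t ∈ segment ℝ s s', ‖τ + v x t‖ ≤ 3 := fun t ht => by
      have ht1 : ‖t‖ ≤ 1 := by
        simpa using (convex_closedBall (0 : Fin n → ℝ) 1).segment_subset
          (by simpa using hs) (by simpa using hs') ht
      exact (norm_add_le _ _).trans (by linarith [hv x hx t ht1])
    have key := dist_le_of_dominant (f := fun t => Φ x (τ + v x t))
      (f' := fun t => (dΦ x (τ + v x t)).comp (v x)) hδ hε hεδ (s := s) (s' := s')
      (fun t ht => (hd x hx _ (hmem t ht)).comp t ((v x).hasFDerivAt.const_add τ))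
      (fun t ht i => hdiag x hx _ (hmem t ht) i)
      (fun t ht i j hij => hoff x hx _ (hmem t ht) i j hij)
    rwa [mul_comm 2 δ⁻¹] at key
  · rwa [show 4 * (δ⁻¹ * 2) * η = 8 * η / δ by ring]

end Vale.Agent.P205.Generic
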