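import Vale.Agent.P205.Generic.Rows

/-!
Along a stage the functionals move by at most the amplitude times a power of the frequency.
-/

namespace Vale.Agent.P205.Generic

open scoped ContDiff
open Set Metric Vale.Agent.P205.Algebra

noncomputable section

variable {ι : Type*} {p : ℕ} {P : Pert ι p} {ζ : Dir ι p → R2 → ℝ} {Φ : (R2 → V4) → R2 → ℝ}

/-- A variation of order `n` in every unit direction bounds the total change. -/
theorem Pert.drift (hs : P.Smooth Φ) {n : ℕ} {c20 c11 : Dir ι p → R2 → ℝ}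
    (hζ : O P.vscale 1 ζ) (h : Exp P.vscale ζ n (lf P.var Φ) c20 c11) :
    ∃ C : ℕ, ∀ i, ∀ x ∈ P.dom i, ∀ τ : Fin p → ℝ, ‖τ‖ ≤ 3 →
      |Φ (P.H i τ) x - Φ (P.H i 0) x| ≤ P.big i ^ C * (P.amp i * P.freq i ^ (n + 2)) := by
  obtain ⟨C, hC⟩ := h.entry
  obtain ⟨D, hD⟩ := h.top.norm_le
  obtain ⟨D', hD'⟩ := h.cross.norm_le
  obtain ⟨a, ha⟩ := (O.zj hζ (n + 1) 0).norm_le
  obtain ⟨b, hb⟩ := (O.zj hζ n 1).norm_le
  obtain ⟨c, hc⟩ := (O.zj hζ n 0).norm_le
  refine ⟨C + D + D' + a + b + c + 4, fun i x hx τ hτ => ?_⟩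
  set W := P.amp i * P.freq i ^ (n + 2) with hW
  set E := C + D + D' + a + b + c with hE
  have hB : 1 ≤ P.big i := P.toScale.one_le i
  have hA := (P.amp_pos i).le
  have hM := P.one_le_freq i
  have hW0 : 0 ≤ W := by positivity
  have w1 : P.amp i * P.freq i ^ (n + 1) ≤ W :=
    mul_le_mul_of_nonneg_left (pow_le_pow_right₀ hM (by omega)) hA
  have w0 : P.amp i * P.freq i ^ n ≤ W :=
    mul_le_mul_of_nonneg_left (pow_le_pow_right₀ hM (by omega)) hA
  have bd : ∀ j : Dir ι p, j.1 = i → |var1 (lf P.var Φ) j x| ≤ P.big i ^ (E + 2) * W := by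
    intro j hj
    subst hj
    have hx' : x ∈ P.vscale.dom j := hx
    have h0 := hC j x hx'
    have up : ∀ c : ℕ, c ≤ E → P.big j.1 ^ c * W ≤ P.big j.1 ^ E * W := fun c hc =>
      mul_le_mul_of_nonneg_right (pow_le_pow_right₀ hB hc) hW0
    have o1 : |zj ζ (n + 1) 0 j x * c20 j x| ≤ P.big j.1 ^ E * W := by
      refine le_trans ?_ (up (a + D) (by omega))
      rw [abs_mul, pow_add, mul_right_comm]
      refine mul_le_mul ?_ (by simpa [Pert.vscale] using hD j x hx') (abs_nonneg _) (by positivity)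
      exact le_trans (by simpa [Pert.vscale] using ha j x hx') le_rfl
    have o2 : |zj ζ n 1 j x * c11 j x| ≤ P.big j.1 ^ E * W := by
      refine le_trans ?_ (up (b + D') (by omega))
      rw [abs_mul, pow_add, mul_right_comm]
      refine mul_le_mul ?_ (by simpa [Pert.vscale] using hD' j x hx') (abs_nonneg _) (by positivity)
      exact le_trans (by simpa [Pert.vscale] using hb j x hx')
        (mul_le_mul_of_nonneg_left w1 (by positivity))
    have o3 : P.big j.1 ^ C * (P.amp j.1 * P.freq j.1 ^ n + |zj ζ n 0 j x|) ≤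
        2 * (P.big j.1 ^ E * W) := by
      have : |zj ζ n 0 j x| ≤ P.big j.1 ^ c * W :=
        le_trans (by simpa [Pert.vscale] using hc j x hx')
          (mul_le_mul_of_nonneg_left w1 (by positivity))
      have h1 := le_trans (mul_le_mul_of_nonneg_left this (by positivity : 0 ≤ P.big j.1 ^ C))
        (le_of_eq (mul_assoc _ _ _).symm)
      rw [← pow_add] at h1
      nlinarith [up C (by omega), up (C + c) (by omega), mul_le_mul_of_nonneg_left w0
        (by positivity : 0 ≤ P.big j.1 ^ C)]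
    simp only [Pert.vscale, Real.norm_eq_abs, smul_eq_mul] at h0
    rw [abs_le] at h0 o1 o2
    rw [abs_le, pow_add]
    have h4 : (4 : ℝ) ≤ P.big j.1 ^ 2 :=
      le_trans (by norm_num) (pow_le_pow_left₀ (by norm_num) (P.two_le j.1) 2)
    have := mul_le_mul_of_nonneg_left h4 (by positivity : 0 ≤ P.big j.1 ^ E * W)
    constructor <;> linarith
  have hmem : ∀ t ∈ Icc (0 : ℝ) 1, ‖t • τ‖ ≤ 3 := fun t ht => by
    rw [norm_smul, Real.norm_eq_abs, abs_of_nonneg ht.1]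
    nlinarith [norm_nonneg τ, ht.2]
  have hw : ‖(3 : ℝ)⁻¹ • τ‖ ≤ 1 := by
    rw [norm_smul, Real.norm_eq_abs, abs_of_pos (by norm_num : (0 : ℝ) < 3⁻¹)]; linarith
  have hg : ∀ t ∈ Icc (0 : ℝ) 1, HasDerivAt (fun t : ℝ => Φ (P.H i (t • τ)) x)
      (fderiv ℝ (fun τ => Φ (P.H i τ) x) (t • τ) τ) t := fun t ht => by
    have hd := (Pert.hasFDerivAt hs i (hmem t ht) hx).differentiableAt.hasFDerivAt
    exact hd.comp_hasDerivAt t
      (by simpa using (hasDerivAt_id t).smul_const τ : HasDerivAt (fun t : ℝ => t • τ) τ t)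
  obtain ⟨t, ht, hslope⟩ := exists_hasDerivAt_eq_slope (fun t : ℝ => Φ (P.H i (t • τ)) x)
    (fun t => fderiv ℝ (fun τ => Φ (P.H i τ) x) (t • τ) τ) zero_lt_one
    (fun t ht => (hg t ht).continuousAt.continuousWithinAt)
    fun t ht => hg t (Ioo_subset_Icc_self ht)
  simp only [one_smul, zero_smul, sub_zero, div_one] at hslope
  have key : fderiv ℝ (fun τ => Φ (P.H i τ) x) (t • τ) τ =
      3 * fderiv ℝ (fun τ => Φ (P.H i τ) x) (t • τ) ((3 : ℝ)⁻¹ • τ) := by
    rw [map_smul, smul_eq_mul]; ring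
  rw [← hslope, key, abs_mul, abs_of_pos (by norm_num : (0 : ℝ) < 3)]
  rw [Pert.fderiv_eq_var1 hs i ⟨t • τ, by simpa using hmem t (Ioo_subset_Icc_self ht)⟩
    ⟨(3 : ℝ)⁻¹ • τ, by simpa using hw⟩ hx]
  have h3 := bd (i, ⟨t • τ, by simpa using hmem t (Ioo_subset_Icc_self ht)⟩,
    ⟨(3 : ℝ)⁻¹ • τ, by simpa using hw⟩) rfl
  show _ ≤ P.big i ^ (E + 4) * W
  rw [show E + 4 = E + 2 + 2 by omega, pow_add _ (E + 2) 2]
  have h4 : (3 : ℝ) ≤ P.big i ^ 2 :=
    le_trans (by norm_num) (pow_le_pow_left₀ (by norm_num) (P.two_le i) 2)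
  nlinarith [mul_le_mul_of_nonneg_left h4 (by positivity : 0 ≤ P.big i ^ (E + 2) * W)]

/-- A lower bound at the unperturbed map survives along the stage. -/
theorem Pert.drift_lower (hs : P.Smooth Φ) {n : ℕ} {c20 c11 : Dir ι p → R2 → ℝ}
    (hζ : O P.vscale 1 ζ) (h : Exp P.vscale ζ n (lf P.var Φ) c20 c11) :
    ∃ C : ℕ, ∀ d : ℕ, ∀ i, P.big i ^ (C + d) * (P.amp i * P.freq i ^ (n + 2)) ≤ 1 →
      ∀ x ∈ P.dom i, 1 ≤ P.big i ^ d * |Φ (P.H i 0) x| → ∀ τ : Fin p → ℝ, ‖τ‖ ≤ 3 →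
      1 ≤ P.big i ^ (d + 1) * |Φ (P.H i τ) x| := by
  obtain ⟨C, hC⟩ := Pert.drift hs hζ h
  refine ⟨C + 1, fun d i hsm x hx h0 τ hτ => ?_⟩
  have hB := P.two_le i
  have h1 := hC i x hx τ hτ
  have h2 := abs_sub_abs_le_abs_sub (Φ (P.H i 0) x) (Φ (P.H i τ) x)
  rw [abs_sub_comm] at h2
  have h3 := mul_le_mul_of_nonneg_left (h2.trans h1) (by positivity : 0 ≤ P.big i ^ d)
  rw [show P.big i ^ (C + 1 + d) = P.big i ^ d * P.big i ^ C * P.big i by ring] at hsm
  rw [pow_succ]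
  have h4 := mul_le_mul_of_nonneg_left h3 (by linarith : (0 : ℝ) ≤ P.big i)
  nlinarith [mul_le_mul_of_nonneg_left h0 (by linarith : (0 : ℝ) ≤ P.big i)]

end

end Vale.Agent.P205.Generic
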