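import Vale.Agent.P205.Generic.ChainExp

/-!
Numerical consequences of the expansions: sup bounds, entries of the matrices of partial
derivatives, and a zero near a point where the jet of a plane map is small and nondegenerate.
-/

namespace Vale.Agent.P205.Generic

open scoped ContDiff
open Set Metric

noncomputable section

variable {ι : Type*} {S : VScale ι} {ζ : ι → ℝ × ℝ → ℝ}
variable {V : Type*} [NormedAddCommGroup V] [NormedSpace ℝ V]

lemma BaseBd.norm_le {g : ι → ℝ × ℝ → V} (hg : BaseBd S g) :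
    ∃ C : ℕ, ∀ i, ∀ p ∈ S.dom i, ‖g i p‖ ≤ S.big i ^ C := by
  obtain ⟨C, hC⟩ := hg.bound 0 0
  exact ⟨C, fun i p hp => by simpa [pd] using hC i p hp⟩

lemma O.norm_le {n : ℕ} {g : ι → ℝ × ℝ → V} (hg : O S n g) :
    ∃ C : ℕ, ∀ i, ∀ p ∈ S.dom i, ‖g i p‖ ≤ S.big i ^ C * (S.amp i * S.freq i ^ n) := by
  obtain ⟨C, hC⟩ := hg.bound 0 0
  exact ⟨C, fun i p hp => by simpa [pd] using hC i p hp⟩

/-- The variation is given by its two top coefficients up to `amp μ ^ n` and `ζ(n,0)`. -/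
theorem Exp.entry {n : ℕ} {G : ι → Ext → V} {c20 c11 : ι → ℝ × ℝ → V}
    (h : Exp S ζ n G c20 c11) : ∃ C : ℕ, ∀ i, ∀ p ∈ S.dom i,
      ‖var1 G i p - (zj ζ (n + 1) 0 i p • c20 i p + zj ζ n 1 i p • c11 i p)‖ ≤
        S.big i ^ C * (S.amp i * S.freq i ^ n + |zj ζ n 0 i p|) := by
  obtain ⟨c10, h10, hO⟩ := h.expand
  obtain ⟨a, ha⟩ := hO.norm_le
  obtain ⟨b, hb⟩ := h10.norm_le
  refine ⟨max a b, fun i p hp => ?_⟩
  have h1 := S.toScale.one_le i
  have e : var1 G i p - (zj ζ (n + 1) 0 i p • c20 i p + zj ζ n 1 i p • c11 i p) =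
      (var1 G i p - (zj ζ (n + 1) 0 i p • c20 i p + zj ζ n 1 i p • c11 i p
        + zj ζ n 0 i p • c10 i p)) + zj ζ n 0 i p • c10 i p := by abel
  rw [e, mul_add]
  refine (norm_add_le _ _).trans (add_le_add ((ha i p hp).trans ?_) ?_)
  · exact mul_le_mul_of_nonneg_right (pow_le_pow_right₀ h1 (le_max_left _ _)) (S.wt_nonneg n i)
  · rw [norm_smul, Real.norm_eq_abs, mul_comm]
    exact mul_le_mul_of_nonneg_right ((hb i p hp).trans
      (pow_le_pow_right₀ h1 (le_max_right _ _))) (abs_nonneg _)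

/-- A plane map with a quantitatively invertible derivative and small value has a zero nearby. -/
theorem exists_zero_near {c : ℝ × ℝ → ℝ × ℝ} {x : ℝ × ℝ} {r B L : ℝ} (hB : 0 < B)
    (hd : ∀ y ∈ closedBall x r, HasFDerivAt c (fderiv ℝ c y) y)
    (hinv : ∀ v, ‖v‖ ≤ B * ‖fderiv ℝ c x v‖)
    (hlip : ∀ y ∈ closedBall x r, ‖fderiv ℝ c y - fderiv ℝ c x‖ ≤ L)
    (hL : 2 * B * L ≤ 1) (hsmall : 2 * B * ‖c x‖ ≤ r) :
    ∃ y, ‖y - x‖ ≤ 2 * B * ‖c x‖ ∧ c y = 0 := by
  set J := fderiv ℝ c x with hJ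
  have hinj : Function.Injective J := (injective_iff_map_eq_zero J).2 fun v hv => by
    simpa [hv] using hinv v
  let e : (ℝ × ℝ) ≃L[ℝ] ℝ × ℝ := ContinuousLinearEquiv.ofBijective J
    (LinearMap.ker_eq_bot.2 hinj)
    (LinearMap.range_eq_top.2 ((LinearMap.injective_iff_surjective_of_finrank_eq_finrank rfl).1 hinj))
  have he : ∀ w, ‖e.symm w‖ ≤ B * ‖w‖ := fun w => by
    have := hinv (e.symm w)
    rwa [show J (e.symm w) = w from e.apply_symm_apply w] at this
  set s := 2 * B * ‖c x‖ with hs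
  have hs0 : 0 ≤ s := by positivity
  -- the simplified Newton map is a contraction of the ball
  let T : ℝ × ℝ → ℝ × ℝ := fun y => y - e.symm (c y)
  have hT : ∀ y ∈ closedBall x s, HasFDerivWithinAt T
      (ContinuousLinearMap.id ℝ _ - (e.symm : ℝ × ℝ →L[ℝ] ℝ × ℝ).comp (fderiv ℝ c y))
      (closedBall x s) y := fun y hy =>
    ((hasFDerivAt_id y).sub ((e.symm : ℝ × ℝ →L[ℝ] ℝ × ℝ).hasFDerivAt.comp y
      (hd y (closedBall_subset_closedBall hsmall hy)))).hasFDerivWithinAt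
  have hT' : ∀ y ∈ closedBall x s,
      ‖ContinuousLinearMap.id ℝ _ - (e.symm : ℝ × ℝ →L[ℝ] ℝ × ℝ).comp (fderiv ℝ c y)‖₊ ≤
        (1 / 2 : NNReal) := fun y hy => by
    rw [← NNReal.coe_le_coe, coe_nnnorm]
    push_cast
    refine ContinuousLinearMap.opNorm_le_bound _ (by norm_num) fun v => ?_
    have h1 : v - e.symm (fderiv ℝ c y v) = e.symm (J v - fderiv ℝ c y v) := by
      rw [map_sub, show J v = e v from rfl, e.symm_apply_apply]
    show ‖v - e.symm (fderiv ℝ c y v)‖ ≤ _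
    rw [h1]
    refine (he _).trans ?_
    have h2 := ((fderiv ℝ c y - J).le_opNorm v).trans (mul_le_mul_of_nonneg_right
      (hlip y (closedBall_subset_closedBall hsmall hy)) (norm_nonneg v))
    rw [norm_sub_rev, ← sub_apply]
    nlinarith [norm_nonneg v, mul_le_mul_of_nonneg_left h2 hB.le]
  have hlipT : LipschitzOnWith (1 / 2 : NNReal) T (closedBall x s) :=
    (convex_closedBall x s).lipschitzOnWith_of_nnnorm_hasFDerivWithin_le hT hT'
  have hmaps : MapsTo T (closedBall x s) (closedBall x s) := fun y hy => by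
    have h1 := hlipT.norm_sub_le hy (mem_closedBall_self hs0)
    have h2 : ‖T x - x‖ ≤ s / 2 := by
      simp only [T, sub_sub_cancel_left, norm_neg]
      refine (he _).trans ?_
      rw [hs]; linarith
    rw [mem_closedBall, dist_eq_norm] at hy ⊢
    have h3 := norm_sub_le_norm_sub_add_norm_sub (T y) (T x) x
    push_cast at h1
    linarith
  have hc : ContractingWith (1 / 2 : NNReal) (hmaps.restrict T (closedBall x s) (closedBall x s)) :=
    ⟨by norm_num [← NNReal.coe_lt_coe], fun a b => hlipT a.2 b.2⟩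
  obtain ⟨y, hy, hfix, -, -⟩ := ContractingWith.exists_fixedPoint' isClosed_closedBall.isComplete
    hmaps hc (mem_closedBall_self hs0) (edist_ne_top _ _)
  rw [mem_closedBall, dist_eq_norm] at hy
  refine ⟨y, hy, ?_⟩
  have : e.symm (c y) = 0 := by
    simpa [T, Function.IsFixedPt] using hfix
  simpa using congrArg e this

end

end Vale.Agent.P205.Generic
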