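import Mathlib

/-!
Explicit polynomials for the closure criterion on the stratum `c = (P, R) = 0`
(normalised second fundamental forms `II₀ = (-a, -b/2, 1)`, `II₁ = (P, R/2, 0)`).

There `δ₄` (the determinant of the rows `c·U, ∂ξ(c·U), ∂η(c·U), Box(c·U)` in `(U, U_η)`) vanishes to
second order, its Hessian is `D1 • (K11, K12, K22)`, the gradient of
`c₁ = -R δ₁₁ + 2 P δ₁₂ + (b P - a R) δ₂₂` is `D1 • (h0, h1)`, and the next multiplier is
`q (grad c₁) = D1² H`.  Here `px py rx ry` are the first derivatives of `P` and `R`.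
-/

namespace Vale.Agent.P205.Generic

section CommRing

variable {A : Type*} [CommRing A]

/-- The quadratic form `q z = z₀² + b z₀ z₁ - a z₁²`. -/
def qform (a b z0 z1 : A) : A := z0 ^ 2 + b * z0 * z1 - a * z1 ^ 2

/-- Jacobian of `(P, R)`. -/
def D1 (px py rx ry : A) : A := px * ry - py * rx

/-- `∂ξξ δ₄ / D1` on `c = 0`. -/
def K11 (a b px py rx ry : A) : A :=
  4 * a * py * px + 2 * a * b * py * rx + 2 * a * b * px * ry - 2 * b ^ 2 * px * rx
    - 2 * b * px ^ 2 - 4 * a ^ 2 * ry * rx + 2 * a * b * rx ^ 2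

/-- `∂ξη δ₄ / D1` on `c = 0`. -/
def K12 (a b px py rx ry : A) : A :=
  2 * a * b * py * ry + 2 * a * py ^ 2 + 2 * b * px * rx + 2 * px ^ 2
    - 2 * a ^ 2 * ry ^ 2 - 2 * a * rx ^ 2

/-- `∂ηη δ₄ / D1` on `c = 0`. -/
def K22 (a b px py rx ry : A) : A :=
  4 * py * px + 2 * b ^ 2 * py * ry + 2 * b * py * rx + 2 * b * py ^ 2 + 2 * b * px * ry
    - 4 * a * ry * rx - 2 * a * b * ry ^ 2

/-- `∂ξ c₁ / D1` on `c = 0`. -/
def h0 (a b px py rx ry : A) : A :=
  -rx * K11 a b px py rx ry + 2 * px * K12 a b px py rx ry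
    + (b * px - a * rx) * K22 a b px py rx ry

/-- `∂η c₁ / D1` on `c = 0`. -/
def h1 (a b px py rx ry : A) : A :=
  -ry * K11 a b px py rx ry + 2 * py * K12 a b px py rx ry
    + (b * py - a * ry) * K22 a b px py rx ry

/-- The sextic. -/
def sextic (a b px py rx ry : A) : A :=
  qform a b (h0 a b px py rx ry) (h1 a b px py rx ry)

theorem qform_smul (a b t z0 z1 : A) : qform a b (t * z0) (t * z1) = t ^ 2 * qform a b z0 z1 := by
  simp only [qform]; ring

theorem qform_gradient_eq (a b px py rx ry : A) :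
    qform a b (D1 px py rx ry * h0 a b px py rx ry) (D1 px py rx ry * h1 a b px py rx ry) =
      D1 px py rx ry ^ 2 * sextic a b px py rx ry :=
  qform_smul ..

theorem map_sextic {B : Type*} [CommRing B] (f : A →+* B) (a b px py rx ry : A) :
    f (sextic a b px py rx ry) = sextic (f a) (f b) (f px) (f py) (f rx) (f ry) := by
  simp [sextic, qform, h0, h1, K11, K12, K22, map_ofNat]

end CommRing

open Polynomial

/-- The sextic as a polynomial in `px`. -/
noncomputable def sexticPoly (a b py rx ry : ℝ) : ℝ[X] :=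
  sextic (C a) (C b) X (C py) (C rx) (C ry)

theorem eval_sexticPoly (a b px py rx ry : ℝ) :
    (sexticPoly a b py rx ry).eval px = sextic a b px py rx ry := by
  simpa [sexticPoly] using
    map_sextic (Polynomial.evalRingHom px) (C a) (C b) X (C py) (C rx) (C ry)

theorem natDegree_sexticPoly_le (a b py rx ry : ℝ) : (sexticPoly a b py rx ry).natDegree ≤ 6 := by
  simp only [sexticPoly, sextic, qform, h0, h1, K11, K12, K22]
  compute_degree

theorem coeff_six_sexticPoly (a b py rx ry : ℝ) : (sexticPoly a b py rx ry).coeff 6 = 16 := by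
  simp only [sexticPoly, sextic, qform, h0, h1, K11, K12, K22]
  compute_degree!

theorem iterate_derivative_sexticPoly (a b py rx ry : ℝ) :
    derivative^[6] (sexticPoly a b py rx ry) = C 11520 := by
  have hd : (derivative^[6] (sexticPoly a b py rx ry)).natDegree = 0 :=
    Nat.le_zero.1 ((natDegree_iterate_derivative _ 6).trans
      (by have := natDegree_sexticPoly_le a b py rx ry; omega))
  rw [eq_C_of_natDegree_eq_zero hd, coeff_iterate_derivative, coeff_six_sexticPoly]
  norm_num [Nat.descFactorial]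

theorem iteratedDeriv_sextic (n : ℕ) (a b px py rx ry : ℝ) :
    iteratedDeriv n (fun x => sextic a b x py rx ry) px =
      (derivative^[n] (sexticPoly a b py rx ry)).eval px := by
  have : (fun x => sextic a b x py rx ry) = fun x => (sexticPoly a b py rx ry).eval x :=
    funext fun x => (eval_sexticPoly a b x py rx ry).symm
  rw [this]
  induction n generalizing px with
  | zero => simp
  | succ n ih =>
    rw [iteratedDeriv_succ, funext ih, Polynomial.deriv, Function.iterate_succ_apply']

theorem iteratedDeriv_six_sextic (a b px py rx ry : ℝ) :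
    iteratedDeriv 6 (fun x => sextic a b x py rx ry) px = 11520 := by
  rw [iteratedDeriv_sextic, iterate_derivative_sexticPoly, eval_C]

theorem sextic_confluent_ne_zero :
    sextic (-1 : ℝ) 2 1 0 0 1 ≠ 0 ∧ sextic (0 : ℝ) 0 1 0 0 1 ≠ 0 := by
  norm_num [sextic, qform, h0, h1, K11, K12, K22]

end Vale.Agent.P205.Generic
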