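import Mathlib

/-!
Freshness of the asymptotic discriminant: with `S = P + bR/2` the Gauss equation gives
`D = -S² - (K + R²/4)R²`, so where `D` is small and `(P,R)` is not, one of the partial
derivatives `∂D/∂P`, `∂D/∂R` is not small, whatever the curvature `K` is.
-/

namespace Vale.Agent.P205.Generic

/-- The normalised discriminant in terms of `P`, `R`, `b` and the normalised curvature. -/
noncomputable def discr (K b P R : ℝ) : ℝ :=
  -(P + b * R / 2) ^ 2 - (K + R ^ 2 / 4) * R ^ 2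

/-- `discr` agrees with `-P² + aR² - bPR` when `a = -K - R²/4 - b²/4` (Gauss). -/
lemma discr_eq {K a b P R : ℝ} (ha : a = -K - R ^ 2 / 4 - b ^ 2 / 4) :
    discr K b P R = -P ^ 2 + a * R ^ 2 - b * P * R := by
  subst ha; unfold discr; ring

lemma hasDerivAt_discr_P (K b P R : ℝ) :
    HasDerivAt (fun x => discr K b x R) (-(2 * (P + b * R / 2))) P := by
  have h := ((((hasDerivAt_id P).add_const (b * R / 2)).pow 2).neg).sub_const
    ((K + R ^ 2 / 4) * R ^ 2)
  unfold discr
  simpa using h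

lemma hasDerivAt_discr_R (K b P R : ℝ) :
    HasDerivAt (fun x => discr K b P x)
      (-(b * (P + b * R / 2)) - (2 * K * R + R ^ 3)) R := by
  have hi := hasDerivAt_id R
  have h1 : HasDerivAt (fun x : ℝ => P + b * x / 2) (b / 2) R := by
    simpa using ((hi.const_mul b).div_const 2).const_add P
  have h2 : HasDerivAt (fun x : ℝ => K + x ^ 2 / 4) (R / 2) R := by
    have := ((hi.pow 2).div_const 4).const_add K
    simp only [id_eq, Nat.cast_ofNat, Nat.add_one_sub_one, pow_one, mul_one] at this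
    exact this.congr_deriv (by ring)
  have h3 := (h1.pow 2).neg.sub (h2.mul (hi.pow 2))
  unfold discr
  refine h3.congr_deriv ?_
  simp only [id_eq, Pi.pow_apply, Nat.cast_ofNat, Nat.add_one_sub_one, pow_one, mul_one]
  ring

/-- Where the discriminant is small and `(P,R)` has size at least `η`, one partial derivative
of the discriminant is at least `θ`. -/
theorem discr_fresh {K b P R B η θ : ℝ} (hB : 1 ≤ B) (hb : |b| ≤ B) (hη : 0 < η) (hη1 : η ≤ 1)
    (hR1 : |R| ≤ B) (hc : η ≤ |P| ∨ η ≤ |R|) (hθ : 0 ≤ θ)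
    (hθη : 1024 * B ^ 6 * θ ≤ η ^ 4) (hD : |discr K b P R| ≤ θ) :
    θ ≤ |-(2 * (P + b * R / 2))| ∨ θ ≤ |-(b * (P + b * R / 2)) - (2 * K * R + R ^ 3)| := by
  by_contra h
  simp only [not_or, not_le, abs_neg, abs_mul, abs_two] at h
  obtain ⟨hS, hdR⟩ := h
  set S := P + b * R / 2 with hSdef
  set dR := -(b * S) - (2 * K * R + R ^ 3) with hdRdef
  have hη4 : η ^ 4 ≤ η := by
    calc η ^ 4 ≤ η ^ 1 := pow_le_pow_of_le_one hη.le hη1 (by norm_num)
      _ = η := pow_one η
  have hB5 : (1 : ℝ) ≤ B ^ 6 := one_le_pow₀ hB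
  have hθs : 1024 * θ ≤ η := by nlinarith
  have hθ1 : θ ≤ 1 := by linarith
  have hRlow : η / (2 * B) ≤ |R| := by
    rw [div_le_iff₀ (by linarith)]
    rcases hc with hP | hR
    · have e : |P| ≤ |S| + |b| * |R| / 2 := by
        have := abs_sub S (b * R / 2)
        rw [hSdef, add_sub_cancel_right, abs_div, abs_mul, abs_two] at this
        exact this
      nlinarith [abs_nonneg R, abs_nonneg b]
    · nlinarith
  have hid : R * dR = -(b * S * R) + 2 * (discr K b P R + S ^ 2) - R ^ 4 / 2 := by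
    rw [hdRdef, hSdef]; unfold discr; ring
  have hS2 : S ^ 2 ≤ θ := by nlinarith [sq_abs S, abs_nonneg S]
  have h4 : R ^ 4 / 2 ≤ |R * dR| + |b * S * R| + 2 * θ + 2 * θ := by
    have e1 := le_abs_self (discr K b P R)
    nlinarith [neg_abs_le (R * dR), neg_abs_le (b * S * R)]
  have h5 : |R * dR| ≤ B * θ := by
    rw [abs_mul]; exact mul_le_mul hR1 hdR.le (abs_nonneg _) (by linarith)
  have h6 : |b * S * R| ≤ B * θ * B := by
    rw [abs_mul, abs_mul]
    exact mul_le_mul (mul_le_mul hb (by linarith [abs_nonneg S]) (abs_nonneg _) (by linarith))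
      hR1 (abs_nonneg _) (by positivity)
  have h7 : η ^ 4 / (2 * B) ^ 4 ≤ R ^ 4 := by
    rw [← div_pow]
    calc (η / (2 * B)) ^ 4 ≤ |R| ^ 4 := pow_le_pow_left₀ (by positivity) hRlow 4
      _ = R ^ 4 := Even.pow_abs ⟨2, rfl⟩ R
  have h8 : η ^ 4 / (2 * B) ^ 4 ≤ 12 * B ^ 2 * θ := by
    nlinarith [mul_nonneg (sub_nonneg.mpr hB) hθ, mul_nonneg (mul_nonneg (by linarith : 0 ≤ B)
      (sub_nonneg.mpr hB)) hθ]
  rw [div_le_iff₀ (by positivity)] at h8
  have h9 : 1024 * B ^ 6 * θ ≤ 192 * B ^ 6 * θ := le_trans hθη (by linarith [h8])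
  have hθpos : 0 < θ := by linarith [abs_nonneg S]
  nlinarith

end Vale.Agent.P205.Generic
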