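import Vale.Agent.P205.Generic.Response

/-!
Top order coefficients of the variations of the invariants `P, R, a, b` and of the Christoffel
symbols: `δP = iW ζ(1,0)`, `δR = 2 iW ζ(0,1)`, `δa = -iW R/det g ζ(0,1)`, all others zero.
-/

namespace Vale.Agent.P205.Generic

open scoped ContDiff RealInnerProductSpace
open Set Vale.Agent.P205.Algebra

noncomputable section

variable {ι : Type*} {S : VScale ι} {G : ι → Ext → V4}

/-- The unit response direction. -/
def respDir (G : ι → Ext → V4) (i : ι) (p : ℝ × ℝ) : V4 :=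
  (iW one (slice G i 0) p * (detg (slice G i 0) p)⁻¹) • n1 one (slice G i 0) p

namespace Resp

variable (hR : Resp S G)
include hR

lemma base_respDir : BaseBd S (respDir G) := hR.base_N

lemma var_lX_sub : O S 0 fun i p => var1 (lX G) i p - zeta G i p • respDir G i p := hR.var_lX_eq

lemma nd0 (i : ι) {p : ℝ × ℝ} (hp : p ∈ S.dom i) :
    detg (slice G i 0) p ≠ 0 ∧ Wsq one (slice G i 0) p ≠ 0 := by
  have a := hR.detg_ne i _ (S.mem_win i p hp)
  have b := hR.W_ne i _ (S.mem_win i p hp)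
  unfold lf at a b
  exact ⟨a, b⟩

lemma respDir_n1 (i : ι) {p : ℝ × ℝ} (hp : p ∈ S.dom i) :
    ⟪respDir G i p, n1 one (slice G i 0) p⟫ = 1 := by
  obtain ⟨hd, hw⟩ := hR.nd0 i hp
  rw [respDir, real_inner_smul_left, n1_sq hd, iW, rinv_const_one]
  field_simp

omit hR in
lemma respDir_n0 (i : ι) {p : ℝ × ℝ} :
    ⟪respDir G i p, n0 one (slice G i 0) p⟫ = 0 := by
  rw [respDir, real_inner_smul_left, real_inner_comm, (n1_perp (F := slice G i 0) (p := p)).2.2,
    mul_zero]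

lemma respDir_v (i : ι) {p : ℝ × ℝ} (hp : p ∈ S.dom i) :
    ⟪respDir G i p, v1 one (slice G i 0) p⟫ = 0 ∧ ⟪respDir G i p, v2 one (slice G i 0) p⟫ = 0 := by
  obtain ⟨-, -, a, b⟩ := v_perp (F := slice G i 0) (hR.nd0 i hp).1
  rw [real_inner_comm] at a b
  exact ⟨by rw [respDir, real_inner_smul_left, a, mul_zero],
    by rw [respDir, real_inner_smul_left, b, mul_zero]⟩

lemma frame0 : FrameFlat S (zeta G) 0 G :=
  hR.frameFlat
    ⟨hR.sm.lX, hR.base_lX, baseBd_zero, baseBd_zero, respDir G, hR.base_respDir,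
      hR.var_lX_sub.congr fun i p _ => by simp [zj, pd]⟩
    (Exp.of_O hR.sm.lY hR.base_lY hR.var_lY)
    (Exp.of_O hR.sm.lY.lY hR.base_lYY hR.var_lYY)

lemma exp_F12 : Exp S (zeta G) 0 (lf G F12) (fun _ _ => 0) (respDir G) := by
  have hz := hR.zeta_O
  have hN := hR.base_respDir
  have hr := hR.var_lX_sub
  refine Exp.congr (G := lY (lX G)) ⟨hR.sm.lX.lY,
    hR.base_lX.dy.congr (fun i => base0_lY hR.sm.lX i), baseBd_zero, hN,
    fun i => Generic.dy (respDir G i), hN.dy, hr.dy.congr fun i p hp => ?_⟩ hR.j12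
  have e : var1 (lX G) i = (fun q => zeta G i q • respDir G i q) +
      fun q => var1 (lX G) i q - zeta G i q • respDir G i q := funext fun q => by simp
  have s : ContDiffOn ℝ ∞ (fun q => zeta G i q • respDir G i q) (S.dom i) :=
    (hz.smooth i).smul (hN.smooth i)
  have b : Generic.dy (fun q => zeta G i q • respDir G i q) p = _ :=
    dy_bilin (ContinuousLinearMap.lsmul ℝ ℝ) (S.isOpen i) (hz.smooth i) (hN.smooth i) hp
  simp only [ContinuousLinearMap.lsmul_apply, Pi.add_apply] at b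
  have l : var1 (lY (lX G)) i p = Generic.dy (var1 (lX G) i) p := var1_lY hR.sm.lX i hp
  rw [e, dy_add (S.isOpen i) s (hr.smooth i) hp, Pi.add_apply, b] at l
  simp [l, zj, pd]

lemma sm_F11 : Sm S (lf G F11) := fun i => (hR.sm.lX.lX i).congr (hR.j11 i)

lemma base_F11 : BaseBd S (base0 (lf G F11)) :=
  (hR.base_lX.dx.congr fun i => base0_lX hR.sm.lX i).congr
    fun i p hp => hR.j11 i (S.mem_win i p hp)

lemma exp_F11_n1 : Exp S (zeta G) 0 (lf G fun F p => ⟪F11 F p, n1 one F p⟫)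
    (fun _ _ => 1) (fun _ _ => 0) := by
  have hn := hR.frame0.n1
  obtain ⟨c, hc, hO⟩ := hn.expand
  have hN := hR.base_respDir
  have hb := hR.base_F11
  have hdn : BaseBd S fun i => Generic.dx (base0 (lf G (n1 one)) i) := hn.base.dx
  refine ⟨hR.sm_F11.bilin (innerSL ℝ) hn.sm, BaseBd.inner hb hn.base, baseBd_const 1, baseBd_zero,
    fun i p => ⟪base0 (lf G F11) i p, c i p⟫
      - ⟪Generic.dx (base0 (lf G (n1 one)) i) p, respDir G i p⟫, ?_,
    ((O.base_inner hb hO).sub (O.base_inner hdn hR.var_lX_sub)).congr fun i p hp => ?_⟩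
  · exact (BaseBd.add (BaseBd.inner hb hc) ((BaseBd.inner hdn hN).clm
      (-ContinuousLinearMap.id ℝ ℝ))).congr fun i p _ => by simp [sub_eq_add_neg]
  have l : var1 (lf G fun F p => ⟪F11 F p, n1 one F p⟫) i p = _ :=
    var1_inner hR.sm_F11 hn.sm i hp
  have z : var1 (lf G F11) i p = Generic.dx (var1 (lX G) i) p :=
    (var1_congr hR.j11 i hp).trans (var1_lX hR.sm.lX i hp)
  have dz : zj (zeta G) 1 0 i p = ⟪base0 (lf G (n1 one)) i p, Generic.dx (var1 (lX G) i) p⟫
      + ⟪Generic.dx (base0 (lf G (n1 one)) i) p, var1 (lX G) i p⟫ := by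
    have e : EqOn (zeta G i) (fun q => (innerSL ℝ : V4 →L[ℝ] V4 →L[ℝ] ℝ)
        (base0 (lf G (n1 one)) i q) (var1 (lX G) i q)) (S.dom i) := fun q hq => by
      simp only [var1_lX hR.sm i hq]; rfl
    show Generic.dx (zeta G i) p = _
    rw [eqOn_dx (S.isOpen i) e hp,
      dx_bilin (innerSL ℝ : V4 →L[ℝ] V4 →L[ℝ] ℝ) (S.isOpen i) (hn.base.smooth i)
        (hR.var_lX.smooth i) hp]
    exact add_comm _ _
  simp only [l, z, dz, smul_eq_mul, mul_one, mul_zero, add_zero, inner_sub_right, inner_add_right,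
    inner_smul_right, real_inner_comm (Generic.dx (var1 (lX G) i) p)]
  simp [zj, pd]
  ring

/-- Functions of zero top coefficients: `⟪F_xx, F_x⟫`, `⟪F_xx, F_y⟫`. -/
lemma flat_F11_tangent :
    Flat S (zeta G) 0 (lf G fun F p => ⟪F11 F p, Algebra.dx F p⟫) ∧
      Flat S (zeta G) 0 (lf G fun F p => ⟪F11 F p, Algebra.dy F p⟫) := by
  have hx := hR.sm.lX
  have hy := hR.sm.lY
  have bb : ∀ {A B : ι → Ext → V4}, BaseBd S (base0 A) → BaseBd S (base0 B) →
      BaseBd S (base0 fun i q => ⟪A i q, B i q⟫) := fun a b => BaseBd.inner a b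
  have f11 : Flat S (zeta G) 0 (lX fun i q => ⟪lX G i q, lX G i q⟫) :=
    Exp.of_O (hx.bilin (innerSL ℝ) hx).lX
      ((bb hR.base_lX hR.base_lX).dx.congr fun i => base0_lX (hx.bilin (innerSL ℝ) hx) i)
      (hR.m11.dxO.congr fun i => var1_lX (hx.bilin (innerSL ℝ) hx) i)
  have f12 : Flat S (zeta G) 0 (lX fun i q => ⟪lX G i q, lY G i q⟫) :=
    Exp.of_O (hx.bilin (innerSL ℝ) hy).lX
      ((bb hR.base_lX hR.base_lY).dx.congr fun i => base0_lX (hx.bilin (innerSL ℝ) hy) i)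
      (hR.m12.dxO.congr fun i => var1_lX (hx.bilin (innerSL ℝ) hy) i)
  have g11y : Flat S (zeta G) 0 (lY fun i q => ⟪lX G i q, lX G i q⟫) :=
    Exp.of_O (hx.bilin (innerSL ℝ) hx).lY
      ((bb hR.base_lX hR.base_lX).dy.congr fun i => base0_lY (hx.bilin (innerSL ℝ) hx) i)
      (hR.m11.dy.toO.congr fun i => var1_lY (hx.bilin (innerSL ℝ) hx) i)
  have half : ∀ {U : ι → Ext → ℝ}, Flat S (zeta G) 0 U →
      Flat S (zeta G) 0 fun i q => (1 / 2 : ℝ) * U i q := fun h =>
    h.clm ((1 / 2 : ℝ) • ContinuousLinearMap.id ℝ ℝ)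
  constructor
  · refine (half f11).congr fun i q hq => ?_
    show ⟪lf G F11 i q, lf G Algebra.dx i q⟫ = _
    simp only [hR.j11 i hq, hR.j1 i hq, lX_inner hx hx i hq, real_inner_comm (lX G i q)]
    ring
  · refine (f12.sub (half g11y)).congr fun i q hq => ?_
    show ⟪lf G F11 i q, lf G Algebra.dy i q⟫ = _
    simp only [hR.j11 i hq, hR.j2 i hq, lX_inner hx hy i hq, lY_inner hx hx i hq,
      lX_lY_comm hR.sm i hq, real_inner_comm (lX G i q) (lY (lX G) i q)]
    ring

/-- Gauss: `⟪F_xx, F_yy⟫ = ⟪F_xy, F_xy⟫` up to second derivatives of the metric. -/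
lemma exp_F11_F22 : Exp S (zeta G) 0 (lf G fun F p => ⟪F11 F p, F22 F p⟫)
    (fun _ _ => 0) (fun i p => 2 * ⟪F12 (slice G i 0) p, respDir G i p⟫) := by
  have hx := hR.sm.lX
  have hy := hR.sm.lY
  set a := fun i q => ⟪lX G i q, lX G i q⟫ with ha
  set b := fun i q => ⟪lX G i q, lY G i q⟫ with hb
  set c := fun i q => ⟪lY G i q, lY G i q⟫ with hc
  have sa : Sm S a := hx.bilin (innerSL ℝ) hx
  have sb : Sm S b := hx.bilin (innerSL ℝ) hy
  have sc : Sm S c := hy.bilin (innerSL ℝ) hy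
  have ba : BaseBd S (base0 a) := BaseBd.inner hR.base_lX hR.base_lX
  have bb : BaseBd S (base0 b) := BaseBd.inner hR.base_lX hR.base_lY
  have bc : BaseBd S (base0 c) := BaseBd.inner hR.base_lY hR.base_lY
  have fa : Flat S (zeta G) 0 (lY (lY a)) := Exp.of_O sa.lY.lY
    ((ba.dy.congr fun i => base0_lY sa i).dy.congr fun i => base0_lY sa.lY i)
    (hR.m11.dy.dy.toO.congr fun i => var1_dyy sa i)
  have fb : Flat S (zeta G) 0 (lY (lX b)) := Exp.of_O sb.lX.lY
    ((bb.dx.congr fun i => base0_lX sb i).dy.congr fun i => base0_lY sb.lX i)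
    (hR.m12.dxO.dy.congr fun i => var1_dxy sb i)
  have fc : Flat S (zeta G) 0 (lX (lX c)) := Exp.of_O sc.lX.lX
    ((bc.dx.congr fun i => base0_lX sc i).dx.congr fun i => base0_lX sc.lX i)
    (hR.m22.dxxO.congr fun i => var1_dxx sc i)
  have h12 := hR.exp_F12
  have sum := (h12.inner h12).add
    (Exp.sub fb ((fa.add fc).clm ((1 / 2 : ℝ) • ContinuousLinearMap.id ℝ ℝ)))
  refine (Exp.congr sum fun i q hq => ?_).coeff (fun i p _ => ?_) (fun i p _ => ?_)
  · show ⟪lf G F11 i q, lf G F22 i q⟫ = ⟪lf G F12 i q, lf G F12 i q⟫ + (lY (lX b) i q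
      - ((1 / 2 : ℝ) • ContinuousLinearMap.id ℝ ℝ) (lY (lY a) i q + lX (lX c) i q))
    have e1 : ∀ i, EqOn (lY a i) (fun q => 2 * ⟪lX G i q, lY (lX G) i q⟫) (S.win i) :=
      fun i q hq => by
        simp only [ha, lY_inner hx hx i hq, real_inner_comm (lX G i q)]; ring
    have e2 : ∀ i, EqOn (lX b i)
        (fun q => ⟪lX G i q, lY (lX G) i q⟫ + ⟪lX (lX G) i q, lY G i q⟫) (S.win i) :=
      fun i q hq => by
        simp only [hb, lX_inner hx hy i hq, lX_lY_comm hR.sm i hq]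
    have e3 : ∀ i, EqOn (lX c i) (fun q => 2 * ⟪lY G i q, lY (lX G) i q⟫) (S.win i) :=
      fun i q hq => by
        simp only [hc, lX_inner hy hy i hq, lX_lY_comm hR.sm i hq, real_inner_comm (lY G i q)]
        ring
    have two : ∀ {U : ι → Ext → ℝ}, Sm S U → ∀ v : Ext,
        fderiv ℝ (fun q => 2 * U i q) q v = 2 * fderiv ℝ (U i) q v := fun hU v => by
      rw [fderiv_const_mul (((hU i).differentiableOn (by simp)).differentiableAt
        ((S.win_open i).mem_nhds hq))]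
      rfl
    have k1 : lY (lY a) i q = 2 * lY (fun i q => ⟪lX G i q, lY (lX G) i q⟫) i q :=
      (eqOn_lY e1 i hq).trans (two (hx.bilin (innerSL ℝ) hx.lY) _)
    have k3 : lX (lX c) i q = 2 * lX (fun i q => ⟪lY G i q, lY (lX G) i q⟫) i q :=
      (eqOn_lX e3 i hq).trans (two (hy.bilin (innerSL ℝ) hx.lY) _)
    have addY : ∀ {U T : ι → Ext → ℝ}, Sm S U → Sm S T →
        lY (fun i q => U i q + T i q) i q = lY U i q + lY T i q := fun hU hT => by
      simp only [lY]
      rw [fderiv_fun_add (((hU i).differentiableOn (by simp)).differentiableAt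
        ((S.win_open i).mem_nhds hq)) (((hT i).differentiableOn (by simp)).differentiableAt
        ((S.win_open i).mem_nhds hq))]
      rfl
    have k2 : lY (lX b) i q = lY (fun i q => ⟪lX G i q, lY (lX G) i q⟫) i q
        + lY (fun i q => ⟪lX (lX G) i q, lY G i q⟫) i q :=
      (eqOn_lY e2 i hq).trans (addY (hx.bilin (innerSL ℝ) hx.lY) (hx.lX.bilin (innerSL ℝ) hy))
    rw [k1, k2, k3]
    simp only [hR.j11 i hq, hR.j12 i hq, hR.j22 i hq, lY_inner hx hx.lY i hq,
      lX_inner hy hx.lY i hq, lY_inner hx.lX hy i hq, lX_lY_comm hR.sm i hq,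
      lX_lY_comm hx i hq, smul_apply, ContinuousLinearMap.id_apply, smul_eq_mul]
    rw [real_inner_comm (lY G i q) (lY (lX (lX G)) i q)]
    ring
  · simp
  · simp only [sub_zero, add_zero]
    show 2 * _ = ⟪respDir G i p, F12 (slice G i 0) p⟫ + ⟪F12 (slice G i 0) p, respDir G i p⟫
    rw [real_inner_comm (F12 (slice G i 0) p)]
    ring

lemma flat_G :
    Flat S (zeta G) 0 (lf G (G111 one)) ∧ Flat S (zeta G) 0 (lf G (G112 one)) ∧
      Flat S (zeta G) 0 (lf G (G122 one)) ∧ Flat S (zeta G) 0 (lf G (G211 one)) ∧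
      Flat S (zeta G) 0 (lf G (G212 one)) ∧ Flat S (zeta G) 0 (lf G (G222 one)) := by
  have hF := hR.frame0
  obtain ⟨tx, ty⟩ := hR.flat_F11_tangent
  have g11' : Flat S (zeta G) 0 (lf G g11) := (hF.fx.inner hF.fx).congr fun _ _ _ => rfl
  have g22' : Flat S (zeta G) 0 (lf G g22) := (hF.fy.inner hF.fy).congr fun _ _ _ => rfl
  have f12 : ∀ {T : ι → Ext → V4}, Flat S (zeta G) 0 T →
      (∀ i, ∀ p ∈ S.dom i, ⟪respDir G i p, base0 T i p⟫ = 0) →
      Flat S (zeta G) 0 fun i q => ⟪lf G F12 i q, T i q⟫ := fun hT h0 =>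
    (hR.exp_F12.inner hT).coeff (fun i p _ => by simp) (fun i p hp => by simp [h0 i p hp])
  refine ⟨?_, ?_, ?_, ?_, ?_, ?_⟩
  · exact (hF.idet.mul ((g22'.mul tx).sub (hF.g12.mul ty))).congr fun i q _ => by
      simp [lf, G111, v1, inner_smul_right, inner_sub_right]
  · exact (f12 hF.v1 fun i p hp => (hR.respDir_v i hp).1).congr fun _ _ _ => rfl
  · exact (hF.fyy.inner hF.v1).congr fun _ _ _ => rfl
  · exact (hF.idet.mul ((g11'.mul ty).sub (hF.g12.mul tx))).congr fun i q _ => by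
      simp [lf, G211, v2, inner_smul_right, inner_sub_right]
  · exact (f12 hF.v2 fun i p hp => (hR.respDir_v i hp).2).congr fun _ _ _ => rfl
  · exact (hF.fyy.inner hF.v2).congr fun _ _ _ => rfl

/-- `δP = iW ζ(1,0)`. -/
lemma exp_cP : Exp S (zeta G) 0 (lf G (cP one)) (fun i p => iW one (slice G i 0) p)
    (fun _ _ => 0) :=
  ((hR.exp_F11_n1.mul hR.frame0.iW).congr fun _ _ _ => rfl).coeff
    (fun i p _ => by simp [base0, lf]) (fun i p _ => by simp)

/-- `δR = 2 iW ζ(0,1)`. -/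
lemma exp_cR : Exp S (zeta G) 0 (lf G (cR one)) (fun _ _ => 0)
    (fun i p => 2 * iW one (slice G i 0) p) :=
  ((((hR.exp_F12.inner hR.frame0.n1).const_mul 2).mul hR.frame0.iW).congr
      fun _ _ _ => rfl).coeff (fun i p _ => by simp) (fun i p hp => by
    have h := hR.respDir_n1 i hp
    simp [base0, lf] at h ⊢
    simp [h])

/-- `δb = 0` at top order. -/
lemma exp_cb : Flat S (zeta G) 0 (lf G (cb one)) :=
  ((((hR.exp_F12.inner hR.frame0.n0).const_mul 2).mul hR.frame0.iW).neg.congr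
      fun _ _ _ => rfl).coeff (fun i p _ => by simp) (fun i p _ => by
    have h : ⟪respDir G i p, n0 one (slice G i 0) p⟫ = 0 := respDir_n0 i
    simp [base0, lf, h])

/-- `δa = -iW R / det g ζ(0,1)`. -/
lemma exp_ca : Exp S (zeta G) 0 (lf G (ca one)) (fun _ _ => 0)
    (fun i p => -(iW one (slice G i 0) p * (detg (slice G i 0) p)⁻¹ * cR one (slice G i 0) p)) := by
  have hF := hR.frame0
  obtain ⟨h1, -, -, h2, -, -⟩ := hR.flat_G
  have t : Exp S (zeta G) 0 (lf G fun F p => ⟪F11 F p, n0 one F p⟫) (fun _ _ => 0)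
      (fun i p => 2 * ⟪F12 (slice G i 0) p, respDir G i p⟫) :=
    (((hR.exp_F11_F22.sub ((hF.fyy.inner hF.fx).mul h1)).sub
      ((hF.fyy.inner hF.fy).mul h2)).congr fun i q _ => by
        simp [lf, n0, inner_sub_right, inner_smul_right, G111, G211]).coeff
      (fun i p _ => by simp) (fun i p _ => by simp)
  refine ((t.mul hF.iW).neg.congr fun _ _ _ => rfl).coeff (fun i p _ => by simp) (fun i p _ => ?_)
  simp only [respDir, real_inner_smul_right, base0, lf, cR]
  ring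

end Resp

end

end Vale.Agent.P205.Generic
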