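import Vale.Agent.P205.Generic.DetLow

/-!
Variations with tiny effect on the metric: the lower bounds which the climb asks of their top
coefficients.  `R a₁₁ + 2 P a₂₀ = iW (4 Dc₀ + R⁴ / det g)`.
-/

namespace Vale.Agent.P205.Generic

open scoped ContDiff RealInnerProductSpace
open Set Metric Vale.Agent.P205.Algebra

noncomputable section

variable {ι : Type*} {p : ℕ} {P : Pert ι p} {G : ι → Set R2}

/-- The first top coefficient of `Dc₀` as a functional. -/
def resp20 (F : R2 → V4) (x : R2) : ℝ :=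
  iW one F x * (2 * cP one F x + cb one F x * cR one F x)

lemma resp_a20 (j : Dir ι p) (x : R2) :
    a20 P.var (fun _ _ => 1) (fun _ _ => 0) (fun _ _ => 0) j x =
      resp20 (slice P.var j 0) x := by
  simp [a20, resp20]

/-- The top coefficient of type `(0, 1)` of `a` for such variations. -/
def respA11 (G : ι → Ext → V4) (i : ι) (x : R2) : ℝ :=
  -(iW one (slice G i 0) x * (detg (slice G i 0) x)⁻¹ * cR one (slice G i 0) x)

lemma resp_identity (j : Dir ι p) (x : R2) :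
    cR one (slice P.var j 0) x * a11 P.var (fun _ _ => 1) (respA11 P.var) (fun _ _ => 0) j x
      + 2 * cP one (slice P.var j 0) x * resp20 (slice P.var j 0) x =
    iW one (slice P.var j 0) x * (4 * quad0 one (slice P.var j 0) x
      + (detg (slice P.var j 0) x)⁻¹ * cR one (slice P.var j 0) x ^ 4) := by
  simp only [a11, respA11, resp20, quad0_eq]
  ring

/-- A value small at the start stays small after a small move. -/
lemma small_after {B z z0 y : ℝ} {t D : ℕ} (h2 : 2 ≤ B) (ht : 2 ≤ t) (h1 : |z - z0| ≤ B ^ D * y)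
    (h0 : B ^ t * |z0| ≤ 1) (h3 : B ^ (t + D) * y ≤ 1) : B ^ (t - 2) * |z| ≤ 1 := by
  have hB : 0 ≤ B := by linarith
  have h4 := mul_le_mul_of_nonneg_left ((abs_sub_abs_le_abs_sub z z0).trans h1)
    (pow_nonneg hB t)
  rw [mul_sub, ← mul_assoc, ← pow_add] at h4
  have h5 : B ^ t * |z| ≤ 2 := by linarith
  rw [show t = t - 2 + 2 by omega, pow_add] at h5
  have h7 := mul_le_mul_of_nonneg_left (mul_le_mul h2 h2 zero_le_two hB)
    (by positivity : (0 : ℝ) ≤ B ^ (t - 2) * |z|)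
  nlinarith [abs_nonneg z, pow_nonneg hB (t - 2)]

/-- The second coefficient is large when the first is tiny. -/
lemma cross_low {F : R2 → V4} {x : R2} {B a z : ℝ} {A d k s t : ℕ} (h2 : 2 ≤ B)
    (ht1 : s + 8 * (d + 1) + 5 * A + 12 ≤ t) (_ht2 : 0 < t)
    (bP : |cP one F x| ≤ B ^ A) (bR : |cR one F x| ≤ B ^ A) (bk1 : |k1 one F x| ≤ B ^ A)
    (bk2 : |k2 one F x| ≤ B ^ A) (hk : k ≤ 2)
    (hsum : 1 ≤ B ^ s * |cR one F x| * |a| + B ^ s * (2 * |cP one F x|) * |z|)
    (hk1 : 1 ≤ B ^ (2 * (d + 1)) * |k1 one F x|) (hz : B ^ (t - 2) * |z| ≤ 1) :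
    1 ≤ B ^ (8 * (d + 1) + (s + A + 1) + 1) * |crossC k z a F x| := by
  have hB : 1 ≤ B := by linarith
  have hB0 : 0 ≤ B := by linarith
  have tiny : ∀ {e : ℕ}, e + 4 ≤ t - 2 → 8 * (B ^ e * |z|) ≤ 1 := fun {e} he => by
    refine le_trans ?_ hz
    have h8 : (8 : ℝ) ≤ B ^ 4 := le_trans (by norm_num) (pow_le_pow_left₀ (by norm_num) h2 4)
    calc 8 * (B ^ e * |z|) = 8 * B ^ e * |z| := by ring
      _ ≤ B ^ 4 * B ^ e * |z| := by gcongr
      _ = B ^ (e + 4) * |z| := by ring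
      _ ≤ _ := mul_le_mul_of_nonneg_right (pow_le_pow_right₀ hB he) (abs_nonneg _)
  have t1 := tiny (e := s + A) (by omega)
  have t2 := tiny (e := 8 * (d + 1) + (s + A + 1) + 4 * A) (by omega)
  have ha : 1 ≤ B ^ (s + A + 1) * |a| := by
    have h1 : B ^ s * (2 * |cP one F x|) * |z| ≤ 1 / 4 := by
      have := mul_le_mul_of_nonneg_right (mul_le_mul_of_nonneg_left bP (pow_nonneg hB0 s))
        (abs_nonneg z)
      rw [← pow_add] at this
      linarith
    have h3 : B ^ s * |cR one F x| * |a| ≤ B ^ (s + A) * |a| := by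
      rw [pow_add]
      exact mul_le_mul_of_nonneg_right (mul_le_mul_of_nonneg_left bR (pow_nonneg hB0 s))
        (abs_nonneg _)
    have h4 := mul_le_mul_of_nonneg_right h2
      (mul_nonneg (pow_nonneg hB0 (s + A)) (abs_nonneg a))
    rw [pow_succ]
    linarith
  have hK : 1 ≤ B ^ (8 * (d + 1)) * |k1 one F x| ^ (2 * k) := by
    refine (one_le_pow₀ hk1 (n := 2 * k)).trans ?_
    rw [mul_pow, ← pow_mul]
    refine mul_le_mul_of_nonneg_right (pow_le_pow_right₀ hB ?_) (by positivity)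
    have := Nat.mul_le_mul_left (2 * (d + 1)) (show 2 * k ≤ 4 by omega)
    omega
  set e := 8 * (d + 1) + (s + A + 1)
  have hm : 1 ≤ B ^ e * |k1 one F x ^ (2 * k) * a| := by
    refine (one_le_mul_of_one_le_of_one_le hK ha).trans_eq ?_
    rw [abs_mul, abs_pow, pow_add]
    ring
  have hs : B ^ e * |(k : ℝ) * k1 one F x ^ (2 * k - 1) * k2 one F x * z| ≤ 1 / 4 := by
    have h6 : |k1 one F x| ^ (2 * k - 1) * |k2 one F x| ≤ B ^ (4 * A) := by
      refine (mul_le_mul (pow_le_pow_left₀ (abs_nonneg _) bk1 _) bk2 (abs_nonneg _)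
        (by positivity)).trans ?_
      rw [← pow_mul, ← pow_add]
      refine pow_le_pow_right₀ hB ?_
      have := Nat.mul_le_mul_left A (show 2 * k - 1 ≤ 3 by omega)
      omega
    have hk' : (k : ℝ) ≤ 2 := by exact_mod_cast hk
    rw [abs_mul, abs_mul, abs_mul, abs_pow, Nat.abs_cast]
    calc B ^ e * ((k : ℝ) * |k1 one F x| ^ (2 * k - 1) * |k2 one F x| * |z|)
        = B ^ e * ((k : ℝ) * (|k1 one F x| ^ (2 * k - 1) * |k2 one F x|) * |z|) := by ring
      _ ≤ B ^ e * (2 * B ^ (4 * A) * |z|) := by gcongr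
      _ = 2 * (B ^ (e + 4 * A) * |z|) := by rw [pow_add]; ring
      _ ≤ 1 / 4 := by linarith
  have h7 := mul_le_mul_of_nonneg_left (abs_sub_abs_le_abs_sub (k1 one F x ^ (2 * k) * a)
    ((k : ℝ) * k1 one F x ^ (2 * k - 1) * k2 one F x * z)) (pow_nonneg hB0 e)
  rw [mul_sub] at h7
  have h8 := mul_le_mul_of_nonneg_right h2 (mul_nonneg (pow_nonneg hB0 e)
    (abs_nonneg (k1 one F x ^ (2 * k) * a - (k : ℝ) * k1 one F x ^ (2 * k - 1) * k2 one F x * z)))
  rw [crossC, pow_succ]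
  linarith

variable (hR : Resp P.vscale P.var)
include hR

lemma Resp.setting (hT : ∃ L, P.Thick G L) (hp : P.Presc (zeta P.var) G) :
    Setting P G (zeta P.var) (fun _ _ => 1) (fun _ _ => 0) (respA11 P.var) (fun _ _ => 0)
      (fun _ _ => 0) :=
  ⟨hR.top, hT, hp⟩

/-- `iW` and `1 / det g` are bounded below by powers of the scale. -/
lemma Resp.inv_low : ∃ w : ℕ, ∀ j : Dir ι p, ∀ x ∈ P.dom j.1,
    1 ≤ P.big j.1 ^ w * |iW one (slice P.var j 0) x| ∧
    1 ≤ P.big j.1 ^ w * |(detg (slice P.var j 0) x)⁻¹| := by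
  have hF := hR.frame0
  obtain ⟨a, ha⟩ := Pert.bound (Φ := Wsq one) ((hF.n0.inner hF.n0).congr fun _ _ _ => rfl).base
  obtain ⟨b, hb⟩ := Pert.bound (Φ := fun F x => g11 F x * g22 F x - g12 F x * g12 F x)
    (((((hF.fx.inner hF.fx).congr fun _ _ _ => rfl).mul ((hF.fy.inner hF.fy).congr fun _ _ _ => rfl)).sub
      (hF.g12.mul hF.g12)).congr fun _ _ _ => rfl).base
  obtain ⟨k, hk⟩ := hR.low
  refine ⟨a + b, fun j x hx => ?_⟩
  obtain ⟨h1, h2⟩ := hk j x hx
  have hB := P.toScale.one_le j.1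
  have key : ∀ {z : ℝ} {e : ℕ}, e ≤ a + b → |z| ≤ P.big j.1 ^ e → 1 ≤ P.big j.1 ^ k * |z| →
      1 ≤ P.big j.1 ^ (a + b) * |z⁻¹| := fun {z e} he hz hz1 => by
    have hz0 : 0 < |z| := by
      rcases eq_or_ne z 0 with rfl | hne
      · simp at hz1; linarith
      · exact abs_pos.2 hne
    rw [abs_inv, ← div_eq_mul_inv, le_div_iff₀ hz0, one_mul]
    exact hz.trans (pow_le_pow_right₀ hB he)
  refine ⟨?_, ?_⟩
  · have := key (Nat.le_add_right a b) (ha j x hx) h2
    simpa [iW, rinv, one] using this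
  · have e := hb j x hx
    rw [show g11 (slice P.var j 0) x * g22 (slice P.var j 0) x
      - g12 (slice P.var j 0) x * g12 (slice P.var j 0) x = detg (slice P.var j 0) x by
        simp [detg]; ring] at e
    exact key (Nat.le_add_left b a) e h1

lemma Resp.mu_low : ∃ d, MuLow P (fun _ _ => 1) (fun i => P.dom i) d := by
  obtain ⟨w, hw⟩ := hR.inv_low
  exact ⟨w, fun j x hx => by simpa [Pert.slice_var] using (hw j x hx).1⟩

/-- The top coefficients of the `Dc`. -/
theorem Resp.dc_low (hT : ∃ L, P.Thick G L) (hsP : P.Smooth (cP one)) (hsR : P.Smooth (cR one))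
    (hsq : P.Smooth (quad0 one)) (hs20 : P.Smooth resp20) (lev : ι → ℕ) :
    DcLow P G lev (fun _ _ => 1) (fun _ _ => 0) (respA11 P.var) (fun _ _ => 0)
      (fun _ _ => 0) := by
  intro d
  obtain ⟨L, hL⟩ := hT
  obtain ⟨w, hw⟩ := hR.inv_low
  obtain ⟨A1, hA1⟩ := Pert.bound hR.top.exp_cP.base
  obtain ⟨A2, hA2⟩ := Pert.bound hR.top.exp_cR.base
  obtain ⟨A3, hA3⟩ := Pert.bound hR.top.exp_ca.base
  obtain ⟨A4, hA4⟩ := Pert.bound hR.top.exp_cb.base
  obtain ⟨A5, hA5⟩ := Pert.bound hR.top.k1_ex.choose_spec.choose_spec.base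
  obtain ⟨A6, hA6⟩ := Pert.bound hR.top.k2_ex.choose_spec.choose_spec.base
  obtain ⟨Cp, hCp⟩ := Pert.drift_lower hsP hR.top.zeta hR.top.exp_cP
  obtain ⟨Cr, hCr⟩ := Pert.drift_lower hsR hR.top.zeta hR.top.exp_cR
  obtain ⟨Dq, hDq⟩ := Pert.drift hsq hR.top.zeta hR.top.exp_quad0
  have e20 : Exp P.vscale (zeta P.var) 0 (lf P.var resp20) _ _ :=
    (Exp.mul hR.frame0.iW ((hR.top.exp_cP.const_mul 2).add (hR.top.exp_cb.mul hR.top.exp_cR))).congr
      fun _ _ _ => rfl
  obtain ⟨C20, hC20⟩ := Pert.drift_lower hs20 hR.top.zeta e20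
  obtain ⟨D20, hD20⟩ := Pert.drift hs20 hR.top.zeta e20
  set A := A1 + A2 + A3 + A4 + A5 + A6 + w with hA
  set r := 2 * d + 3 * A + 3 with hr
  set s := 2 * A + 4 * (r + 1) + 5 with hs
  set t := s + 8 * (d + 1) + 5 * A + 12 with ht
  clear_value A r s t
  classical
  refine ⟨Cp + Cr + Dq + C20 + D20 + 20 * t,
    fun i x => decide (1 ≤ P.big i ^ t * |resp20 (P.H i 0) x|), ?_⟩
  intro j _ x hx hsm hc hq k hk
  have hxd := hL.sub _ hx
  have h2 := P.two_le j.1
  have hB := P.toScale.one_le j.1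
  have hτ : ‖(j.2.1 : Fin p → ℝ)‖ ≤ 3 := mem_closedBall_zero_iff.mp j.2.1.2
  have hsl : slice P.var j 0 = P.H j.1 j.2.1 := Pert.slice_var j
  have bP := hA1 j x hxd
  have bR := hA2 j x hxd
  have bk1 := hA5 j x hxd
  have bk2 := hA6 j x hxd
  have hid := resp_identity (P := P) j x
  obtain ⟨hiW, hdet⟩ := hw j x hxd
  have ba : |ca one (P.H j.1 0) x| ≤ P.big j.1 ^ A3 := by
    simpa [Pert.slice_var] using hA3 (j.1, ⟨0, mem_closedBall_self (by norm_num)⟩, j.2.2) x hxd
  have bb : |cb one (P.H j.1 0) x| ≤ P.big j.1 ^ A4 := by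
    simpa [Pert.slice_var] using hA4 (j.1, ⟨0, mem_closedBall_self (by norm_num)⟩, j.2.2) x hxd
  have bP0 : |cP one (P.H j.1 0) x| ≤ P.big j.1 ^ A1 := by
    simpa [Pert.slice_var] using hA1 (j.1, ⟨0, mem_closedBall_self (by norm_num)⟩, j.2.2) x hxd
  set B := P.big j.1
  have pow : ∀ {m m' : ℕ}, m ≤ m' → B ^ m ≤ B ^ m' := fun h => pow_le_pow_right₀ hB h
  -- `R` is large
  have hR0 : 1 ≤ B ^ r * |cR one (P.H j.1 0) x| := by
    rcases cBig_iff.1 hc with hP | hR
    · by_contra hcon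
      push Not at hcon
      set Pv := cP one (P.H j.1 0) x
      set Rv := cR one (P.H j.1 0) x
      have hq' : B ^ r * |quad0 one (P.H j.1 0) x| ≤ 1 :=
        (mul_le_mul_of_nonneg_right (pow (by omega)) (abs_nonneg _)).trans hq
      have e : Pv ^ 2 ≤ |quad0 one (P.H j.1 0) x| + B ^ (2 * A) * |Rv| + B ^ (2 * A) * Rv ^ 2 := by
        have h1 : Pv ^ 2 = quad0 one (P.H j.1 0) x - cb one (P.H j.1 0) x * Pv * Rv
            + ca one (P.H j.1 0) x * Rv ^ 2 := by rw [quad0_eq]; ring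
        rw [h1]
        refine add_le_add ((sub_le_iff_le_add).2 ?_) ?_
        · have h3 : |cb one (P.H j.1 0) x * Pv * Rv| ≤ B ^ (2 * A) * |Rv| := by
            rw [abs_mul, abs_mul]
            refine mul_le_mul_of_nonneg_right ((mul_le_mul bb bP0 (abs_nonneg _)
              (by positivity)).trans ?_) (abs_nonneg _)
            rw [← pow_add]; exact pow (by omega)
          linarith [le_abs_self (quad0 one (P.H j.1 0) x),
            neg_abs_le (cb one (P.H j.1 0) x * Pv * Rv)]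
        · exact mul_le_mul_of_nonneg_right ((le_abs_self _).trans (ba.trans (pow (by omega))))
            (sq_nonneg _)
      have h4 : 1 ≤ B ^ (2 * d) * Pv ^ 2 := by
        have := one_le_pow₀ hP (n := 2)
        rwa [mul_pow, sq_abs, ← pow_mul, mul_comm d] at this
      have h5 : B ^ r * (B ^ (2 * A) * Rv ^ 2) ≤ B ^ (2 * A) := by
        have hR1 : |Rv| ≤ 1 :=
          (le_mul_of_one_le_left (abs_nonneg _) (one_le_pow₀ hB)).trans hcon.le
        have : B ^ r * Rv ^ 2 ≤ 1 := by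
          rw [← sq_abs, sq, ← mul_assoc]
          exact mul_le_one₀ hcon.le (abs_nonneg _) hR1
        calc B ^ r * (B ^ (2 * A) * Rv ^ 2) = B ^ (2 * A) * (B ^ r * Rv ^ 2) := by ring
          _ ≤ B ^ (2 * A) := mul_le_of_le_one_right (by positivity) this
      have h6 : B ^ r * (B ^ (2 * A) * |Rv|) ≤ B ^ (2 * A) := by
        calc B ^ r * (B ^ (2 * A) * |Rv|) = B ^ (2 * A) * (B ^ r * |Rv|) := by ring
          _ ≤ B ^ (2 * A) := mul_le_of_le_one_right (by positivity) hcon.le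
      have h7 := mul_le_mul_of_nonneg_left e (by positivity : (0 : ℝ) ≤ B ^ r)
      have h8 : B ^ r ≤ B ^ (2 * d) * (B ^ r * Pv ^ 2) := by
        rw [mul_left_comm]; exact le_mul_of_one_le_right (by positivity) h4
      have h9 : B ^ (2 * d) * (4 * B ^ (2 * A)) ≤ B ^ r := by
        refine le_trans ?_ (pow (by omega : 2 * d + 2 * A + 2 ≤ r))
        rw [pow_add, pow_add]
        nlinarith [mul_le_mul_of_nonneg_left (mul_le_mul h2 h2 (by norm_num) (by linarith))
          (by positivity : (0 : ℝ) ≤ B ^ (2 * d) * B ^ (2 * A))]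
      have h10 : B ^ r * Pv ^ 2 ≤ 3 * B ^ (2 * A) := by
        rw [mul_add, mul_add] at h7
        linarith [one_le_pow₀ hB (n := 2 * A)]
      nlinarith [mul_le_mul_of_nonneg_left h10 (by positivity : (0 : ℝ) ≤ B ^ (2 * d)),
        mul_pos (pow_pos (by linarith : (0 : ℝ) < B) (2 * d)) (pow_pos (by linarith : (0 : ℝ) < B) (2 * A))]
    · exact hR.trans (mul_le_mul_of_nonneg_right (pow (by omega)) (abs_nonneg _))
  -- at the perturbed map
  have hR1 := hCr r j.1 ((hsm.mono (by omega)).drift (by norm_num)) x hxd hR0 _ hτ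
  have hk1 : 1 ≤ B ^ (2 * (d + 1)) * |k1 one (slice P.var j 0) x| := by
    rw [mul_comm 2, pow_mul, hsl]
    refine one_le_k1 (by positivity) ((cBig_iff.1 hc).imp (fun h => ?_) (fun h => ?_))
    · exact hCp d j.1 ((hsm.mono (by omega)).drift (by norm_num)) x hxd h _ hτ
    · exact hCr d j.1 ((hsm.mono (by omega)).drift (by norm_num)) x hxd h _ hτ
  rw [← hsl] at hR1
  set F := slice P.var j 0
  have hq1 : B ^ (w + 4 * (r + 1) + 4) * |quad0 one F x| ≤ 2 := by
    set e := w + 4 * (r + 1) + 4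
    have h1 := hDq j.1 x hxd _ hτ
    rw [← hsl] at h1
    have h3 := (hsm.mono (show e + Dq ≤ _ by omega)).drift (n := 0) (by norm_num)
    have h4 := mul_le_mul_of_nonneg_left ((abs_sub_abs_le_abs_sub (quad0 one F x)
      (quad0 one (P.H j.1 0) x)).trans h1) (by positivity : (0 : ℝ) ≤ B ^ e)
    rw [mul_sub, ← mul_assoc, ← pow_add] at h4
    have h5 : B ^ e * |quad0 one (P.H j.1 0) x| ≤ 1 :=
      (mul_le_mul_of_nonneg_right (pow (by omega)) (abs_nonneg _)).trans hq
    norm_num at h3 h4 ⊢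
    linarith
  have hsum : 1 ≤ B ^ s * |cR one F x| * |a11 P.var (fun _ _ => 1) (respA11 P.var) (fun _ _ => 0) j x|
      + B ^ s * (2 * |cP one F x|) * |resp20 F x| := by
    set u := (detg F x)⁻¹
    have h4 : 1 ≤ B ^ (w + 4 * (r + 1)) * |u * cR one F x ^ 4| := by
      rw [abs_mul, abs_pow]
      refine (one_le_mul_of_one_le_of_one_le hdet (one_le_pow₀ hR1 (n := 4))).trans_eq ?_
      rw [mul_pow, ← pow_mul, pow_add, mul_comm (r + 1) 4]
      ring
    have h5 := abs_sub_abs_le_abs_sub (u * cR one F x ^ 4) (-(4 * quad0 one F x))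
    rw [abs_neg, sub_neg_eq_add, abs_mul (4 : ℝ), abs_of_pos (by norm_num : (0 : ℝ) < 4),
      add_comm (u * cR one F x ^ 4)] at h5
    have h6 : 1 ≤ B ^ (w + 4 * (r + 1) + 4) * |4 * quad0 one F x + u * cR one F x ^ 4| := by
      rw [pow_add _ _ 4] at hq1 ⊢
      have h8 : (16 : ℝ) ≤ B ^ 4 := le_trans (by norm_num) (pow_le_pow_left₀ (by norm_num) h2 4)
      nlinarith [mul_le_mul_of_nonneg_left h5
        (by positivity : (0 : ℝ) ≤ B ^ (w + 4 * (r + 1)) * B ^ 4),
        mul_le_mul h8 h4 zero_le_one (by positivity)]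
    have h7 := one_le_mul_of_one_le_of_one_le hiW h6
    have h9 : 1 ≤ B ^ s * |iW one F x * (4 * quad0 one F x + u * cR one F x ^ 4)| := by
      refine h7.trans ?_
      rw [abs_mul, show B ^ w * |iW one F x| * (B ^ (w + 4 * (r + 1) + 4) *
        |4 * quad0 one F x + u * cR one F x ^ 4|) = B ^ (w + (w + 4 * (r + 1) + 4)) *
        (|iW one F x| * |4 * quad0 one F x + u * cR one F x ^ 4|) by rw [pow_add]; ring]
      exact mul_le_mul_of_nonneg_right (pow (by omega)) (by positivity)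
    rw [← hid] at h9
    refine h9.trans ((mul_le_mul_of_nonneg_left (abs_add_le _ _) (by positivity)).trans_eq ?_)
    rw [abs_mul, abs_mul, abs_mul, abs_two]
    ring
  have hpk : ∀ m : ℕ, 1 ≤ B ^ (2 * (d + 1) * m) * |k1 one F x| ^ m := fun m => by
    rw [pow_mul, ← mul_pow]; exact one_le_pow₀ hk1
  have fin : ∀ {e : ℕ} {z : ℝ}, e ≤ Cp + Cr + Dq + C20 + D20 + 20 * t → 1 ≤ B ^ e * z → 0 ≤ z →
      1 ≤ B ^ (Cp + Cr + Dq + C20 + D20 + 20 * t) * z := fun he hz h0 =>
    hz.trans (mul_le_mul_of_nonneg_right (pow he) h0)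
  by_cases hsel : 1 ≤ B ^ t * |resp20 (P.H j.1 0) x|
  · rw [if_pos (by simpa using hsel), resp_a20]
    have h1 := hC20 t j.1 ((hsm.mono (by omega)).drift (by norm_num)) x hxd hsel _ hτ
    rw [← hsl] at h1
    refine fin (e := 2 * (d + 1) * (2 * k) + (t + 1))
      (by have := Nat.mul_le_mul_left (2 * (d + 1)) (show 2 * k ≤ 4 by omega); omega) ?_
      (abs_nonneg _)
    simp only [topC, abs_mul, abs_pow]
    refine (one_le_mul_of_one_le_of_one_le (hpk (2 * k)) h1).trans_eq ?_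
    rw [pow_add _ _ (t + 1)]
    ring
  · rw [if_neg (by simpa using hsel), resp_a20]
    have hz : B ^ (t - 2) * |resp20 F x| ≤ 1 := by
      have h1 := hD20 j.1 x hxd _ hτ
      rw [← hsl] at h1
      exact small_after h2 (by omega) h1 (not_le.1 hsel).le
        ((hsm.mono (show t + D20 ≤ _ by omega)).drift (n := 0) (by norm_num))
    exact fin (e := 8 * (d + 1) + (s + A + 1) + 1) (by omega)
      (cross_low h2 (by omega) (by omega) (bP.trans (pow (by omega))) (bR.trans (pow (by omega)))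
        (bk1.trans (pow (by omega))) (bk2.trans (pow (by omega))) hk hsum hk1 hz) (abs_nonneg _)

end

end Vale.Agent.P205.Generic
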