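import Vale.Agent.P205.Generic.Combine
import Vale.Agent.P205.Generic.RespLow
import Vale.Agent.P205.Generic.Smooth

/-!
Genericity: the climb of a regular family gives a lower bound of the criterion.
-/

namespace Vale.Agent.P205.Generic

open scoped ContDiff
open Set Metric Vale.Agent.P205.Algebra

noncomputable section

variable {ι : Type*} {p : ℕ} {P : Pert ι p} {G : ι → Set R2}
variable {lev N : ι → ℕ} {next : ι → (Fin p → ℝ) → ι}
variable {ζ μ A20 A11 B20 B11 : Dir ι p → R2 → ℝ}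

lemma Pert.Regular.smoothAll (hR : P.Regular) : P.SmoothAll := by
  obtain ⟨a, b, c, d, e, f, g, h, -⟩ := hR.smooth
  exact ⟨a, b, c, d, e, f, g, h⟩

/-- The climb ends with a lower bound of the criterion. -/
theorem Climb.exists_margin (hS : Setting P G ζ μ A20 A11 B20 B11)
    (hC : Climb P G lev N next) (hR : P.Regular)
    (hμ : ∃ d, MuLow P μ (fun i => {x ∈ G i | lev i ≠ 8}) d)
    (hDc : DcLow P G lev μ A20 A11 B20 B11) :
    ∃ K, ∀ i, lev i = 0 → K ≤ N i → ∃ i', Desc lev next i i' ∧ lev i' = 12 ∧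
      ∀ x ∈ G i, 1 ≤ P.big i' ^ K * criterion one (P.H i' 0) x := by
  obtain ⟨d, hd⟩ := hμ
  obtain ⟨_, _, hm⟩ := hS.top.mainMult_ex
  refine hS.exists_margin_aux hC hR.smoothAll hd (by norm_num : 5 + 2 ≤ 10) hm
    (fun i y hy P0 R0 => ?_) hDc
  have h0 : (0 : Fin p → ℝ) ∈ ball (0 : Fin p → ℝ) 5 := mem_ball_self (by norm_num)
  obtain ⟨hd0, hw0⟩ := (hR i).2 0 (by simp) y hy
  exact mainMult_eq_of_zero_at (P.isOpen i)
    (((hR i).1.comp (contDiffOn_const.prodMk contDiffOn_id)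
      (fun x hx => ⟨h0, hx⟩)).congr fun _ _ => rfl) hy hd0 hw0 P0 R0

lemma Pert.Regular.smooth_resp20 (hR : P.Regular) : P.Smooth resp20 := by
  have hF := framed_smooth hR
  have c := hF.toClosed
  have x := c.dx hF.base
  have y := c.dy hF.base
  have m11 : clsSmooth P ℝ fun _ F => g11 F := c.congr (c.inner x x) fun _ _ _ => rfl
  have m12 : clsSmooth P ℝ fun _ F => g12 F := c.congr (c.inner x y) fun _ _ _ => rfl
  have m22 : clsSmooth P ℝ fun _ F => g22 F := c.congr (c.inner y y) fun _ _ _ => rfl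
  have i := hF.idet (c.congr (c.sub (c.mul m11 m22) (c.sq m12)) fun _ _ _ => rfl)
  have hv1 : clsSmooth P V4 v1 :=
    c.congr (c.smul i (c.sub (c.smul m22 x) (c.smul m12 y))) fun _ _ _ => rfl
  have hv2 : clsSmooth P V4 v2 :=
    c.congr (c.smul i (c.sub (c.smul m11 y) (c.smul m12 x))) fun _ _ _ => rfl
  have f22 : clsSmooth P V4 fun _ F => F22 F := c.dy y
  have hn0 : clsSmooth P V4 Algebra.n0 := c.congr
    (c.sub (c.sub f22 (c.smul (c.inner f22 x) hv1)) (c.smul (c.inner f22 y) hv2))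
    fun _ _ _ => rfl
  have hw := hF.iW (c.congr (c.inner hn0 hn0) fun _ _ _ => rfl)
  have h := hF.inv0
  exact c.congr (Ψ := fun η F x => Algebra.iW η F x *
    (2 * Algebra.cP η F x + Algebra.cb η F x * Algebra.cR η F x))
    (c.mul hw (c.add (c.mul (c.const (2 : ℝ)) h.cP) (c.mul h.cb h.cR))) fun _ _ _ => rfl

/-- Variations with tiny effect on the metric: the climb of a regular family whose variations
hit every jet ends with a lower bound of the criterion. -/
theorem Resp.exists_margin (hP : Resp P.vscale P.var) (hT : ∃ L, P.Thick G L)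
    (hp : P.Presc (zeta P.var) G) (hC : Climb P G lev N next) (hR : P.Regular) :
    ∃ K, ∀ i, lev i = 0 → K ≤ N i → ∃ i', Desc lev next i i' ∧ lev i' = 12 ∧
      ∀ x ∈ G i, 1 ≤ P.big i' ^ K * criterion one (P.H i' 0) x := by
  obtain ⟨L, hL⟩ := hT
  obtain ⟨d, hd⟩ := hP.mu_low
  obtain ⟨a, b, -, -, -, -, -, -, q⟩ := hR.smooth
  exact Climb.exists_margin (hP.setting ⟨L, hL⟩ hp) hC hR
    ⟨d, fun j x hx => hd j x (hL.sub _ hx.1)⟩
    (hP.dc_low ⟨L, hL⟩ a b q hR.smooth_resp20 lev)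

end

end Vale.Agent.P205.Generic
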