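import Vale.Agent.P205.Generic.Top
import Vale.Agent.P205.Generic.Chain

/-!
Orders of the quantities of the multiplier chain: `chain k` has a `U_y` part of order `k` and a
`U` part of order `k + 1`; passing to a higher order kills the top coefficients.
-/

namespace Vale.Agent.P205.Generic

open scoped ContDiff RealInnerProductSpace
open Set Vale.Agent.P205.Algebra

noncomputable section

variable {ι : Type*} {S : VScale ι} {G : ι → Ext → V4} {ζ μ A20 A11 B20 B11 : ι → ℝ × ℝ → ℝ}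
variable {V : Type*} [NormedAddCommGroup V] [NormedSpace ℝ V]
variable {W : Type*} [NormedAddCommGroup W] [NormedSpace ℝ W]
variable {X : Type*} [NormedAddCommGroup X] [NormedSpace ℝ X]

/-- A functional of some order. -/
def Ex (S : VScale ι) (ζ : ι → ℝ × ℝ → ℝ) (G : ι → Ext → V4) (n : ℕ)
    (Φ : (R2 → V4) → R2 → V) : Prop :=
  ∃ A B, Exp S ζ n (lf G Φ) A B

/-- A functional of some order with zero top coefficients. -/
def Fl (S : VScale ι) (ζ : ι → ℝ × ℝ → ℝ) (G : ι → Ext → V4) (n : ℕ)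
    (Φ : (R2 → V4) → R2 → V) : Prop :=
  Flat S ζ n (lf G Φ)

/-- The determinant as a bilinear map. -/
def detL : R2 →L[ℝ] R2 →L[ℝ] ℝ :=
  (ContinuousLinearMap.mul ℝ ℝ).bilinearComp (ContinuousLinearMap.fst ℝ ℝ ℝ)
      (ContinuousLinearMap.snd ℝ ℝ ℝ)
    - (ContinuousLinearMap.mul ℝ ℝ).bilinearComp (ContinuousLinearMap.snd ℝ ℝ ℝ)
      (ContinuousLinearMap.fst ℝ ℝ ℝ)

lemma detL_apply (u v : R2) : detL u v = det2 u v := rfl

lemma Exp.det2 {n : ℕ} {U T : ι → Ext → R2} {u20 u11 t20 t11 : ι → ℝ × ℝ → R2}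
    (h : Exp S ζ n U u20 u11) (h' : Exp S ζ n T t20 t11) :
    Exp S ζ n (fun i q => P205.det2 (U i q) (T i q))
      (fun i p => P205.det2 (u20 i p) (base0 T i p)
        + P205.det2 (base0 U i p) (t20 i p))
      (fun i p => P205.det2 (u11 i p) (base0 T i p)
        + P205.det2 (base0 U i p) (t11 i p)) :=
  (h.bilin detL h').congr fun _ _ _ => rfl

namespace Top

variable (hR : Top S G ζ μ A20 A11 B20 B11)
include hR

lemma ex_dx {n : ℕ} {Φ : (R2 → V4) → R2 → V} {A B : ι → ℝ × ℝ → V}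
    (h : Exp S ζ n (lf G Φ) A B) :
    Exp S ζ (n + 1) (lf G fun F => Algebra.dx (Φ F)) A B :=
  (h.dx hR.zeta).congr fun i => lf_dx h.sm i

lemma ex_dy {n : ℕ} {Φ : (R2 → V4) → R2 → V} {A B : ι → ℝ × ℝ → V}
    (h : Exp S ζ n (lf G Φ) A B) :
    Exp S ζ (n + 1) (lf G fun F => Algebra.dy (Φ F)) (fun _ _ => 0) A :=
  (h.dy hR.zeta).congr fun i => lf_dy h.sm i

lemma lift_ex {n m : ℕ} {Φ : (R2 → V4) → R2 → V} (h : Ex S ζ G n Φ) (hnm : n < m) : Fl S ζ G m Φ :=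
  let ⟨_, _, h⟩ := h
  h.lift_le hR.zeta hnm

lemma le_ex {n m : ℕ} {Φ : (R2 → V4) → R2 → V} (h : Ex S ζ G n Φ) (hnm : n ≤ m) : Ex S ζ G m Φ := by
  rcases hnm.eq_or_lt with rfl | h'
  · exact h
  · exact ⟨_, _, hR.lift_ex h h'⟩

lemma le_fl {n m : ℕ} {Φ : (R2 → V4) → R2 → V} (h : Fl S ζ G n Φ) (hnm : n ≤ m) : Fl S ζ G m Φ := by
  rcases hnm.eq_or_lt with rfl | h'
  · exact h
  · exact hR.lift_ex ⟨_, _, h⟩ h'

end Top

section Closure

variable {n : ℕ}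

lemma Fl.ex {Φ : (R2 → V4) → R2 → V} (h : Fl S ζ G n Φ) : Ex S ζ G n Φ := ⟨_, _, h⟩

lemma Ex.add {Φ Ψ : (R2 → V4) → R2 → V} (a : Ex S ζ G n Φ) (b : Ex S ζ G n Ψ) :
    Ex S ζ G n fun F p => Φ F p + Ψ F p :=
  let ⟨_, _, a⟩ := a; let ⟨_, _, b⟩ := b; ⟨_, _, Exp.congr (a.add b) fun _ _ _ => rfl⟩

lemma Ex.sub {Φ Ψ : (R2 → V4) → R2 → V} (a : Ex S ζ G n Φ) (b : Ex S ζ G n Ψ) :
    Ex S ζ G n fun F p => Φ F p - Ψ F p :=
  let ⟨_, _, a⟩ := a; let ⟨_, _, b⟩ := b; ⟨_, _, Exp.congr (a.sub b) fun _ _ _ => rfl⟩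

lemma Ex.clm {Φ : (R2 → V4) → R2 → V} (a : Ex S ζ G n Φ) (L : V →L[ℝ] X) :
    Ex S ζ G n fun F p => L (Φ F p) :=
  let ⟨_, _, a⟩ := a; ⟨_, _, Exp.congr (a.clm L) fun _ _ _ => rfl⟩

lemma Ex.bilin {Φ : (R2 → V4) → R2 → V} {Ψ : (R2 → V4) → R2 → W} (L : V →L[ℝ] W →L[ℝ] X)
    (a : Ex S ζ G n Φ) (b : Ex S ζ G n Ψ) : Ex S ζ G n fun F p => L (Φ F p) (Ψ F p) :=
  let ⟨_, _, a⟩ := a; let ⟨_, _, b⟩ := b; ⟨_, _, Exp.congr (a.bilin L b) fun _ _ _ => rfl⟩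

lemma Ex.congr {Φ Ψ : (R2 → V4) → R2 → V} (a : Ex S ζ G n Φ) (h : ∀ F p, Ψ F p = Φ F p) :
    Ex S ζ G n Ψ :=
  let ⟨_, _, a⟩ := a; ⟨_, _, Exp.congr a fun _ _ _ => h _ _⟩

lemma Ex.mul {Φ Ψ : (R2 → V4) → R2 → ℝ} (a : Ex S ζ G n Φ) (b : Ex S ζ G n Ψ) :
    Ex S ζ G n fun F p => Φ F p * Ψ F p :=
  Ex.bilin (ContinuousLinearMap.mul ℝ ℝ) a b

lemma Ex.smul {Φ : (R2 → V4) → R2 → ℝ} {Ψ : (R2 → V4) → R2 → V} (a : Ex S ζ G n Φ)
    (b : Ex S ζ G n Ψ) : Ex S ζ G n fun F p => Φ F p • Ψ F p :=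
  Ex.bilin (ContinuousLinearMap.lsmul ℝ ℝ) a b

lemma Ex.det {Φ Ψ : (R2 → V4) → R2 → R2} (a : Ex S ζ G n Φ) (b : Ex S ζ G n Ψ) :
    Ex S ζ G n fun F p => det2 (Φ F p) (Ψ F p) :=
  Ex.bilin detL a b

lemma Ex.fst {Φ : (R2 → V4) → R2 → R2} (a : Ex S ζ G n Φ) : Ex S ζ G n fun F p => (Φ F p).1 :=
  a.clm (ContinuousLinearMap.fst ℝ ℝ ℝ)

lemma Ex.snd {Φ : (R2 → V4) → R2 → R2} (a : Ex S ζ G n Φ) : Ex S ζ G n fun F p => (Φ F p).2 :=
  a.clm (ContinuousLinearMap.snd ℝ ℝ ℝ)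

lemma Ex.neg {Φ : (R2 → V4) → R2 → V} (a : Ex S ζ G n Φ) : Ex S ζ G n fun F p => -Φ F p :=
  a.clm (-ContinuousLinearMap.id ℝ V)

lemma Ex.pair {Φ Ψ : (R2 → V4) → R2 → ℝ} (a : Ex S ζ G n Φ) (b : Ex S ζ G n Ψ) :
    Ex S ζ G n fun F p => (Φ F p, Ψ F p) :=
  ((a.clm (ContinuousLinearMap.inl ℝ ℝ ℝ)).add (b.clm (ContinuousLinearMap.inr ℝ ℝ ℝ))).congr
    fun _ _ => by simp

lemma Exp.pair {U T : ι → Ext → ℝ} {u20 u11 t20 t11 : ι → ℝ × ℝ → ℝ}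
    (h : Exp S ζ n U u20 u11) (h' : Exp S ζ n T t20 t11) :
    Exp S ζ n (fun i q => (U i q, T i q)) (fun i p => (u20 i p, t20 i p))
      (fun i p => (u11 i p, t11 i p)) :=
  (((h.clm (ContinuousLinearMap.inl ℝ ℝ ℝ)).add (h'.clm (ContinuousLinearMap.inr ℝ ℝ ℝ))).congr
    fun i q _ => by simp).coeff (fun i p _ => by simp) (fun i p _ => by simp)

end Closure

namespace Top

variable (hR : Top S G ζ μ A20 A11 B20 B11)
include hR

lemma cc_exp : Exp S ζ 0 (lf G (cc one)) (fun i p => (μ i p * iW one (slice G i 0) p, 0))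
    (fun i p => (0, 2 * μ i p * iW one (slice G i 0) p)) :=
  (Exp.pair hR.exp_cP hR.exp_cR).congr fun _ _ _ => rfl

lemma cc_ex : Ex S ζ G 0 (cc one) := ⟨_, _, hR.cc_exp⟩

lemma ca_ex : Ex S ζ G 0 (ca one) := ⟨_, _, hR.exp_ca⟩

lemma cb_ex : Ex S ζ G 0 (cb one) := ⟨_, _, hR.exp_cb⟩

lemma perp_ex : Ex S ζ G 0 (perp one) :=
  (Ex.pair (Ex.neg ⟨_, _, hR.exp_cR⟩) ⟨_, _, hR.exp_cP⟩).congr fun _ _ => rfl

lemma mulM_ex {n : ℕ} {U : (R2 → V4) → R2 → R2} (h : Ex S ζ G n U) :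
    Ex S ζ G n fun F => mulM one F (U F) :=
  (Ex.pair ((hR.le_ex hR.ca_ex n.zero_le).neg.mul h.snd)
    (h.fst.neg.sub ((hR.le_ex hR.cb_ex n.zero_le).mul h.snd))).congr fun _ _ => rfl

lemma k1_ex : Ex S ζ G 0 (k1 one) := (hR.perp_ex.det hR.cc_ex).congr fun _ _ => rfl

lemma k2_ex : Ex S ζ G 0 (k2 one) := ((hR.mulM_ex hR.perp_ex).det hR.cc_ex).congr fun _ _ => rfl

lemma N1_ex : Ex S ζ G 0 (N1 one) := by
  have a : Ex S ζ G 0 (G111 one) := hR.chris _ (by simp)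
  have b : Ex S ζ G 0 (G112 one) := hR.chris _ (by simp)
  have c : Ex S ζ G 0 (G122 one) := hR.chris _ (by simp)
  exact (Ex.pair (a.add (hR.ca_ex.mul c)).neg
    ((Ex.add (b.clm ((2 : ℝ) • ContinuousLinearMap.id ℝ ℝ))
      (hR.cb_ex.mul c)).neg)).congr fun F p => by simp [N1]

lemma N2_exp : Exp S ζ 1 (lf G (N2 one)) (fun _ _ => 0)
    (fun i p => (-A20 i p, -B20 i p)) := by
  have a : Ex S ζ G 0 (G211 one) := hR.chris _ (by simp)
  have b : Ex S ζ G 0 (G212 one) := hR.chris _ (by simp)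
  have c : Ex S ζ G 0 (G222 one) := hR.chris _ (by simp)
  have lift : ∀ {Φ : (R2 → V4) → R2 → ℝ}, Ex S ζ G 0 Φ → Fl S ζ G 1 Φ := fun h =>
    hR.lift_ex h zero_lt_one
  have x : Fl S ζ G 1 fun F p => -(G211 one F p + ca one F p * G222 one F p) :=
    lift (a.add (hR.ca_ex.mul c)).neg
  have y : Fl S ζ G 1 fun F p => -(2 * G212 one F p + cb one F p * G222 one F p) :=
    lift (((Ex.add (b.clm ((2 : ℝ) • ContinuousLinearMap.id ℝ ℝ))
      (hR.cb_ex.mul c)).neg).congr fun F p => by simp)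
  exact ((Exp.pair (Exp.sub x (hR.ex_dy hR.exp_ca)) (Exp.sub y (hR.ex_dy hR.exp_cb))).congr
    fun i q _ => by simp [lf, N2]).coeff (fun i p _ => by simp; rfl) (fun i p _ => by simp)

lemma N2_ex : Ex S ζ G 1 (N2 one) := ⟨_, _, hR.N2_exp⟩

lemma mulN_ex {n : ℕ} (hn : 1 ≤ n) {U : (R2 → V4) → R2 → R2} (h : Ex S ζ G n U) :
    Ex S ζ G n fun F => mulN one F (U F) :=
  ((h.fst.smul (hR.le_ex hR.N1_ex n.zero_le)).add
    (h.snd.smul (hR.le_ex hR.N2_ex hn))).congr fun _ _ => rfl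

lemma dcc_ex : Ex S ζ G 1 (fun F => Algebra.dy (cc one F)) := ⟨_, _, hR.ex_dy hR.cc_exp⟩

/-- The orders of the rows of the chain. -/
lemma chain_ex : ∀ k, Ex S ζ G (k + 1) (fun F => (chain one F k).u) ∧
    Ex S ζ G k (fun F => (chain one F k).v)
  | 0 => by
    refine ⟨((Ex.add ⟨_, _, hR.ex_dx hR.cc_exp⟩
      (hR.mulN_ex le_rfl (hR.le_ex hR.cc_ex zero_le_one))).congr fun _ _ => rfl),
      (hR.mulM_ex hR.cc_ex).congr fun _ _ => rfl⟩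
  | k + 1 => by
    obtain ⟨hu, hv⟩ := chain_ex k
    have z0 : ∀ {Φ : (R2 → V4) → R2 → ℝ}, Ex S ζ G 0 Φ → ∀ m, Ex S ζ G m Φ :=
      fun h m => hR.le_ex h m.zero_le
    have u' : Ex S ζ G (k + 1) fun F => (norm1 one F (chain one F k)).u :=
      (((z0 hR.k1_ex _).smul hu).sub (((hR.le_ex hR.perp_ex (k + 1).zero_le).det
        (hR.le_ex hv k.le_succ)).smul (hR.le_ex hR.dcc_ex (by omega)))).congr fun _ _ => rfl
    have v' : Ex S ζ G k fun F => (norm1 one F (chain one F k)).v :=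
      (((z0 hR.k1_ex _).smul hv).sub (((hR.le_ex hR.perp_ex k.zero_le).det hv).smul
        (hR.le_ex hR.cc_ex k.zero_le))).congr fun _ _ => rfl
    have dX : ∀ {n : ℕ} {Φ : (R2 → V4) → R2 → R2}, Ex S ζ G n Φ →
        Ex S ζ G (n + 1) fun F => Algebra.dx (Φ F) := fun h =>
      let ⟨_, _, h⟩ := h; ⟨_, _, hR.ex_dx h⟩
    have dY : ∀ {n : ℕ} {Φ : (R2 → V4) → R2 → R2}, Ex S ζ G n Φ →
        Ex S ζ G (n + 1) fun F => Algebra.dy (Φ F) := fun h =>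
      let ⟨_, _, h⟩ := h; ⟨_, _, hR.ex_dy h⟩
    have dyN1 : Ex S ζ G 1 fun F => Algebra.dy (N1 one F) := dY hR.N1_ex
    have dyN2 : Ex S ζ G 2 fun F => Algebra.dy (N2 one F) := dY hR.N2_ex
    have dca : Ex S ζ G 1 fun F => Algebra.dy (ca one F) := ⟨_, _, hR.ex_dy hR.exp_ca⟩
    have dcb : Ex S ζ G 1 fun F => Algebra.dy (cb one F) := ⟨_, _, hR.ex_dy hR.exp_cb⟩
    have vs : Ex S ζ G (k + 1) fun F => (norm1 one F (chain one F k)).v := hR.le_ex v' k.le_succ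
    have us : Ex S ζ G (k + 2) fun F => (norm1 one F (chain one F k)).u :=
      hR.le_ex u' (k + 1).le_succ
    have vss : Ex S ζ G (k + 2) fun F => (norm1 one F (chain one F k)).v := hR.le_ex v' (by omega)
    have q1 : Ex S ζ G 0 fun F p => det2 (perp one F p) (mulM one F (perp one F) p) :=
      hR.perp_ex.det (hR.mulM_ex hR.perp_ex)
    have dv : Ex S ζ G k fun F p => det2 ((chain one F k).v p) (cc one F p) :=
      hv.det (hR.le_ex hR.cc_ex k.zero_le)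
    have Xu : Ex S ζ G (k + 2) fun F => dXu one F (norm1 one F (chain one F k)) :=
      (((dX u').add (hR.mulN_ex (by omega) us)).add
        ((vss.fst.smul (hR.le_ex dyN1 (by omega))).add
          (vss.snd.smul (hR.le_ex dyN2 (by omega))))).congr fun _ _ => rfl
    have Xv : Ex S ζ G (k + 1) fun F => dXv one F (norm1 one F (chain one F k)) :=
      ((((hR.mulM_ex u').add (dX v')).add (hR.mulN_ex (by omega) vs)).add
        (Ex.pair ((hR.le_ex dca (by omega)).neg.mul vs.snd)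
          ((hR.le_ex dcb (by omega)).neg.mul vs.snd))).congr fun _ _ => rfl
    constructor
    · exact ((((z0 hR.k1_ex _).smul Xu).sub ((z0 hR.k2_ex _).smul (dY u'))).sub
        (((hR.le_ex dv (by omega)).mul (z0 q1 _)).smul
          (hR.le_ex (dY hR.dcc_ex) (by omega)))).congr fun _ _ => rfl
    · exact ((((z0 hR.k1_ex _).smul Xv).sub ((z0 hR.k2_ex _).smul (u'.add (dY v')))).sub
        (((hR.le_ex dv (by omega)).mul (z0 q1 _)).smul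
          ((hR.le_ex hR.dcc_ex (by omega)).clm
            ((2 : ℝ) • ContinuousLinearMap.id ℝ R2)))).congr fun F p => by
        simp [chain, Algebra.next, dYv]

end Top

end

end Vale.Agent.P205.Generic
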