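import Vale.Agent.P205.Generic.Rows

/-!
Prescribed jets: from exact jets at the parameter zero and a small drift along the parameter to
`Pert.Presc`; pointwise bounds of the derivatives of products.
-/

namespace Vale.Agent.P205.Generic

open scoped ContDiff RealInnerProductSpace
open Set Metric Vale.Agent.P205.Algebra

noncomputable section

section Leibniz

variable {V W X : Type*} [NormedAddCommGroup V] [NormedSpace ℝ V] [NormedAddCommGroup W]
  [NormedSpace ℝ W] [NormedAddCommGroup X] [NormedSpace ℝ X]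

/-- Derivatives of a bilinear product at a point. -/
lemma pd_bilin_le (L : V →L[ℝ] W →L[ℝ] X) {Ω : Set (ℝ × ℝ)} (hΩ : IsOpen Ω) {x : ℝ × ℝ}
    (hx : x ∈ Ω) {u : ℝ × ℝ → V} {v : ℝ × ℝ → W} (hu : ContDiffOn ℝ ∞ u Ω)
    (hv : ContDiffOn ℝ ∞ v Ω) (a b : ℕ) {K : ℝ}
    (h : ∀ c d, c ≤ a → d ≤ b → ‖pd c d u x‖ * ‖pd (a - c) (b - d) v x‖ ≤ K) :
    ‖(pd a b (fun q => L (u q) (v q)) x : X)‖ ≤ 2 ^ (a + b) * (‖L‖ * K) := by
  induction a generalizing u v K b with
  | zero =>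
    induction b generalizing u v K with
    | zero =>
      have := h 0 0 le_rfl le_rfl
      simp only [pd, Nat.sub_zero, Function.iterate_zero, id, Nat.add_zero, pow_zero,
        one_mul] at this ⊢
      refine (L.le_opNorm₂ _ _).trans ?_
      rw [mul_assoc]
      exact mul_le_mul_of_nonneg_left this (norm_nonneg L)
    | succ b ih =>
      have hu' := contDiffOn_dy hΩ hu
      have hv' := contDiffOn_dy hΩ hv
      rw [← pd_dy hΩ (contDiffOn_bilin L hu hv) 0 b hx, eqOn_pd hΩ (dy_bilin L hΩ hu hv) 0 b hx,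
        pd_add hΩ (contDiffOn_bilin L hu' hv) (contDiffOn_bilin L hu hv') 0 b hx, Pi.add_apply]
      have h1 := ih hu' hv (K := K) fun c d hc hd => by
        rw [pd_dy hΩ hu c d hx]
        simpa [Nat.succ_sub_succ] using h c (d + 1) hc (by omega)
      have h2 := ih hu hv' (K := K) fun c d hc hd => by
        rw [pd_dy hΩ hv _ _ hx, show b - d + 1 = b + 1 - d by omega]
        exact h c d hc (by omega)
      refine ((norm_add_le _ _).trans (add_le_add h1 h2)).trans_eq ?_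
      ring
  | succ a ih =>
    have hu' := contDiffOn_dx hΩ hu
    have hv' := contDiffOn_dx hΩ hv
    rw [← pd_dx, eqOn_pd hΩ (dx_bilin L hΩ hu hv) a b hx,
      pd_add hΩ (contDiffOn_bilin L hu' hv) (contDiffOn_bilin L hu hv') a b hx, Pi.add_apply]
    have h1 := ih (b := b) hu' hv (K := K) fun c d hc hd => by
      rw [pd_dx]
      simpa [Nat.succ_sub_succ] using h (c + 1) d (by omega) hd
    have h2 := ih (b := b) hu hv' (K := K) fun c d hc hd => by
      rw [pd_dx, show a - c + 1 = a + 1 - c by omega]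
      exact h c d (by omega) hd
    refine ((norm_add_le _ _).trans (add_le_add h1 h2)).trans_eq ?_
    ring

/-- Products of jets of the size of the powers of a frequency. -/
lemma pd_bilin_pow (L : V →L[ℝ] W →L[ℝ] X) {Ω : Set (ℝ × ℝ)} (hΩ : IsOpen Ω) {x : ℝ × ℝ}
    (hx : x ∈ Ω) {u : ℝ × ℝ → V} {v : ℝ × ℝ → W} (hu : ContDiffOn ℝ ∞ u Ω)
    (hv : ContDiffOn ℝ ∞ v Ω) (a b : ℕ) {A B F : ℝ} (hA : 0 ≤ A) (hF : 0 ≤ F)
    (h : ∀ c d, c ≤ a → d ≤ b → ‖pd c d u x‖ ≤ A * F ^ c)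
    (h' : ∀ c d, c ≤ a → d ≤ b → ‖pd c d v x‖ ≤ B * F ^ c) :
    ‖(pd a b (fun q => L (u q) (v q)) x : X)‖ ≤ 2 ^ (a + b) * ‖L‖ * (A * B) * F ^ a := by
  refine (pd_bilin_le L hΩ hx hu hv a b (K := A * B * F ^ a) fun c d hc hd => ?_).trans_eq (by ring)
  refine (mul_le_mul (h c d hc hd) (h' (a - c) (b - d) (by omega) (by omega)) (norm_nonneg _)
    (mul_nonneg hA (pow_nonneg hF c))).trans_eq ?_
  rw [mul_mul_mul_comm, ← pow_add, show c + (a - c) = a by omega]

end Leibniz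

variable {ι : Type*} {p : ℕ} {P : Pert ι p} {G : ι → Set R2} {ζ : Dir ι p → R2 → ℝ}

/-- From exact jets at the parameter zero and a small drift to prescribed jets. -/
theorem Pert.presc_of_jets {C D K : ℕ}
    (hjets : ∀ i, ∀ x ∈ G i, ∀ y : Fin 9 × Fin 3 → ℝ, P.big i ^ C * ‖y‖ ≤ 1 →
      ∃ w : closedBall (0 : Fin p → ℝ) 1, ∀ ab : Fin 9 × Fin 3,
        zj ζ ab.1 ab.2 (i, ⟨0, mem_closedBall_self (by norm_num)⟩, w) x =
          P.amp i * P.freq i ^ ((ab.1 : ℕ) + 1) * y ab)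
    (hdrift : ∀ i, ∀ x ∈ G i, ∀ τ w, ∀ a b, a ≤ 8 → b ≤ 2 →
      |zj ζ a b (i, τ, w) x - zj ζ a b (i, ⟨0, mem_closedBall_self (by norm_num)⟩, w) x| ≤
        P.big i ^ D * (P.amp i / P.freq i))
    (hN : ∀ i, ∀ x ∈ G i, P.big i ^ K ≤ P.freq i) (hK : C + D + 2 ≤ K) : P.Presc ζ G := by
  refine ⟨C + 1, fun a b s ha hb hs i x hx => ?_⟩
  have hB := P.toScale.one_le i
  have hB2 := P.two_le i
  have hA := P.amp_pos i
  have hM := P.one_le_freq i
  have hM0 : (0 : ℝ) < P.freq i := zero_lt_one.trans_le hM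
  set B := P.big i
  set A := P.amp i
  set M := P.freq i
  have hB0 : 0 < B := zero_lt_one.trans_le hB
  set y : Fin 9 × Fin 3 → ℝ := fun ab =>
    if (ab.1 : ℕ) = a ∧ (ab.2 : ℕ) = b then (M ^ s)⁻¹ * (B ^ C)⁻¹ else 0 with hy
  have hyn : B ^ C * ‖y‖ ≤ 1 := by
    rw [mul_comm, ← le_div_iff₀ (by positivity), one_div]
    refine (pi_norm_le_iff_of_nonneg (by positivity)).2 fun ab => ?_
    simp only [hy]
    split_ifs
    · rw [Real.norm_eq_abs, abs_of_nonneg (by positivity)]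
      exact mul_le_of_le_one_left (by positivity) (inv_le_one_of_one_le₀ (one_le_pow₀ hM))
    · simp; positivity
  obtain ⟨w, hw⟩ := hjets i x hx y hyn
  refine ⟨w, fun τ => ?_⟩
  have hd := fun a' b' (h1 : a' ≤ 8) (h2 : b' ≤ 2) => hdrift i x hx τ w a' b' h1 h2
  have hsmall : B ^ (C + 1) * (B ^ D * (A / M)) ≤ A / 2 := by
    have h1 : B ^ (C + 1) * B ^ D * 2 ≤ M := by
      refine le_trans ?_ ((pow_le_pow_right₀ hB hK).trans (hN i x hx))
      rw [show C + D + 2 = (C + 1) + D + 1 by omega, pow_succ B (C + 1 + D), pow_add B (C + 1) D]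
      exact mul_le_mul_of_nonneg_left hB2 (by positivity)
    rw [← mul_assoc, ← mul_div_assoc, div_le_div_iff₀ hM0 two_pos]
    calc B ^ (C + 1) * B ^ D * A * 2 = B ^ (C + 1) * B ^ D * 2 * A := by ring
      _ ≤ M * A := mul_le_mul_of_nonneg_right h1 hA.le
      _ = A * M := mul_comm _ _
  have hsmall0 : B ^ D * (A / M) ≤ A / 2 :=
    (le_mul_of_one_le_left (by positivity) (one_le_pow₀ hB)).trans hsmall
  have hpe : A * M ^ (a + 1) * ((M ^ s)⁻¹ * (B ^ C)⁻¹) = A * M ^ (a + 1 - s) * (B ^ C)⁻¹ := by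
    rw [pow_sub₀ M hM0.ne' (by omega)]; ring
  set E := A * M ^ (a + 1 - s)
  have hE : A ≤ E := le_mul_of_one_le_right hA.le (one_le_pow₀ hM)
  set z0 := zj ζ a b (i, ⟨0, mem_closedBall_self (by norm_num)⟩, w) x
  set z := zj ζ a b (i, τ, w) x
  have h0 : z0 = E * (B ^ C)⁻¹ := by
    have h := hw (⟨a, by omega⟩, ⟨b, by omega⟩)
    simp only [hy, and_self, if_true] at h
    exact h.trans hpe
  have hz : |z - z0| ≤ B ^ D * (A / M) := hd a b ha hb
  constructor
  · show E ≤ B ^ (C + 1) * |z|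
    have h1 : B ^ (C + 1) * |z0| = B * E := by
      rw [h0, abs_of_nonneg (by positivity), pow_succ]
      field_simp
    have h3 := mul_le_mul_of_nonneg_left ((abs_sub_abs_le_abs_sub z0 z).trans
      ((abs_sub_comm _ _).le.trans hz)) (by positivity : (0 : ℝ) ≤ B ^ (C + 1))
    rw [mul_sub, h1] at h3
    nlinarith
  · show |z| ≤ B ^ (C + 1) * E
    have h1 : |z0| ≤ E := by
      rw [h0, abs_of_nonneg (by positivity)]
      exact mul_le_of_le_one_right (by positivity) (inv_le_one_of_one_le₀ (one_le_pow₀ hB))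
    have h2 : 2 ≤ B ^ (C + 1) := hB2.trans (le_self_pow₀ hB (by omega))
    nlinarith [abs_sub_abs_le_abs_sub z z0]
  · intro a' b' ha' hb' hne
    show |zj ζ a' b' (i, τ, w) x| ≤ B ^ (C + 1) * A
    have h := hw (⟨a', by omega⟩, ⟨b', by omega⟩)
    have hne' : ¬ (a' = a ∧ b' = b) := fun e => hne (Prod.ext e.1 e.2)
    simp only [hy, if_neg hne', mul_zero] at h
    have h1 := hd a' b' ha' hb'
    rw [h, sub_zero] at h1
    exact h1.trans (hsmall0.trans ((half_le_self hA.le).trans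
      (le_mul_of_one_le_left hA.le (one_le_pow₀ hB))))

end

end Vale.Agent.P205.Generic
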