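import Vale.Agent.P205.Generic.Climb

/-!
Bookkeeping for the climb: lower bounds at states, their persistence along moves, and the output
of a stage as lower bounds at the next state.
-/

namespace Vale.Agent.P205.Generic

open scoped ContDiff
open Set Metric Vale.Agent.P205.Algebra

noncomputable section

variable {ι : Type*} {p : ℕ} {P : Pert ι p} {G : ι → Set R2}
variable {lev N : ι → ℕ} {next : ι → (Fin p → ℝ) → ι}

/-- `Φ` is at least an inverse power of the scale at the map of a state. -/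
def Big (P : Pert ι p) (Φ : (R2 → V4) → R2 → ℝ) (d : ℕ) (i : ι) (x : R2) : Prop :=
  1 ≤ P.big i ^ d * |Φ (P.H i 0) x|

/-- `(P, R)` is at least an inverse power of the scale at the map of a state. -/
def CBig (P : Pert ι p) (d : ℕ) (i : ι) (x : R2) : Prop :=
  1 ≤ P.big i ^ d * ‖cc one (P.H i 0) x‖

lemma Big.mono {Φ : (R2 → V4) → R2 → ℝ} {d d' : ℕ} {i : ι} {x : R2} (h : Big P Φ d i x)
    (hd : d ≤ d') : Big P Φ d' i x :=
  h.trans (mul_le_mul_of_nonneg_right (pow_le_pow_right₀ (P.toScale.one_le i) hd) (abs_nonneg _))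

lemma CBig.mono {d d' : ℕ} {i : ι} {x : R2} (h : CBig P d i x) (hd : d ≤ d') : CBig P d' i x :=
  h.trans (mul_le_mul_of_nonneg_right (pow_le_pow_right₀ (P.toScale.one_le i) hd) (norm_nonneg _))

lemma cBig_iff {d : ℕ} {i : ι} {x : R2} :
    CBig P d i x ↔ Big P (cP one) d i x ∨ Big P (cR one) d i x := by
  unfold CBig Big
  rw [show cc one (P.H i 0) x = (cP one (P.H i 0) x, cR one (P.H i 0) x) from rfl, Prod.norm_def,
    mul_max_of_nonneg _ _ (pow_nonneg (zero_le_one.trans (P.toScale.one_le i)) d), le_max_iff]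
  simp only [Real.norm_eq_abs]

lemma MuLow.mono {μ : Dir ι p → R2 → ℝ} {d d' : ℕ} (h : MuLow P μ G d) (hd : d ≤ d') :
    MuLow P μ G d' := fun j x hx =>
  (h j x hx).trans (mul_le_mul_of_nonneg_right
    (pow_le_pow_right₀ (P.toScale.one_le j.1) hd) (abs_nonneg _))

/-- A property reached at level `s` by every state of level zero with large `N`. -/
def Reach (P : Pert ι p) (G : ι → Set R2) (lev N : ι → ℕ) (next : ι → (Fin p → ℝ) → ι) (s : ℕ)
    (Q : ℕ → ι → R2 → Prop) : Prop :=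
  ∃ K d : ℕ, ∀ i, lev i = 0 → K ≤ N i → ∃ i', Desc lev next i i' ∧ lev i' = s ∧ N i ≤ N i' ∧
    G i ⊆ G i' ∧ ∀ x ∈ G i, Q d i' x

lemma Reach.start (P : Pert ι p) (G : ι → Set R2) (lev N : ι → ℕ)
    (next : ι → (Fin p → ℝ) → ι) : Reach P G lev N next 0 fun _ _ _ => True :=
  ⟨0, 0, fun i hi _ => ⟨i, Desc.refl i, hi, le_rfl, Subset.rfl, fun _ _ => trivial⟩⟩

lemma Reach.imp {s : ℕ} {Q Q' : ℕ → ι → R2 → Prop} (h : Reach P G lev N next s Q)
    (hQ : ∀ d, ∃ d', ∀ i, lev i = s → ∀ x ∈ G i, Q d i x → Q' d' i x) :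
    Reach P G lev N next s Q' := by
  obtain ⟨K, d, hK⟩ := h
  obtain ⟨d', hd'⟩ := hQ d
  refine ⟨K, d', fun i hi hN => ?_⟩
  obtain ⟨i', a, b, c, e, f⟩ := hK i hi hN
  exact ⟨i', a, b, c, e, fun x hx => hd' i' b x (e hx) (f x hx)⟩

variable (hC : Climb P G lev N next)
include hC

lemma Climb.big_le {i : ι} {τ : Fin p → ℝ} (hl : lev i < 12) (hτ : ‖τ‖ ≤ 1) :
    P.big i ≤ P.big (next i τ) := by
  rw [hC.big_next i τ hl hτ, le_div_iff₀ (P.amp_pos i)]
  exact (mul_le_of_le_one_right (zero_le_one.trans (P.toScale.one_le i)) (P.amp_le i)).trans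
    (le_mul_of_one_le_right (zero_le_one.trans (P.toScale.one_le i)) (P.one_le_freq i))

/-- One more stage. -/
lemma Climb.step {s : ℕ} {Q Q' : ℕ → ι → R2 → Prop} (h : Reach P G lev N next s Q) (hs : s < 12)
    (hQ : ∀ d, ∃ K d', ∀ i, lev i = s → P.Small K i → ∃ τ : Fin p → ℝ, ‖τ‖ ≤ 1 ∧
      ∀ x ∈ G i, Q d i x → Q' d' (next i τ) x) :
    Reach P G lev N next (s + 1) Q' := by
  obtain ⟨K, d, hK⟩ := h
  obtain ⟨K', d', hK'⟩ := hQ d
  refine ⟨max K K', d', fun i hi hN => ?_⟩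
  obtain ⟨i', a, b, c, e, f⟩ := hK i hi ((le_max_left _ _).trans hN)
  have hl : lev i' < 12 := b ▸ hs
  obtain ⟨τ, hτ, hx⟩ := hK' i' b
    ((hC.small i' hl).mono (((le_max_right _ _).trans hN).trans c))
  exact ⟨next i' τ, a.move hl hτ, by rw [hC.lev_next i' τ hl hτ, b],
    c.trans (hC.N_next i' τ hl hτ), e.trans (hC.G_next i' τ hl hτ),
    fun x hxG => hx x (e hxG) (f x hxG)⟩

/-- The result of a stage. -/
lemma Climb.avoid {i : ι} {K : ℕ} {Γ : Set R2} {Φ : Fin 3 → (R2 → V4) → R2 → ℝ}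
    (hl : lev i < 12) (h : P.Avoids K i Γ Φ) :
    ∃ τ : Fin p → ℝ, ‖τ‖ ≤ 1 ∧ ∀ x ∈ Γ, ∃ l, Big P (Φ l) K (next i τ) x := by
  obtain ⟨τ, hτ, h⟩ := h
  refine ⟨τ, hτ, fun x hx => ?_⟩
  have h1 := h x hx
  have hb : 0 ≤ (P.big i * P.freq i / P.amp i) ^ K := by
    have := P.amp_pos i; have := P.one_le_freq i; have := P.toScale.one_le i
    positivity
  by_contra hc
  push Not at hc
  simp only [Big, hC.H_next i τ hl hτ, hC.big_next i τ hl hτ] at hc
  have hp : 0 < (P.big i * P.freq i / P.amp i) ^ K := lt_of_le_of_ne hb fun h0 => by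
    rw [← h0, zero_mul] at h1; linarith
  have h2 : ‖fun l => Φ l (P.H i τ) x‖ < ((P.big i * P.freq i / P.amp i) ^ K)⁻¹ :=
    (pi_norm_lt_iff (inv_pos.2 hp)).2 fun l => by
      rw [Real.norm_eq_abs, ← mul_one ((P.big i * P.freq i / P.amp i) ^ K)⁻¹,
        lt_inv_mul_iff₀ hp]
      exact not_le.1 (hc l)
  have h3 := mul_lt_mul_of_pos_left h2 hp
  rw [mul_inv_cancel₀ hp.ne'] at h3
  linarith

variable {ζ μ A20 A11 B20 B11 : Dir ι p → R2 → ℝ}

/-- Lower bounds persist along a move. -/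
lemma Climb.keep (hS : Setting P G ζ μ A20 A11 B20 B11) {Φ : (R2 → V4) → R2 → ℝ}
    (hs : P.Smooth Φ) {n : ℕ} (hn : n + 2 ≤ 10) {c20 c11 : Dir ι p → R2 → ℝ}
    (h : Exp P.vscale ζ n (lf P.var Φ) c20 c11) (d : ℕ) :
    ∃ C, ∀ i τ, lev i < 12 → ‖τ‖ ≤ 1 → P.Small C i → ∀ x ∈ G i,
      Big P Φ d i x → Big P Φ (d + 1) (next i τ) x := by
  obtain ⟨C, hC'⟩ := Pert.drift_lower hs hS.top.zeta h
  obtain ⟨L, hL⟩ := hS.thick
  refine ⟨C + d, fun i τ hl hτ hsm x hx hb => ?_⟩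
  have h1 := hC' d i (hsm.drift hn) x (hL.sub i hx) hb τ (hτ.trans (by norm_num))
  rw [Big, hC.H_next i τ hl hτ]
  exact h1.trans (mul_le_mul_of_nonneg_right (pow_le_pow_left₀
    (zero_le_one.trans (P.toScale.one_le i)) (hC.big_le hl hτ) _) (abs_nonneg _))

/-- The lower bound of `(P, R)` persists along a move. -/
lemma Climb.keep_c (hS : Setting P G ζ μ A20 A11 B20 B11) (hP : P.Smooth (cP one))
    (hR : P.Smooth (cR one)) (d : ℕ) :
    ∃ C, ∀ i τ, lev i < 12 → ‖τ‖ ≤ 1 → P.Small C i → ∀ x ∈ G i,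
      CBig P d i x → CBig P (d + 1) (next i τ) x := by
  obtain ⟨a, ha⟩ := hC.keep hS hP (by norm_num) hS.top.exp_cP d
  obtain ⟨b, hb⟩ := hC.keep hS hR (by norm_num) hS.top.exp_cR d
  refine ⟨max a b, fun i τ hl hτ hsm x hx hc => cBig_iff.2 ?_⟩
  exact (cBig_iff.1 hc).imp (ha i τ hl hτ (hsm.mono (le_max_left _ _)) x hx)
    (hb i τ hl hτ (hsm.mono (le_max_right _ _)) x hx)

end

end Vale.Agent.P205.Generic
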