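import Vale.Agent.P205.Generic.Jet2

/-!
The top order coefficients of the variations of `P, R, a, b` and of the Christoffel symbols.
-/

namespace Vale.Agent.P205.Generic

open scoped ContDiff RealInnerProductSpace
open Set Vale.Agent.P205.Algebra

noncomputable section

variable {ι : Type*} {S : VScale ι} {G : ι → Ext → V4}
variable {V : Type*} [NormedAddCommGroup V] [NormedSpace ℝ V]

lemma var1_inner {U T : ι → Ext → V4} (hU : Sm S U) (hT : Sm S T) (i : ι) :
    EqOn (var1 (fun i q => ⟪U i q, T i q⟫) i)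
      (fun p => ⟪var1 U i p, base0 T i p⟫ + ⟪base0 U i p, var1 T i p⟫) (S.dom i) :=
  fun _ hp => var1_bilin (innerSL ℝ : V4 →L[ℝ] V4 →L[ℝ] ℝ) hU hT i hp

lemma var1_congr {U T : ι → Ext → V} (h : ∀ i, EqOn (U i) (T i) (S.win i)) (i : ι) :
    EqOn (var1 U i) (var1 T i) (S.dom i) := fun p hp => by
  simp only [var1, (Filter.eventuallyEq_of_mem ((S.win_open i).mem_nhds (S.mem_win i p hp))
    (h i)).fderiv_eq]

lemma var1_dxx {U : ι → Ext → V} (hU : Sm S U) (i : ι) :
    EqOn (var1 (lX (lX U)) i) (Generic.dx (Generic.dx (var1 U i))) (S.dom i) := fun _ hp =>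
  (var1_lX hU.lX i hp).trans (eqOn_dx (S.isOpen i) (var1_lX hU i) hp)

lemma var1_dyy {U : ι → Ext → V} (hU : Sm S U) (i : ι) :
    EqOn (var1 (lY (lY U)) i) (Generic.dy (Generic.dy (var1 U i))) (S.dom i) := fun _ hp =>
  (var1_lY hU.lY i hp).trans (eqOn_dy (S.isOpen i) (var1_lY hU i) hp)

lemma var1_dxy {U : ι → Ext → V} (hU : Sm S U) (i : ι) :
    EqOn (var1 (lY (lX U)) i) (Generic.dy (Generic.dx (var1 U i))) (S.dom i) := fun _ hp =>
  (var1_lY hU.lX i hp).trans (eqOn_dy (S.isOpen i) (var1_lX hU i) hp)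

section Classes

variable {n : ℕ} {u : ι → ℝ × ℝ → ℝ} {f g : ι → ℝ × ℝ → V4}

lemma O.sub {a b : ι → ℝ × ℝ → V} (ha : O S n a) (hb : O S n b) :
    O S n (fun i p => a i p - b i p) :=
  (ha.add (hb.clm (-ContinuousLinearMap.id ℝ V))).congr fun i p _ => by simp [sub_eq_add_neg]

lemma O.inner_base (hf : O S n f) (hg : BaseBd S g) : O S n fun i p => ⟪f i p, g i p⟫ :=
  O.bilin_base (innerSL ℝ : V4 →L[ℝ] V4 →L[ℝ] ℝ) hf hg

lemma O.base_inner (hf : BaseBd S f) (hg : O S n g) : O S n fun i p => ⟪f i p, g i p⟫ :=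
  O.base_bilin (innerSL ℝ : V4 →L[ℝ] V4 →L[ℝ] ℝ) hf hg

lemma O.smul_base {a : ι → ℝ × ℝ → V} (hu : O S n u) (ha : BaseBd S a) :
    O S n fun i p => u i p • a i p :=
  O.bilin_base (ContinuousLinearMap.lsmul ℝ ℝ) hu ha

lemma O.mul_base {v : ι → ℝ × ℝ → ℝ} (hu : O S n u) (hv : BaseBd S v) :
    O S n fun i p => u i p * v i p :=
  O.bilin_base (ContinuousLinearMap.mul ℝ ℝ) hu hv

lemma BaseBd.mul {a b : ι → ℝ × ℝ → ℝ} (ha : BaseBd S a) (hb : BaseBd S b) :
    BaseBd S fun i p => a i p * b i p :=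
  ha.bilin (ContinuousLinearMap.mul ℝ ℝ) hb

lemma BaseBd.inner (hf : BaseBd S f) (hg : BaseBd S g) : BaseBd S fun i p => ⟪f i p, g i p⟫ :=
  hf.bilin (innerSL ℝ : V4 →L[ℝ] V4 →L[ℝ] ℝ) hg

variable {t : ι → ℝ × ℝ → V}

lemma Tiny.toO (ht : Tiny S t) : O S 0 t :=
  Bd.mono (fun i => mul_nonneg (S.amp_nonneg i) (by have := S.freq_nonneg i; positivity))
    S.freq_nonneg (fun _ => le_rfl) (k := 0) (fun i => by
      simp only [pow_zero, one_mul, mul_one]
      exact mul_le_of_le_one_right (S.amp_nonneg i)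
        (inv_le_one_of_one_le₀ (one_le_pow₀ (S.one_le_freq i)))) ht

lemma Tiny.dy (ht : Tiny S t) : Tiny S fun i => Generic.dy (t i) := Bd.dy ht

lemma Tiny.dxO (ht : Tiny S t) : O S 0 fun i => Generic.dx (t i) :=
  Bd.mono (fun i => mul_nonneg (mul_nonneg (S.amp_nonneg i)
      (by have := S.freq_nonneg i; positivity)) (S.freq_nonneg i))
    S.freq_nonneg (fun _ => le_rfl) (k := 0) (fun i => by
      simp only [pow_zero, one_mul, mul_one]
      rw [mul_assoc]
      refine mul_le_of_le_one_right (S.amp_nonneg i) ?_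
      have h1 := S.one_le_freq i
      rw [inv_mul_eq_div, div_le_one (by positivity)]
      exact le_self_pow₀ h1 two_ne_zero) (Bd.dx ht)

lemma Tiny.dxxO (ht : Tiny S t) : O S 0 fun i => Generic.dx (Generic.dx (t i)) :=
  Bd.mono (fun i => by
      have := S.freq_nonneg i; have := S.amp_nonneg i; positivity)
    S.freq_nonneg (fun _ => le_rfl) (k := 0) (fun i => by
      simp only [pow_zero, one_mul, mul_one]
      have h1 := S.one_le_freq i
      have h0 : S.freq i ≠ 0 := by linarith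
      exact le_of_eq (by field_simp)) (Bd.dx (Bd.dx ht))

/-- With zero scalar variation, zero top coefficients mean order `n`. -/
lemma Flat.var_of_zero {U : ι → Ext → V} (h : Flat S (fun _ _ => 0) n U) : O S n (var1 U) := by
  obtain ⟨c10, -, hO⟩ := h.expand
  refine hO.congr fun i p _ => ?_
  have hz : ∀ a b, zj (fun (_ : ι) (_ : ℝ × ℝ) => (0 : ℝ)) a b i p = 0 := fun a b => by
    have hx : Generic.dx (fun _ : ℝ × ℝ => (0 : ℝ)) = fun _ => 0 := by ext; simp [Generic.dx]
    have hy : Generic.dy (fun _ : ℝ × ℝ => (0 : ℝ)) = fun _ => 0 := by ext; simp [Generic.dy]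
    simp [zj, pd, Function.iterate_fixed hx a, Function.iterate_fixed hy b]
  simp [hz]

end Classes

namespace Resp

variable (hR : Resp S G)
include hR

lemma var_lX : O S 1 (var1 (lX G)) := hR.var.dx.congr fun i => var1_lX hR.sm i

lemma var_lY : O S 0 (var1 (lY G)) := hR.var.dy.congr fun i => var1_lY hR.sm i

lemma var_lYY : O S 0 (var1 (lY (lY G))) := hR.var.dy.dy.congr fun i => var1_dyy hR.sm i

lemma base_lX : BaseBd S (base0 (lX G)) := hR.base.dx.congr fun i => base0_lX hR.sm i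

lemma base_lY : BaseBd S (base0 (lY G)) := hR.base.dy.congr fun i => base0_lY hR.sm i

lemma base_lYY : BaseBd S (base0 (lY (lY G))) :=
  hR.base_lY.dy.congr fun i => base0_lY hR.sm.lY i

lemma frame1 : FrameFlat S (fun _ _ => 0) 1 G :=
  hR.frameFlat (Exp.of_O hR.sm.lX hR.base_lX hR.var_lX)
    (Exp.of_O hR.sm.lY hR.base_lY (hR.var_lY.mono zero_le_one))
    (Exp.of_O hR.sm.lY.lY hR.base_lYY (hR.var_lYY.mono zero_le_one))

lemma zeta_O : O S 1 (zeta G) :=
  O.base_inner hR.frame1.n1.base hR.var.dx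

/-- The direction of the response. -/
lemma base_N : BaseBd S fun i p =>
    (iW one (slice G i 0) p * (detg (slice G i 0) p)⁻¹) • n1 one (slice G i 0) p :=
  (BaseBd.mul hR.frame1.iW.base hR.frame1.idet.base).bilin (ContinuousLinearMap.lsmul ℝ ℝ)
    hR.frame1.n1.base

lemma pair_x : O S 0 fun i p =>
    ⟪Algebra.dx (slice G i 0) p, var1 (lX G) i p⟫ :=
  (hR.m11.toO.clm ((2 : ℝ)⁻¹ • ContinuousLinearMap.id ℝ ℝ)).congr fun i p hp => by
    have e := var1_inner hR.sm.lX hR.sm.lX i hp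
    have j : Algebra.dx (slice G i 0) p = base0 (lX G) i p := hR.j1 i (S.mem_win i p hp)
    simp only [e, j, real_inner_comm (var1 (lX G) i p)]
    simp
    ring

lemma pair_y : O S 0 fun i p =>
    ⟪Algebra.dy (slice G i 0) p, var1 (lX G) i p⟫ :=
  (hR.m12.toO.sub (O.base_inner hR.base_lX hR.var_lY)).congr fun i p hp => by
    have e := var1_inner hR.sm.lX hR.sm.lY i hp
    have j : Algebra.dy (slice G i 0) p = base0 (lY G) i p := hR.j2 i (S.mem_win i p hp)
    simp only [e, j, real_inner_comm (var1 (lX G) i p)]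
    ring

lemma pair_yy : O S 0 fun i p =>
    ⟪F22 (slice G i 0) p, var1 (lX G) i p⟫ := by
  have t1 : O S 0 (var1 (lY fun i q => ⟪lX G i q, lY G i q⟫)) :=
    hR.m12.dy.toO.congr fun i => var1_lY (hR.sm.lX.bilin (innerSL ℝ) hR.sm.lY) i
  have t2 : O S 0 (var1 (lX fun i q => ⟪lY G i q, lY G i q⟫)) :=
    hR.m22.dxO.congr fun i => var1_lX (hR.sm.lY.bilin (innerSL ℝ) hR.sm.lY) i
  have key : ∀ i, EqOn (fun q => ⟪lX G i q, lY (lY G) i q⟫)
      (fun q => lY (fun i q => ⟪lX G i q, lY G i q⟫) i q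
        + (-(1 / 2) : ℝ) * lX (fun i q => ⟪lY G i q, lY G i q⟫) i q) (S.win i) := fun i q hq => by
    simp only [lY_inner hR.sm.lX hR.sm.lY i hq, lX_inner hR.sm.lY hR.sm.lY i hq,
      lX_lY_comm hR.sm i hq, real_inner_comm (lY G i q)]
    ring
  have ka : O S 0 (var1 fun i q => ⟪lX G i q, lY (lY G) i q⟫) :=
    (t1.add (t2.clm ((-(1 / 2) : ℝ) • ContinuousLinearMap.id ℝ ℝ))).congr fun i p hp => by
      rw [var1_congr key i hp]
      have s1 : Sm S (lY fun i q => ⟪lX G i q, lY G i q⟫) :=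
        (hR.sm.lX.bilin (innerSL ℝ) hR.sm.lY).lY
      have s2 : Sm S (lX fun i q => ⟪lY G i q, lY G i q⟫) :=
        (hR.sm.lY.bilin (innerSL ℝ) hR.sm.lY).lX
      have s3 : Sm S fun i q => (-(1 / 2) : ℝ) * lX (fun i q => ⟪lY G i q, lY G i q⟫) i q :=
        fun i => contDiffOn_const.mul (s2 i)
      rw [var1_add s1 s3 i hp]
      simp only [Pi.add_apply, smul_apply, ContinuousLinearMap.id_apply, smul_eq_mul]
      congr 1
      simp only [var1]
      rw [fderiv_const_mul ((s2.at i hp).differentiableAt (by simp))]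
      rfl
  refine (ka.sub (O.base_inner hR.base_lX hR.var_lYY)).congr fun i p hp => ?_
  have j : F22 (slice G i 0) p = base0 (lY (lY G)) i p := hR.j22 i (S.mem_win i p hp)
  simp only [var1_inner hR.sm.lX hR.sm.lY.lY i hp, j, real_inner_comm (var1 (lX G) i p)]
  ring

/-- The variation of the first derivative is `ζ N` up to order zero. -/
lemma var_lX_eq : O S 0 fun i p => var1 (lX G) i p - zeta G i p •
    ((iW one (slice G i 0) p * (detg (slice G i 0) p)⁻¹) • n1 one (slice G i 0) p) := by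
  have hF := hR.frame1
  have g22b : BaseBd S fun i p => g22 (slice G i 0) p :=
    (BaseBd.inner hF.fy.base hF.fy.base).congr fun _ _ _ => rfl
  have g12b : BaseBd S fun i p => g12 (slice G i 0) p := hF.g12.base
  have g11b : BaseBd S fun i p => g11 (slice G i 0) p :=
    (BaseBd.inner hF.fx.base hF.fx.base).congr fun _ _ _ => rfl
  have d : BaseBd S fun i p => (detg (slice G i 0) p)⁻¹ := hF.idet.base
  have a1 : O S 0 fun i p => ⟪v1 one (slice G i 0) p, var1 (lX G) i p⟫ :=
    (((hR.pair_x.mul_base g22b).sub (hR.pair_y.mul_base g12b)).mul_base d).congr fun i p _ => by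
      simp [v1, inner_smul_left, inner_sub_left]; ring
  have a2 : O S 0 fun i p => ⟪v2 one (slice G i 0) p, var1 (lX G) i p⟫ :=
    (((hR.pair_y.mul_base g11b).sub (hR.pair_x.mul_base g12b)).mul_base d).congr fun i p _ => by
      simp [v2, inner_smul_left, inner_sub_left]; ring
  have a0 : O S 0 fun i p => ⟪n0 one (slice G i 0) p, var1 (lX G) i p⟫ :=
    ((hR.pair_yy.sub (a1.mul_base (BaseBd.inner hF.fyy.base hF.fx.base))).sub
      (a2.mul_base (BaseBd.inner hF.fyy.base hF.fy.base))).congr fun i p _ => by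
      show ⟪n0 one (slice G i 0) p, var1 (lX G) i p⟫ = ⟪F22 (slice G i 0) p, var1 (lX G) i p⟫
        - ⟪v1 one (slice G i 0) p, var1 (lX G) i p⟫
          * ⟪F22 (slice G i 0) p, Algebra.dx (slice G i 0) p⟫
        - ⟪v2 one (slice G i 0) p, var1 (lX G) i p⟫
          * ⟪F22 (slice G i 0) p, Algebra.dy (slice G i 0) p⟫
      simp [n0, inner_sub_left, inner_smul_left]
      ring
  refine (((hR.pair_x.smul_base hF.v1.base).add (hR.pair_y.smul_base hF.v2.base)).add
    ((a0.mul_base hF.iW.base).smul_base hF.n0.base)).congr fun i p hp => ?_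
  have hq := S.mem_win i p hp
  have e := frame_eq (hR.detg_ne i _ hq) (hR.W_ne i _ hq) (var1 (lX G) i p)
  simp only [Pi.add_apply, base0, lf] at e ⊢
  conv_lhs => rw [e]
  rw [zeta, ← var1_lX hR.sm i hp, smul_smul, add_sub_cancel_right]

end Resp

end

end Vale.Agent.P205.Generic
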