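import Vale.Agent.P205.Generic.Dominant
import Vale.Agent.P205.Generic.Lift

/-!
One stage of genericity: three functionals along a family of maps with parameters `τ ∈ ℝ^p`.
If at every point three directions move them with a dominant diagonal in the units `A M ^ e l`
(`A` amplitude, `M` frequency), then some parameter keeps them off zero by a power of `Λ M / A`,
as soon as `M` beats a fixed power of the scale `Λ`.
-/

namespace Vale.Agent.P205.Generic

open scoped ContDiff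
open Set Metric Vale.Agent.P205.Algebra

noncomputable section

variable {ι : Type*} {p : ℕ}

/-- The data of a stage: scale, amplitude, frequency and the perturbed maps. -/
structure Pert (ι : Type*) (p : ℕ) extends Scale ι where
  /-- amplitude -/
  amp : ι → ℝ
  /-- frequency -/
  freq : ι → ℝ
  /-- the maps -/
  H : ι → (Fin p → ℝ) → R2 → V4
  amp_pos : ∀ i, 0 < amp i
  amp_le : ∀ i, amp i ≤ 1
  one_le_freq : ∀ i, 1 ≤ freq i

/-- Index, parameter and direction. -/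
abbrev Dir (ι : Type*) (p : ℕ) :=
  ι × closedBall (0 : Fin p → ℝ) 3 × closedBall (0 : Fin p → ℝ) 1

/-- The scale of the variations along all parameters and directions. -/
def Pert.vscale (P : Pert ι p) : VScale (Dir ι p) where
  dom j := P.dom j.1
  big j := P.big j.1
  isOpen j := P.isOpen j.1
  two_le j := P.two_le j.1
  win j := ball (0 : ℝ) 1 ×ˢ P.dom j.1
  amp j := P.amp j.1
  freq j := P.freq j.1
  win_open j := isOpen_ball.prod (P.isOpen j.1)
  mem_win _ _ hx := ⟨mem_ball_self one_pos, hx⟩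
  amp_nonneg j := (P.amp_pos j.1).le
  one_le_freq j := P.one_le_freq j.1

/-- The variations along all parameters and directions. -/
def Pert.var (P : Pert ι p) (j : Dir ι p) (q : Ext) : V4 :=
  P.H j.1 (j.2.1 + q.1 • (j.2.2 : Fin p → ℝ)) q.2

/-- A functional is smooth in parameter and point. -/
def Pert.Smooth (P : Pert ι p) (Φ : (R2 → V4) → R2 → ℝ) : Prop :=
  ∀ i, ContDiffOn ℝ ∞ (fun z : (Fin p → ℝ) × R2 => Φ (P.H i z.1) z.2)
    (ball (0 : Fin p → ℝ) 5 ×ˢ P.dom i)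

variable {P : Pert ι p} {Φ : (R2 → V4) → R2 → ℝ}

lemma Pert.lf_var (j : Dir ι p) (s : ℝ) (x : R2) :
    lf P.var Φ j (s, x) = Φ (P.H j.1 (j.2.1 + s • (j.2.2 : Fin p → ℝ))) x := rfl

lemma Pert.base0_var (j : Dir ι p) (x : R2) :
    base0 (lf P.var Φ) j x = Φ (P.H j.1 j.2.1) x := by
  show lf P.var Φ j (0, x) = _
  rw [Pert.lf_var, zero_smul, add_zero]

lemma Pert.hasFDerivAt (h : P.Smooth Φ) (i : ι) {τ : Fin p → ℝ} (hτ : ‖τ‖ ≤ 3) {x : R2}
    (hx : x ∈ P.dom i) : HasFDerivAt (fun τ => Φ (P.H i τ) x)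
      ((fderiv ℝ (fun z : (Fin p → ℝ) × R2 => Φ (P.H i z.1) z.2) (τ, x)).comp
        (ContinuousLinearMap.inl ℝ (Fin p → ℝ) R2)) τ :=
  (((h i).contDiffAt ((isOpen_ball.prod (P.isOpen i)).mem_nhds
    ⟨by simp; linarith, hx⟩)).differentiableAt (by simp)).hasFDerivAt.comp τ
    (hasFDerivAt_prodMk_left τ x)

/-- The variation along a direction is the derivative in the parameter. -/
lemma Pert.fderiv_eq_var1 (h : P.Smooth Φ) (i : ι) (τ : closedBall (0 : Fin p → ℝ) 3)
    (w : closedBall (0 : Fin p → ℝ) 1) {x : R2} (hx : x ∈ P.dom i) :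
    fderiv ℝ (fun τ => Φ (P.H i τ) x) τ w = var1 (lf P.var Φ) (i, τ, w) x := by
  have hd : DifferentiableAt ℝ (lf P.var Φ (i, τ, w)) ((0 : ℝ), x) := by
    refine ((h i).contDiffAt ((isOpen_ball.prod (P.isOpen i)).mem_nhds ⟨?_, hx⟩)).differentiableAt
      (by simp) |>.comp ((0 : ℝ), x) (f := fun q : Ext =>
        ((τ : Fin p → ℝ) + q.1 • (w : Fin p → ℝ), q.2)) (by fun_prop)
    have := mem_closedBall_zero_iff.mp τ.2
    simp
    linarith
  have hτ := mem_closedBall_zero_iff.mp τ.2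
  have hl : HasFDerivAt (fun s : ℝ => (τ : Fin p → ℝ) + s • (w : Fin p → ℝ))
      ((ContinuousLinearMap.id ℝ ℝ).smulRight (w : Fin p → ℝ)) 0 :=
    ((hasFDerivAt_id (0 : ℝ)).smul_const _).const_add _
  have e1 := (Pert.hasFDerivAt h i hτ hx).fderiv
  have h1 : HasFDerivAt (fun s => lf P.var Φ (i, τ, w) (s, x))
      (((fderiv ℝ (fun z : (Fin p → ℝ) × R2 => Φ (P.H i z.1) z.2) ((τ : Fin p → ℝ), x)).comp
        (ContinuousLinearMap.inl ℝ (Fin p → ℝ) R2)).comp
          ((ContinuousLinearMap.id ℝ ℝ).smulRight (w : Fin p → ℝ))) 0 := by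
    have := Pert.hasFDerivAt h i hτ hx
    rw [show (τ : Fin p → ℝ) = (τ : Fin p → ℝ) + (0 : ℝ) • (w : Fin p → ℝ) by simp] at this
    simpa [Function.comp_def, Pert.lf_var] using this.comp (0 : ℝ) hl
  have h2 := hd.hasFDerivAt.comp (0 : ℝ) (hasFDerivAt_prodMk_left (𝕜 := ℝ) (0 : ℝ) x)
  have := DFunLike.congr_fun (h1.unique h2) (1 : ℝ)
  simp only [var1]
  rw [e1]
  simpa using this

/-- The points of `G` are bounded and have room in the domain, up to powers of the scale. -/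
def Pert.Thick (P : Pert ι p) (G : ι → Set R2) (L : ℕ) : Prop :=
  ∀ i, ∀ x ∈ G i, ‖x‖ ≤ P.big i ^ L ∧ closedBall x (P.big i ^ L)⁻¹ ⊆ P.dom i

lemma Pert.Thick.sub {G : ι → Set R2} {L : ℕ} (h : P.Thick G L) (i : ι) : G i ⊆ P.dom i :=
  fun x hx => (h i x hx).2 (mem_closedBall_self (inv_nonneg.2 (pow_nonneg
    (zero_le_one.trans (P.toScale.one_le i)) L)))

lemma Pert.Thick.mono {G G' : ι → Set R2} {L : ℕ} (h : P.Thick G L) (hG : ∀ i, G' i ⊆ G i) :
    P.Thick G' L := fun i x hx => h i x (hG i hx)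

/-- Bounded families are Lipschitz on thick subsets, by a power of the scale. -/
lemma BaseBd.lipschitz {S : VScale ι} {g : ι → ℝ × ℝ → ℝ} (hg : BaseBd S g)
    {G : ι → Set R2} {L : ℕ} (hG : ∀ i, ∀ x ∈ G i, closedBall x (S.big i ^ L)⁻¹ ⊆ S.dom i) :
    ∃ C : ℕ, ∀ i, ∀ x ∈ G i, ∀ y ∈ G i, |g i x - g i y| ≤ S.big i ^ C * ‖x - y‖ := by
  obtain ⟨a, ha⟩ := hg.bound 1 0
  obtain ⟨b, hb⟩ := hg.bound 0 1
  obtain ⟨c, hc⟩ := hg.bound 0 0
  refine ⟨max (max a b + 1) (c + 1 + L), fun i x hx y hy => ?_⟩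
  have h1 := S.toScale.one_le i
  have h0 : 0 < S.big i ^ L := pow_pos (by linarith) L
  have mem : ∀ z ∈ G i, z ∈ S.dom i := fun z hz =>
    hG i z hz (mem_closedBall_self (inv_nonneg.2 h0.le))
  by_cases hd : ‖y - x‖ ≤ (S.big i ^ L)⁻¹
  · have hz : ∀ z ∈ S.dom i, ‖fderiv ℝ (g i) z‖ ≤ S.big i ^ (max a b + 1) := fun z hz => by
      refine ContinuousLinearMap.opNorm_le_bound _ (by positivity) fun v => ?_
      have e : fderiv ℝ (g i) z v =
          v.1 * Generic.dx (g i) z + v.2 * Generic.dy (g i) z := by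
        have : v = v.1 • ((1 : ℝ), (0 : ℝ)) + v.2 • ((0 : ℝ), (1 : ℝ)) := by simp
        conv_lhs => rw [this]
        rw [map_add, map_smul, map_smul]
        rfl
      have hA : |Generic.dx (g i) z| ≤ S.big i ^ a := by simpa [pd] using ha i z hz
      have hB : |Generic.dy (g i) z| ≤ S.big i ^ b := by simpa [pd] using hb i z hz
      have pa := pow_le_pow_right₀ h1 (le_max_left a b)
      have pb := pow_le_pow_right₀ h1 (le_max_right a b)
      rw [e, Real.norm_eq_abs, pow_succ]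
      calc |v.1 * Generic.dx (g i) z + v.2 * Generic.dy (g i) z|
          ≤ |v.1| * |Generic.dx (g i) z| + |v.2| * |Generic.dy (g i) z| := by
            rw [← abs_mul, ← abs_mul]; exact abs_add_le _ _
        _ ≤ ‖v‖ * S.big i ^ max a b + ‖v‖ * S.big i ^ max a b :=
            add_le_add
              (mul_le_mul (by simpa using norm_fst_le v) (hA.trans pa) (abs_nonneg _)
                (norm_nonneg _))
              (mul_le_mul (by simpa using norm_snd_le v) (hB.trans pb) (abs_nonneg _)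
                (norm_nonneg _))
        _ ≤ S.big i ^ max a b * S.big i * ‖v‖ := by
            have := mul_le_mul_of_nonneg_left (S.two_le i)
              (mul_nonneg (norm_nonneg v) (pow_nonneg (zero_le_one.trans h1) (max a b)))
            linarith
    have hy' : y ∈ closedBall x (S.big i ^ L)⁻¹ := by rwa [mem_closedBall, dist_eq_norm]
    refine le_trans ?_ (mul_le_mul_of_nonneg_right
      (pow_le_pow_right₀ h1 (le_max_left _ _)) (norm_nonneg _))
    simpa [Real.norm_eq_abs, norm_sub_rev] using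
      (convex_closedBall x (S.big i ^ L)⁻¹).norm_image_sub_le_of_norm_fderiv_le
        (fun z hz' => differentiableAt_of (S.isOpen i) (hg.smooth i) (hG i x hx hz'))
        (fun z hz' => hz z (hG i x hx hz')) hy' (mem_closedBall_self (inv_nonneg.2 h0.le))
  · have h4 : ∀ z ∈ G i, |g i z| ≤ S.big i ^ c := fun z hz => by
      simpa [pd] using hc i z (mem z hz)
    have h5 : 1 ≤ S.big i ^ L * ‖x - y‖ := by
      rw [mul_comm, ← inv_le_iff_one_le_mul₀ h0, norm_sub_rev]; exact (not_le.1 hd).le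
    calc |g i x - g i y| ≤ S.big i ^ c + S.big i ^ c :=
          (abs_sub _ _).trans (add_le_add (h4 x hx) (h4 y hy))
      _ ≤ S.big i ^ (c + 1) * 1 := by
          rw [pow_succ]; nlinarith [S.two_le i, pow_nonneg (zero_le_one.trans h1) c]
      _ ≤ S.big i ^ (c + 1) * (S.big i ^ L * ‖x - y‖) :=
          mul_le_mul_of_nonneg_left h5 (by positivity)
      _ = S.big i ^ (c + 1 + L) * ‖x - y‖ := by rw [pow_add _ (c + 1) L]; ring
      _ ≤ _ := mul_le_mul_of_nonneg_right (pow_le_pow_right₀ h1 (le_max_right _ _))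
          (norm_nonneg _)

/-- The smallness condition of avoidance with an explicit radius. -/
lemma small_radius {p : ℕ} {L Λ δ η : ℝ} (hL : 1 ≤ L) (hΛ : 1 ≤ Λ) (hδ : 0 < δ) (hη : 0 < η)
    (hη1 : η ≤ 1) (h : 2 ^ (p + 14) * L ^ 2 * Λ ^ 2 * η ≤ δ ^ 3) :
    (2 * L * Λ / η + 2) ^ 2 * 2 ^ p * (8 * η / δ) ^ 3 < 1 := by
  have h1 : 2 * L * Λ / η + 2 ≤ 4 * L * Λ / η := by
    rw [le_div_iff₀ hη, add_mul, div_mul_cancel₀ _ hη.ne']
    nlinarith [one_le_mul_of_one_le_of_one_le hL hΛ]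
  have hp : 0 < L ^ 2 * Λ ^ 2 * η := by positivity
  calc (2 * L * Λ / η + 2) ^ 2 * 2 ^ p * (8 * η / δ) ^ 3
      ≤ (4 * L * Λ / η) ^ 2 * 2 ^ p * (8 * η / δ) ^ 3 := by gcongr
    _ = 2 ^ p * 8192 * (L ^ 2 * Λ ^ 2 * η) / δ ^ 3 := by field_simp; ring
    _ < 1 := by
        rw [div_lt_one (by positivity)]
        refine lt_of_lt_of_le ?_ h
        rw [pow_add]
        have : (0 : ℝ) < 2 ^ p := by positivity
        nlinarith

/-- **One stage.** -/
theorem Pert.stage {L : ℕ}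
    (Φ : Fin 3 → (R2 → V4) → R2 → ℝ) (hs : ∀ l, P.Smooth (Φ l))
    (hb : ∀ l, BaseBd P.vscale (base0 (lf P.var (Φ l))))
    (G : ι → Set R2) (hT : P.Thick G L) (e : Fin 3 → ℕ) {C k : ℕ}
    (w : ι → R2 → Fin 3 → closedBall (0 : Fin p → ℝ) 1)
    (hdiag : ∀ i, P.big i ^ C ≤ P.freq i → ∀ x ∈ G i, ∀ (τ : closedBall (0 : Fin p → ℝ) 3) (l : Fin 3),
      P.amp i * P.freq i ^ e l ≤
        P.big i ^ k * |var1 (lf P.var (Φ l)) (i, τ, w i x l) x|)
    (hoff : ∀ i, P.big i ^ C ≤ P.freq i → ∀ x ∈ G i, ∀ (τ : closedBall (0 : Fin p → ℝ) 3)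
      (l m : Fin 3), l ≠ m →
      P.big i ^ (k + 5) * |var1 (lf P.var (Φ l)) (i, τ, w i x m) x| ≤
        P.amp i * P.freq i ^ e l) :
    ∃ K : ℕ, ∀ i, P.big i ^ K ≤ P.freq i → ∃ τ : Fin p → ℝ, ‖τ‖ ≤ 1 ∧
      ∀ x ∈ G i, 1 ≤ (P.big i * P.freq i / P.amp i) ^ K * ‖fun l => Φ l (P.H i τ) x‖ := by
  have hG := hT.sub
  choose Cl hCl using fun l => (hb l).lipschitz (G := fun j : Dir ι p => G j.1) (L := L)
    fun j x hx => (hT j.1 x hx).2
  set D := Cl 0 + Cl 1 + Cl 2
  refine ⟨max (C + k + 5) (p + 23 + 3 * k + 2 * L + 2 * D), fun i hbig => ?_⟩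
  set B := P.big i
  set A := P.amp i
  set M := P.freq i
  have hA : 0 < A := P.amp_pos i
  have hA1 : A ≤ 1 := P.amp_le i
  have hM : 1 ≤ M := P.one_le_freq i
  have hB2 : 2 ≤ B := P.two_le i
  have hB : 1 ≤ B := P.toScale.one_le i
  set T := B * M / A with hT'
  have hBT : B ≤ T := by rw [hT', le_div_iff₀ hA]; nlinarith
  have hMT : M ≤ T := by rw [hT', le_div_iff₀ hA]; nlinarith
  have hAT : 1 ≤ A * T := by rw [hT', mul_div_cancel₀ _ hA.ne']; nlinarith
  have hT1 : 1 ≤ T := hB.trans hBT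
  set N : ℝ := B ^ k with hN
  have hN1 : 1 ≤ N := one_le_pow₀ hB
  set c : Fin 3 → ℝ := fun l => (A * M ^ e l)⁻¹ with hc
  have hcpos : ∀ l, 0 < c l := fun l => by positivity
  have hc1 : ∀ l, c l ≤ T := fun l => by
    rw [hc, inv_le_iff_one_le_mul₀ (by positivity), mul_comm, mul_comm A, mul_assoc]
    exact one_le_mul_of_one_le_of_one_le (one_le_pow₀ hM) hAT
  let Ψ : R2 → (Fin p → ℝ) → Fin 3 → ℝ := fun x τ l => c l * Φ l (P.H i τ) x
  let τc : (Fin p → ℝ) → Fin p → ℝ := fun τ => if ‖τ‖ ≤ 4 then τ else (4 / ‖τ‖) • τ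
  have hτc : Continuous τc := by
    have : τc = fun τ => (4 / max 4 ‖τ‖) • τ := funext fun τ => by
      by_cases h : ‖τ‖ ≤ 4
      · simp [τc, h]
      · simp [τc, h, max_eq_right (not_le.mp h).le]
    rw [this]
    refine Continuous.smul (continuous_const.div (continuous_const.max continuous_norm) ?_)
      continuous_id
    exact fun τ => (lt_of_lt_of_le (by norm_num : (0 : ℝ) < 4) (le_max_left _ _)).ne'
  have hτc5 : ∀ τ, τc τ ∈ ball (0 : Fin p → ℝ) 5 := fun τ => by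
    by_cases h : ‖τ‖ ≤ 4
    · simp [τc, h]; linarith
    · have : 0 < ‖τ‖ := lt_trans (by norm_num) (not_le.mp h)
      simp [τc, h, norm_smul]
      field_simp
      norm_num
  have hnear : ∀ τ : Fin p → ℝ, ‖τ‖ ≤ 3 → τc =ᶠ[nhds τ] id := fun τ hτ => by
    filter_upwards [Metric.ball_mem_nhds τ one_pos] with u hu
    rw [mem_ball, dist_eq_norm] at hu
    have := norm_le_norm_add_norm_sub' u τ
    simp [τc, show ‖u‖ ≤ 4 by linarith]
  let v : R2 → (Fin 3 → ℝ) →L[ℝ] (Fin p → ℝ) := fun x =>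
    ∑ m, (ContinuousLinearMap.proj (R := ℝ) (φ := fun _ : Fin 3 => ℝ) m).smulRight
      ((3 : ℝ)⁻¹ • (w i x m : Fin p → ℝ))
  have hvx : ∀ x m, v x (Pi.single m 1) = (3 : ℝ)⁻¹ • (w i x m : Fin p → ℝ) := fun x m => by
    simp [v, Pi.single_apply]
  let dΨ : R2 → (Fin p → ℝ) → (Fin p → ℝ) →L[ℝ] (Fin 3 → ℝ) := fun x τ =>
    ContinuousLinearMap.pi fun l => c l • fderiv ℝ (fun τ => Φ l (P.H i τ) x) τ
  have entry : ∀ x ∈ G i, ∀ τ (hτ : ‖τ‖ ≤ 3) (l m : Fin 3), dΨ x τ (v x (Pi.single m 1)) l =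
      (3 : ℝ)⁻¹ * (c l * var1 (lf P.var (Φ l)) (i, ⟨τ, by simpa using hτ⟩, w i x m) x) :=
    fun x hx τ hτ l m => by
      simp only [dΨ, hvx, map_smul, ContinuousLinearMap.pi_apply, smul_apply,
        smul_eq_mul]
      rw [← Pert.fderiv_eq_var1 (hs l) i ⟨τ, by simpa using hτ⟩ (w i x m) (hG i hx)]
  set η : ℝ := (T ^ (p + 22 + 3 * k + 2 * L + 2 * D))⁻¹ with hη
  have hsmall : (2 * B ^ L * (T * B ^ D) / η + 2) ^ 2 * 2 ^ p * (8 * η / ((3 * N)⁻¹)) ^ 3 < 1 := by
    refine small_radius (one_le_pow₀ hB) (one_le_mul_of_one_le_of_one_le hT1 (one_le_pow₀ hB))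
      (by positivity) (by positivity) (inv_le_one_of_one_le₀ (one_le_pow₀ hT1)) ?_
    rw [hη, ← div_eq_mul_inv, div_le_iff₀ (by positivity), inv_pow, inv_mul_eq_div,
      le_div_iff₀ (by positivity)]
    have h2 : (2 : ℝ) ≤ T := hB2.trans hBT
    calc 2 ^ (p + 14) * (B ^ L) ^ 2 * (T * B ^ D) ^ 2 * (3 * N) ^ 3
        = 2 ^ (p + 14) * 27 * (B ^ (2 * L + 2 * D + 3 * k) * T ^ 2) := by rw [hN]; ring
      _ ≤ T ^ (p + 14) * T ^ 5 * (T ^ (2 * L + 2 * D + 3 * k) * T ^ 2) := by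
          gcongr
          exact le_trans (by norm_num) (pow_le_pow_left₀ (by norm_num) h2 5)
      _ = T ^ (p + 21 + 3 * k + 2 * L + 2 * D) := by ring
      _ ≤ T ^ (p + 22 + 3 * k + 2 * L + 2 * D) := pow_le_pow_right₀ hT1 (by omega)
  have hε : 2 * ((3 : ℕ) * (B ^ (k + 5))⁻¹) ≤ (3 * N)⁻¹ := by
    rw [inv_eq_one_div (B ^ (k + 5)), mul_div, mul_div, div_le_iff₀ (by positivity),
      inv_mul_eq_div, le_div_iff₀ (by positivity), hN, pow_add]
    have h32 : (18 : ℝ) ≤ B ^ 5 := le_trans (by norm_num) (pow_le_pow_left₀ (by norm_num) hB2 5)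
    push_cast
    nlinarith [mul_le_mul_of_nonneg_left h32 (by positivity : (0 : ℝ) ≤ B ^ k)]
  refine Exists.elim (exists_avoid_of_dominant (G i) (fun x τ => Ψ x (τc τ))
    (fun x hx => continuous_pi fun l => continuous_const.mul
      ((((hs l) i).continuousOn.comp_continuous (hτc.prodMk continuous_const)
        fun τ => ⟨hτc5 τ, hG i hx⟩)))
    v (fun x _ s hs' => ?_) dΨ
    (fun x hx τ hτ => ?_) (δ := (3 * N)⁻¹) (ε := (B ^ (k + 5))⁻¹) (L := B ^ L) (Λ := T * B ^ D) (η := η)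
    (by positivity) (by positivity) hε ?_ ?_ (fun x hx => (hT i x hx).1) (by positivity)
    (by positivity) ?_ hsmall) ?_
  · refine (pi_norm_le_iff_of_nonneg zero_le_one).mpr fun j => ?_
    simp only [v, sum_apply, ContinuousLinearMap.smulRight_apply,
      ContinuousLinearMap.proj_apply, Finset.sum_apply, Pi.smul_apply, smul_eq_mul,
      Real.norm_eq_abs]
    refine (Finset.abs_sum_le_sum_abs _ _).trans ?_
    calc ∑ m, |s m * ((3 : ℝ)⁻¹ * (w i x m : Fin p → ℝ) j)| ≤ ∑ _m : Fin 3, (3 : ℝ)⁻¹ :=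
          Finset.sum_le_sum fun m _ => by
            have a := (norm_le_pi_norm (w i x m : Fin p → ℝ) j).trans
              (mem_closedBall_zero_iff.mp (w i x m).2)
            have b := (norm_le_pi_norm s m).trans hs'
            simp only [Real.norm_eq_abs] at a b
            rw [abs_mul, abs_mul, abs_of_pos (by norm_num : (0 : ℝ) < 3⁻¹)]
            nlinarith [abs_nonneg (s m), abs_nonneg ((w i x m : Fin p → ℝ) j)]
      _ = 1 := by simp
  · refine hasFDerivAt_pi.mpr fun l => ?_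
    refine (HasFDerivAt.congr_of_eventuallyEq ((Pert.hasFDerivAt (hs l) i hτ
      (hG i hx)).differentiableAt.hasFDerivAt.const_mul (c l)) ?_)
    filter_upwards [hnear τ hτ] with u hu
    simp [hu]
  · intro x hx τ hτ l
    rw [entry x hx τ hτ l l, abs_mul, abs_mul, abs_of_pos (by norm_num : (0 : ℝ) < 3⁻¹),
      abs_of_pos (hcpos l), mul_inv]
    refine mul_le_mul_of_nonneg_left ?_ (by norm_num)
    rw [hc, inv_mul_eq_div, le_div_iff₀ (by positivity), inv_mul_le_iff₀ (by positivity)]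
    exact hdiag i ((pow_le_pow_right₀ hB (le_max_of_le_left (by omega))).trans hbig) x hx
      ⟨τ, by simpa using hτ⟩ l
  · intro x hx τ hτ l m hlm
    rw [entry x hx τ hτ l m, abs_mul, abs_mul, abs_of_pos (by norm_num : (0 : ℝ) < 3⁻¹),
      abs_of_pos (hcpos l)]
    refine le_trans (mul_le_of_le_one_left (by positivity) (by norm_num)) ?_
    rw [hc, inv_mul_eq_div, inv_eq_one_div, div_le_div_iff₀ (by positivity) (by positivity)]
    have := hoff i ((pow_le_pow_right₀ hB (le_max_of_le_left (by omega))).trans hbig) x hx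
      ⟨τ, by simpa using hτ⟩ l m hlm
    linarith
  · intro x hx y hy τ hτ
    have h4 : τc τ = τ := by simp [τc, show ‖τ‖ ≤ 4 by linarith]
    refine (pi_norm_le_iff_of_nonneg (by positivity)).mpr fun l => ?_
    simp only [Pi.sub_apply, h4, Ψ, Real.norm_eq_abs, ← mul_sub, abs_mul, abs_of_pos (hcpos l)]
    rw [mul_assoc]
    refine mul_le_mul (hc1 l) ?_ (abs_nonneg _) (by linarith)
    have hD : Cl l ≤ D := by fin_cases l <;> simp [D] <;> omega
    have := hCl l (i, ⟨τ, by simp; linarith⟩, ⟨0, by simp⟩) x hx y hy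
    simp only [Pert.base0_var] at this
    exact this.trans (mul_le_mul_of_nonneg_right (pow_le_pow_right₀ hB hD) (norm_nonneg _))
  · rintro τ ⟨hτ, hav⟩
    refine ⟨τ, hτ, fun x hx => ?_⟩
    have h4 : τc τ = τ := by simp [τc, show ‖τ‖ ≤ 4 by linarith]
    have h := hav x hx
    simp only [h4] at h
    have hle : ‖Ψ x τ‖ ≤ T * ‖fun l => Φ l (P.H i τ) x‖ := by
      refine (pi_norm_le_iff_of_nonneg (by positivity)).mpr fun l => ?_
      rw [Real.norm_eq_abs, abs_mul, abs_of_pos (hcpos l)]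
      exact mul_le_mul (hc1 l) (norm_le_pi_norm (fun l => Φ l (P.H i τ) x) l) (abs_nonneg _)
        (by positivity)
    have h5 := h.trans hle
    rw [hη, inv_le_iff_one_le_mul₀ (by positivity)] at h5
    calc (1 : ℝ) ≤ _ := h5
      _ = T ^ (p + 23 + 3 * k + 2 * L + 2 * D) * ‖fun l => Φ l (P.H i τ) x‖ := by ring
      _ ≤ _ := mul_le_mul_of_nonneg_right (pow_le_pow_right₀ hT1 (le_max_right _ _))
        (norm_nonneg _)

end

end Vale.Agent.P205.Generic
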