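import Vale.Agent.P205.Generic.Entry
import Vale.Agent.P205.Generic.Stage

/-!
A stage from expansions: three functionals with expansions at orders `n l`, moved by directions
with prescribed jets of the scalar variation, either of type `(n+1,0)` or of type `(n,1)`.
-/

namespace Vale.Agent.P205.Generic

open scoped ContDiff
open Set Metric Vale.Agent.P205.Algebra

noncomputable section

variable {ι : Type*} {p : ℕ} {P : Pert ι p} {ζ : Dir ι p → R2 → ℝ}

/-- The jets of `ζ` of orders `≤ (8, 2)` vanish up to the amplitude, except that of order `(a, b)`,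
which has size `A M ^ e`. -/
structure Hit (P : Pert ι p) (ζ : Dir ι p → R2 → ℝ) (k : ℕ) (j : Dir ι p) (x : R2) (a b e : ℕ) :
    Prop where
  lower : P.amp j.1 * P.freq j.1 ^ e ≤ P.big j.1 ^ k * |zj ζ a b j x|
  upper : |zj ζ a b j x| ≤ P.big j.1 ^ k * (P.amp j.1 * P.freq j.1 ^ e)
  others : ∀ a' b', a' ≤ 8 → b' ≤ 2 → (a', b') ≠ (a, b) →
    |zj ζ a' b' j x| ≤ P.big j.1 ^ k * P.amp j.1

/-- Every jet of order `≤ (8, 2)` can be hit at every point, also one frequency below its size. -/
def Pert.Presc (P : Pert ι p) (ζ : Dir ι p → R2 → ℝ) (G : ι → Set R2) : Prop :=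
  ∃ k : ℕ, ∀ a b s : ℕ, a ≤ 8 → b ≤ 2 → s ≤ 1 → ∀ i, ∀ x ∈ G i,
    ∃ w : closedBall (0 : Fin p → ℝ) 1, ∀ τ, Hit P ζ k (i, τ, w) x a b (a + 1 - s)

variable {U : Dir ι p → Ext → ℝ} {c20 c11 : Dir ι p → R2 → ℝ}

/-- An entry which no coefficient enters. -/
lemma row_off {n k : ℕ} (hn : n + 1 ≤ 8) (h : Exp P.vscale ζ n U c20 c11) :
    ∃ C : ℕ, ∀ j x a b e, x ∈ P.dom j.1 → Hit P ζ k j x a b e →
      ((a, b) = (n + 1, 0) → c20 j x = 0) → ((a, b) = (n, 1) → c11 j x = 0) →
      ((a, b) = (n, 0) → e ≤ n) →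
      |var1 U j x| ≤ P.big j.1 ^ C * (P.amp j.1 * P.freq j.1 ^ n) := by
  obtain ⟨C, hC⟩ := h.entry
  obtain ⟨D, hD⟩ := h.top.norm_le
  obtain ⟨D', hD'⟩ := h.cross.norm_le
  refine ⟨C + k + D + D' + 3, fun j x a b e hx hh h1 h2 h3 => ?_⟩
  have hB : 1 ≤ P.big j.1 := P.toScale.one_le j.1
  have hA := (P.amp_pos j.1).le
  have hM := P.one_le_freq j.1
  set W := P.amp j.1 * P.freq j.1 ^ n with hW
  have hW0 : 0 ≤ W := by positivity
  have hAW : P.amp j.1 ≤ W := le_mul_of_one_le_right hA (one_le_pow₀ hM)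
  have small : ∀ a' b', a' ≤ 8 → b' ≤ 2 → (a', b') ≠ (a, b) →
      |zj ζ a' b' j x| ≤ P.big j.1 ^ k * W := fun a' b' ha hb hne =>
    (hh.others a' b' ha hb hne).trans (mul_le_mul_of_nonneg_left hAW (by positivity))
  have t1 : |zj ζ (n + 1) 0 j x * c20 j x| ≤ P.big j.1 ^ (k + D) * W := by
    by_cases he : (a, b) = (n + 1, 0)
    · rw [h1 he, mul_zero, abs_zero]; positivity
    · rw [abs_mul, pow_add, mul_right_comm]
      exact mul_le_mul (small _ _ hn (by omega) (fun e => he e.symm))
        (by simpa [Pert.vscale] using hD j x hx) (abs_nonneg _) (by positivity)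
  have t2 : |zj ζ n 1 j x * c11 j x| ≤ P.big j.1 ^ (k + D') * W := by
    by_cases he : (a, b) = (n, 1)
    · rw [h2 he, mul_zero, abs_zero]; positivity
    · rw [abs_mul, pow_add, mul_right_comm]
      exact mul_le_mul (small _ _ (by omega) (by omega) (fun e => he e.symm))
        (by simpa [Pert.vscale] using hD' j x hx) (abs_nonneg _) (by positivity)
  have t3 : |zj ζ n 0 j x| ≤ P.big j.1 ^ k * W := by
    by_cases he : (a, b) = (n, 0)
    · obtain ⟨rfl, rfl⟩ := Prod.mk.injEq .. ▸ he
      exact hh.upper.trans (mul_le_mul_of_nonneg_left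
        (mul_le_mul_of_nonneg_left (pow_le_pow_right₀ hM (h3 rfl)) hA) (by positivity))
    · exact small _ _ (by omega) (by omega) (fun e => he e.symm)
  have t0 : |var1 U j x - (zj ζ (n + 1) 0 j x * c20 j x + zj ζ n 1 j x * c11 j x)| ≤
      P.big j.1 ^ C * (W + |zj ζ n 0 j x|) := hC j x hx
  set E := C + k + D + D' with hE
  have up : ∀ c : ℕ, c ≤ E → P.big j.1 ^ c * W ≤ P.big j.1 ^ E * W := fun c hc =>
    mul_le_mul_of_nonneg_right (pow_le_pow_right₀ hB hc) hW0
  have t4 : P.big j.1 ^ C * |zj ζ n 0 j x| ≤ P.big j.1 ^ E * W := by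
    refine le_trans (mul_le_mul_of_nonneg_left t3 (by positivity)) ?_
    rw [← mul_assoc, ← pow_add]
    exact up _ (by omega)
  have h8 : (4 : ℝ) ≤ P.big j.1 ^ 3 :=
    le_trans (by norm_num) (pow_le_pow_left₀ (by norm_num) (P.two_le j.1) 3)
  rw [pow_add, mul_right_comm]
  have := abs_add_le (var1 U j x - (zj ζ (n + 1) 0 j x * c20 j x + zj ζ n 1 j x * c11 j x))
    (zj ζ (n + 1) 0 j x * c20 j x + zj ζ n 1 j x * c11 j x)
  rw [sub_add_cancel] at this
  have h9 := abs_add_le (zj ζ (n + 1) 0 j x * c20 j x) (zj ζ n 1 j x * c11 j x)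
  have h0 : 0 ≤ P.big j.1 ^ E * W := by positivity
  nlinarith [up (k + D) (by omega), up (k + D') (by omega), up C (by omega),
    mul_le_mul_of_nonneg_left h8 h0]

/-- The entry carried by the coefficient of the hit jet, of type `(n+1,0)` for `top`. -/
lemma row_diag {n k : ℕ} (top : Bool) (hn : n + 1 ≤ 8) (h : Exp P.vscale ζ n U c20 c11) :
    ∃ C : ℕ, ∀ j x, x ∈ P.dom j.1 →
      Hit P ζ k j x (if top then n + 1 else n) (if top then 0 else 1) (n + 1) →
      P.amp j.1 * P.freq j.1 ^ (n + 1) * |(if top then c20 else c11) j x| ≤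
        P.big j.1 ^ C * (|var1 U j x| + P.amp j.1 * P.freq j.1 ^ n) := by
  obtain ⟨C, hC⟩ := h.entry
  obtain ⟨D, hD⟩ := h.top.norm_le
  obtain ⟨D', hD'⟩ := h.cross.norm_le
  refine ⟨k + (C + k + D + D' + 3), fun j x hx hh => ?_⟩
  have hB : 1 ≤ P.big j.1 := P.toScale.one_le j.1
  have hA := (P.amp_pos j.1).le
  have hM := P.one_le_freq j.1
  set W := P.amp j.1 * P.freq j.1 ^ n with hW
  have hW0 : 0 ≤ W := by positivity
  have hAW : P.amp j.1 ≤ W := le_mul_of_one_le_right hA (one_le_pow₀ hM)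
  have small : ∀ a' b', a' ≤ 8 → b' ≤ 2 →
      (a', b') ≠ ((if top then n + 1 else n), (if top then 0 else 1)) →
      |zj ζ a' b' j x| ≤ P.big j.1 ^ k * W := fun a' b' ha hb hne =>
    (hh.others a' b' ha hb hne).trans (mul_le_mul_of_nonneg_left hAW (by positivity))
  set E := C + k + D + D' with hE
  have up : ∀ c : ℕ, c ≤ E → P.big j.1 ^ c * W ≤ P.big j.1 ^ E * W := fun c hc =>
    mul_le_mul_of_nonneg_right (pow_le_pow_right₀ hB hc) hW0
  have t3 : |zj ζ n 0 j x| ≤ P.big j.1 ^ k * W :=
    small _ _ (by omega) (by omega) (by cases top <;> simp)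
  have t4 : P.big j.1 ^ C * |zj ζ n 0 j x| ≤ P.big j.1 ^ E * W := by
    refine le_trans (mul_le_mul_of_nonneg_left t3 (by positivity)) ?_
    rw [← mul_assoc, ← pow_add]
    exact up _ (by omega)
  have t0 : |var1 U j x - (zj ζ (n + 1) 0 j x * c20 j x + zj ζ n 1 j x * c11 j x)| ≤
      P.big j.1 ^ C * (W + |zj ζ n 0 j x|) := hC j x hx
  have key : |zj ζ (if top then n + 1 else n) (if top then 0 else 1) j x|
      * |(if top then c20 else c11) j x| ≤ |var1 U j x| + 3 * (P.big j.1 ^ E * W) := by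
    rw [← abs_mul]
    cases top
    · simp only [Bool.false_eq_true, ↓reduceIte] at small ⊢
      have o : |zj ζ (n + 1) 0 j x * c20 j x| ≤ P.big j.1 ^ E * W := by
        refine le_trans ?_ (up (k + D) (by omega))
        rw [abs_mul, pow_add, mul_right_comm]
        exact mul_le_mul (small _ _ hn (by omega) (by simp))
          (by simpa [Pert.vscale] using hD j x hx) (abs_nonneg _) (by positivity)
      rw [abs_le] at t0 o
      have := abs_le.1 (le_refl |var1 U j x|)
      rw [abs_le]
      constructor <;> linarith [up C (by omega)]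
    · simp only [↓reduceIte] at small ⊢
      have o : |zj ζ n 1 j x * c11 j x| ≤ P.big j.1 ^ E * W := by
        refine le_trans ?_ (up (k + D') (by omega))
        rw [abs_mul, pow_add, mul_right_comm]
        exact mul_le_mul (small _ _ (by omega) (by omega) (by simp))
          (by simpa [Pert.vscale] using hD' j x hx) (abs_nonneg _) (by positivity)
      rw [abs_le] at t0 o
      have := abs_le.1 (le_refl |var1 U j x|)
      rw [abs_le]
      constructor <;> linarith [up C (by omega)]
  refine le_trans (mul_le_mul_of_nonneg_right hh.lower (abs_nonneg _)) ?_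
  rw [mul_assoc, pow_add _ k]
  rw [mul_assoc]
  refine mul_le_mul_of_nonneg_left (key.trans ?_) (by positivity)
  rw [mul_add]
  have h8 : (3 : ℝ) ≤ P.big j.1 ^ 3 :=
    le_trans (by norm_num) (pow_le_pow_left₀ (by norm_num) (P.two_le j.1) 3)
  refine add_le_add (le_mul_of_one_le_left (abs_nonneg _) (one_le_pow₀ hB)) ?_
  rw [pow_add (P.big j.1) E 3]
  nlinarith [mul_le_mul_of_nonneg_left h8 (by positivity : 0 ≤ P.big j.1 ^ E * W)]

/-- **A stage from expansions.** -/
theorem Pert.stage_rows {L : ℕ}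
    (Φ : Fin 3 → (R2 → V4) → R2 → ℝ) (hs : ∀ l, P.Smooth (Φ l)) (n : Fin 3 → ℕ)
    (hn : ∀ l, n l + 1 ≤ 8) {c20 c11 : Fin 3 → Dir ι p → R2 → ℝ}
    (hexp : ∀ l, Exp P.vscale ζ (n l) (lf P.var (Φ l)) (c20 l) (c11 l))
    (G : ι → Set R2) (hT : P.Thick G L) (hp : P.Presc ζ G)
    (top : ι → R2 → Fin 3 → Bool) {d : ℕ}
    (hlow : ∀ j, ∀ x ∈ G j.1, ∀ l,
      1 ≤ P.big j.1 ^ d * |(if top j.1 x l then c20 l else c11 l) j x|)
    (hsep : ∀ j, ∀ x ∈ G j.1, ∀ l m, l ≠ m → n l = n m →
      (if top j.1 x m then c20 l else c11 l) j x = 0) :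
    ∃ K : ℕ, ∀ i, P.big i ^ K ≤ P.freq i → ∃ τ : Fin p → ℝ, ‖τ‖ ≤ 1 ∧
      ∀ x ∈ G i, 1 ≤ (P.big i * P.freq i / P.amp i) ^ K * ‖fun l => Φ l (P.H i τ) x‖ := by
  classical
  obtain ⟨k, hk⟩ := hp
  choose Co hCo using fun l => row_off (k := k) (hn l) (hexp l)
  choose Ct hCt using fun l => row_diag (k := k) true (hn l) (hexp l)
  choose Cf hCf using fun l => row_diag (k := k) false (hn l) (hexp l)
  set C := Co 0 + Co 1 + Co 2 + Ct 0 + Ct 1 + Ct 2 + Cf 0 + Cf 1 + Cf 2 with hC
  have hCl : ∀ l, Co l ≤ C ∧ Ct l ≤ C ∧ Cf l ≤ C := fun l => by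
    fin_cases l <;> simp [C] <;> omega
  clear_value C
  let w : ι → R2 → Fin 3 → closedBall (0 : Fin p → ℝ) 1 := fun i x l =>
    if hx : x ∈ G i then
      Classical.choose (hk (if top i x l then n l + 1 else n l) (if top i x l then 0 else 1)
        (if top i x l then 1 else 0) (by split_ifs <;> linarith [hn l]) (by split_ifs <;> omega)
        (by split_ifs <;> omega) i x hx)
    else ⟨0, by simp⟩
  have hw : ∀ i, ∀ x ∈ G i, ∀ τ l, Hit P ζ k (i, τ, w i x l) x
      (if top i x l then n l + 1 else n l) (if top i x l then 0 else 1) (n l + 1) :=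
    fun i x hx τ l => by
      have h := Classical.choose_spec (hk (if top i x l then n l + 1 else n l)
        (if top i x l then 0 else 1) (if top i x l then 1 else 0)
        (by split_ifs <;> linarith [hn l]) (by split_ifs <;> omega) (by split_ifs <;> omega)
        i x hx) τ
      simp only [w, dif_pos hx]
      convert h using 1
      split_ifs <;> omega
  have hG := hT.sub
  refine P.stage Φ hs (fun l => (hexp l).base) G hT (fun l => n l + 1)
    (C := C + C + d + d + 9) (k := C + d + 1) w (fun i hi x hx τ l => ?_)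
    (fun i hi x hx τ l m hlm => ?_)
  · set j : Dir ι p := (i, τ, w i x l) with hj
    have hB : 1 ≤ P.big i := P.toScale.one_le i
    have hA := P.amp_pos i
    set V := |var1 (lf P.var (Φ l)) j x| with hV
    have h1 : P.amp i * P.freq i ^ (n l + 1) * |(if top i x l then c20 l else c11 l) j x| ≤
        P.big i ^ C * (V + P.amp i * P.freq i ^ n l) := by
      have hd := hw i x hx τ l
      cases ht : top i x l
      · rw [ht] at hd
        exact (hCf l j x (hG i hx) hd).trans (mul_le_mul_of_nonneg_right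
          (pow_le_pow_right₀ hB (hCl l).2.2)
          (add_nonneg (abs_nonneg _) (mul_nonneg hA.le (pow_nonneg (by
            linarith [P.one_le_freq i]) _))))
      · rw [ht] at hd
        exact (hCt l j x (hG i hx) hd).trans (mul_le_mul_of_nonneg_right
          (pow_le_pow_right₀ hB (hCl l).2.1)
          (add_nonneg (abs_nonneg _) (mul_nonneg hA.le (pow_nonneg (by
            linarith [P.one_le_freq i]) _))))
    have h2 := hlow j x hx l
    have hM : P.big i ^ (C + d + 1) ≤ P.freq i :=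
      (pow_le_pow_right₀ hB (by omega)).trans hi
    have h3 : P.amp i * P.freq i ^ (n l + 1) ≤
        P.big i ^ d * (P.big i ^ C * (V + P.amp i * P.freq i ^ n l)) := by
      refine le_trans ?_ (mul_le_mul_of_nonneg_left h1 (by positivity))
      rw [mul_left_comm]
      exact le_mul_of_one_le_right (by have := P.one_le_freq i; positivity) h2
    have h4 : P.big i ^ (C + d + 1) * (P.amp i * P.freq i ^ n l) ≤
        P.amp i * P.freq i ^ (n l + 1) := by
      rw [pow_succ _ (n l), mul_comm, ← mul_assoc]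
      exact mul_le_mul_of_nonneg_left hM (by have := P.one_le_freq i; positivity)
    have e : ∀ y : ℝ, P.big i ^ d * (P.big i ^ C * y) * P.big i = P.big i ^ (C + d + 1) * y :=
      fun y => by rw [pow_add, pow_add, pow_one]; ring
    show P.amp i * P.freq i ^ (n l + 1) ≤ P.big i ^ (C + d + 1) * V
    have h5 := mul_le_mul_of_nonneg_right h3 (by linarith : (0 : ℝ) ≤ P.big i)
    rw [mul_add, mul_add, add_mul, e, e] at h5
    have h6 : 0 ≤ P.amp i * P.freq i ^ (n l + 1) := by have := P.one_le_freq i; positivity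
    nlinarith [mul_le_mul_of_nonneg_left (P.two_le i) h6]
  · have hB : 1 ≤ P.big i := P.toScale.one_le i
    have hA := (P.amp_pos i).le
    have hM := P.one_le_freq i
    have hh := hw i x hx τ m
    set j : Dir ι p := (i, τ, w i x m) with hj
    have hs : n l = n m → (if top i x m then c20 l else c11 l) j x = 0 :=
      hsep j x hx l m hlm
    have h1 := hCo l j x _ _ _ (hG i hx) hh
      (fun e => by
        rcases ht : top i x m
        · simp [ht] at e
        · simp only [ht, ↓reduceIte, Prod.mk.injEq, Nat.succ_inj, and_true] at e hs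
          exact hs (by omega))
      (fun e => by
        rcases ht : top i x m
        · simp only [ht, Bool.false_eq_true, ↓reduceIte, Prod.mk.injEq, and_true] at e hs
          exact hs e.symm
        · simp [ht] at e)
      (fun e => by
        rcases ht : top i x m
        · simp [ht] at e
        · simp only [ht, ↓reduceIte, Prod.mk.injEq, and_true] at e
          omega)
    show P.big i ^ (C + d + 1 + 5) * |var1 (lf P.var (Φ l)) j x| ≤
      P.amp i * P.freq i ^ (n l + 1)
    refine (mul_le_mul_of_nonneg_left h1 (by positivity)).trans ?_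
    show P.big i ^ (C + d + 1 + 5) * (P.big i ^ Co l * (P.amp i * P.freq i ^ n l)) ≤ _
    rw [pow_succ (P.freq i), ← mul_assoc (P.amp i), ← mul_assoc, ← pow_add,
      mul_comm _ (P.freq i)]
    exact mul_le_mul_of_nonneg_right
      ((pow_le_pow_right₀ hB (by have := (hCl l).1; omega)).trans hi) (by positivity)

end

end Vale.Agent.P205.Generic
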