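import Vale.Agent.P205.Generic.ChainExp
import Vale.Agent.P205.Generic.Formula

/-!
The derivatives of the sextic in `∂x P`: their only top coefficient of type `(2,0)` comes from
`∂x P`, so it is the next derivative times `μ iW`.
-/

namespace Vale.Agent.P205.Generic

open scoped ContDiff
open Set Polynomial Vale.Agent.P205.Algebra

noncomputable section

/-- The derivative of order `k` of the sextic in `∂x P`. -/
def sx (k : ℕ) (F : R2 → V4) (p : R2) : ℝ :=
  (derivative^[k] (sexticPoly (ca one F p) (cb one F p) (Algebra.dy (cP one F) p)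
    (Algebra.dx (cR one F) p) (Algebra.dy (cR one F) p))).eval (Algebra.dx (cP one F) p)

lemma sx_zero (F : R2 → V4) (p : R2) :
    sx 0 F p = sextic (ca one F p) (cb one F p) (Algebra.dx (cP one F) p)
      (Algebra.dy (cP one F) p) (Algebra.dx (cR one F) p) (Algebra.dy (cR one F) p) :=
  eval_sexticPoly _ _ _ _ _ _

lemma sx_six (F : R2 → V4) (p : R2) : sx 6 F p = 11520 := by
  rw [sx, iterate_derivative_sexticPoly, eval_C]

variable {ι : Type*} {S : VScale ι} {G : ι → Ext → V4} {ζ μ A20 A11 B20 B11 : ι → ℝ × ℝ → ℝ}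

/-- Families with an expansion of order one and no coefficient of type `(2,0)`. -/
def ZTop (S : VScale ι) (ζ : ι → ℝ × ℝ → ℝ) : Subring (ι → Ext → ℝ) where
  carrier := {U | ∃ B, Exp S ζ 1 U (fun _ _ => 0) B}
  one_mem' := ⟨_, Flat.const (1 : ℝ)⟩
  zero_mem' := ⟨_, Flat.const (0 : ℝ)⟩
  mul_mem' := fun ⟨_, a⟩ ⟨_, b⟩ =>
    ⟨_, (Exp.congr (a.mul b) fun _ _ _ => rfl).coeff (fun i p _ => by simp) fun _ _ _ => rfl⟩
  add_mem' := fun ⟨_, a⟩ ⟨_, b⟩ =>
    ⟨_, (Exp.congr (a.add b) fun _ _ _ => rfl).coeff (fun i p _ => by simp) fun _ _ _ => rfl⟩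
  neg_mem' := fun ⟨_, a⟩ =>
    ⟨_, (Exp.congr a.neg fun _ _ _ => rfl).coeff (fun i p _ => by simp) fun _ _ _ => rfl⟩

/-- Evaluation at an index and a point. -/
def ztEval (j : ι) (q : Ext) : ZTop S ζ →+* ℝ :=
  (Pi.evalRingHom (fun _ : Ext => ℝ) q).comp
    ((Pi.evalRingHom (fun _ : ι => Ext → ℝ) j).comp (ZTop S ζ).subtype)

lemma ztEval_apply (j : ι) (q : Ext) (U : ZTop S ζ) : ztEval j q U = (U : ι → Ext → ℝ) j q := rfl

lemma exp_polyEval {U : ι → Ext → ℝ} {c B : ι → ℝ × ℝ → ℝ} (hU : Exp S ζ 1 U c B)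
    (Q : (ZTop S ζ)[X]) : ∃ B', Exp S ζ 1 (fun j q => (Q.map (ztEval j q)).eval (U j q))
      (fun j p => ((derivative Q).map (ztEval j (0, p))).eval (base0 U j p) * c j p) B' := by
  induction Q using Polynomial.induction_on' with
  | add a b ha hb =>
    obtain ⟨A, hA⟩ := ha
    obtain ⟨B, hB⟩ := hb
    exact ⟨_, ((hA.add hB).congr fun i q _ => by simp).coeff (fun i p _ => by simp; ring)
      fun _ _ _ => rfl⟩
  | monomial m u =>
    obtain ⟨B0, hu⟩ := u.2
    induction m with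
    | zero =>
      exact ⟨B0, (Exp.congr hu fun i q _ => by simp [ztEval_apply]).coeff
        (fun i p _ => by simp) fun _ _ _ => rfl⟩
    | succ m ih =>
      obtain ⟨B', h'⟩ := ih
      refine ⟨_, ((h'.mul hU).congr fun i q _ => ?_).coeff (fun i p _ => ?_) fun _ _ _ => rfl⟩
      · simp [eval_monomial, pow_succ]; ring
      · simp only [derivative_monomial, map_monomial, eval_monomial, map_mul, map_natCast,
          add_tsub_cancel_right, base0, ztEval_apply]
        rcases m with _ | m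
        · simp
        · push_cast
          simp only [pow_succ]
          ring

namespace Top

variable (hR : Top S G ζ μ A20 A11 B20 B11)
include hR

lemma exp_dPx : Exp S ζ 1 (lf G fun F => Algebra.dx (cP one F))
    (fun i p => μ i p * iW one (slice G i 0) p) (fun _ _ => 0) :=
  hR.ex_dx hR.exp_cP

lemma exp_dPy : Exp S ζ 1 (lf G fun F => Algebra.dy (cP one F))
    (fun _ _ => 0) (fun i p => μ i p * iW one (slice G i 0) p) :=
  hR.ex_dy hR.exp_cP

lemma exp_dRx : Exp S ζ 1 (lf G fun F => Algebra.dx (cR one F))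
    (fun _ _ => 0) (fun i p => 2 * μ i p * iW one (slice G i 0) p) :=
  hR.ex_dx hR.exp_cR

lemma exp_dRy : Exp S ζ 1 (lf G fun F => Algebra.dy (cR one F))
    (fun _ _ => 0) (fun _ _ => 0) :=
  hR.ex_dy hR.exp_cR

theorem exp_sx (k : ℕ) : ∃ B, Exp S ζ 1 (lf G (sx k))
    (fun i p => sx (k + 1) (slice G i 0) p * (μ i p * iW one (slice G i 0) p)) B := by
  let a : ZTop S ζ := ⟨lf G (ca one), _, hR.lift_ex hR.ca_ex one_pos⟩
  let b : ZTop S ζ := ⟨lf G (cb one), _, hR.lift_ex hR.cb_ex one_pos⟩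
  let py : ZTop S ζ := ⟨lf G fun F => Algebra.dy (cP one F), _, hR.exp_dPy⟩
  let rx : ZTop S ζ := ⟨lf G fun F => Algebra.dx (cR one F), _, hR.exp_dRx⟩
  let ry : ZTop S ζ := ⟨lf G fun F => Algebra.dy (cR one F), _, hR.exp_dRy⟩
  obtain ⟨B, h⟩ := exp_polyEval hR.exp_dPx
    (derivative^[k] (sextic (C a) (C b) X (C py) (C rx) (C ry)))
  have e : ∀ (m : ℕ) (j : ι) (q : Ext),
      (derivative^[m] (sextic (C a) (C b) X (C py) (C rx) (C ry))).map (ztEval j q) =
        derivative^[m] (sexticPoly (ztEval j q a) (ztEval j q b) (ztEval j q py) (ztEval j q rx)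
          (ztEval j q ry)) := fun m j q => by
    rw [← iterate_derivative_map, sexticPoly]
    congr 1
    simpa using map_sextic (mapRingHom (ztEval j q)) (C a) (C b) X (C py) (C rx) (C ry)
  refine ⟨B, (h.congr fun i q _ => ?_).coeff (fun i p _ => ?_) fun _ _ _ => rfl⟩
  · simp only [e]; rfl
  · simp only [← Function.iterate_succ_apply' derivative, e]; rfl

end Top

end

end Vale.Agent.P205.Generic
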