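import Vale.Agent.P205.Generic.Avoid

/-!
Avoidance from partial derivatives: near a diagonal with entries at least `δ`, three (or `n`)
parameter directions spread out, so one parameter keeps all values away from a small ball.
-/

namespace Vale.Agent.P205.Generic

open Set Metric

variable {p n : ℕ}

/-- The sup norm of a diagonal image is at least `δ` times the norm. -/
lemma norm_le_inv_mul_norm_diag {c : Fin n → ℝ} {δ : ℝ} (hδ : 0 < δ) (hc : ∀ i, δ ≤ |c i|)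
    (h : Fin n → ℝ) : ‖h‖ ≤ δ⁻¹ * ‖fun i => c i * h i‖ := by
  refine (pi_norm_le_iff_of_nonneg (by positivity)).mpr fun i => ?_
  rw [← div_eq_inv_mul, le_div_iff₀ hδ, Real.norm_eq_abs]
  refine le_trans ?_ (norm_le_pi_norm (fun i => c i * h i) i)
  rw [Real.norm_eq_abs, abs_mul, mul_comm |h i| δ]
  gcongr
  exact hc i

/-- A linear map whose matrix is within `ε` of a diagonal one is within `n ε` of it. -/
lemma norm_sub_diag_le (L : (Fin n → ℝ) →L[ℝ] (Fin n → ℝ)) (c : Fin n → ℝ) {ε : ℝ} (hε : 0 ≤ ε)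
    (hL : ∀ i j, |L (Pi.single j 1) i - if i = j then c i else 0| ≤ ε) :
    ‖L - ContinuousLinearMap.pi fun i => c i • ContinuousLinearMap.proj i‖ ≤ n * ε := by
  refine ContinuousLinearMap.opNorm_le_bound _ (by positivity) fun h => ?_
  refine (pi_norm_le_iff_of_nonneg (by positivity)).mpr fun i => ?_
  have e : L h i = ∑ j, h j * L (Pi.single j 1) i := by
    conv_lhs => rw [show h = ∑ j, h j • (Pi.single j (1 : ℝ) : Fin n → ℝ) from by
      funext k; simp [Finset.sum_apply, Pi.single_apply]]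
    simp [map_sum, Finset.sum_apply]
  have e2 : c i * h i = ∑ j, h j * if i = j then c i else 0 := by simp [mul_comm]
  have e3 : (L - ContinuousLinearMap.pi fun i => c i • ContinuousLinearMap.proj i :
      (Fin n → ℝ) →L[ℝ] (Fin n → ℝ)) h i =
      ∑ j, h j * (L (Pi.single j 1) i - if i = j then c i else 0) := by
    simp only [sub_apply, Pi.sub_apply, ContinuousLinearMap.pi_apply,
      smul_apply, ContinuousLinearMap.proj_apply, smul_eq_mul, e, e2,
      mul_sub, Finset.sum_sub_distrib]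
  rw [e3, Real.norm_eq_abs]
  refine (Finset.abs_sum_le_sum_abs _ _).trans ?_
  calc ∑ j, |h j * (L (Pi.single j 1) i - if i = j then c i else 0)|
      ≤ ∑ _j : Fin n, ‖h‖ * ε := Finset.sum_le_sum fun j _ => by
        rw [abs_mul]
        exact mul_le_mul (by simpa [Real.norm_eq_abs] using norm_le_pi_norm h j) (hL i j)
          (abs_nonneg _) (norm_nonneg _)
    _ = n * ε * ‖h‖ := by simp; ring

/-- Avoidance on a region when, along `n` directions at each point, the matrix of partial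
derivatives is within `ε` of a diagonal matrix with entries of absolute value at least `δ`. -/
theorem exists_avoid_of_diag (G : Set (ℝ × ℝ))
    (Φ : ℝ × ℝ → (Fin p → ℝ) → (Fin n → ℝ)) (hΦ : ∀ x ∈ G, Continuous (Φ x))
    (v : ℝ × ℝ → (Fin n → ℝ) →L[ℝ] (Fin p → ℝ))
    (hv : ∀ x ∈ G, ∀ s, ‖s‖ ≤ 1 → ‖v x s‖ ≤ 1)
    (dΦ : ℝ × ℝ → (Fin p → ℝ) → (Fin p → ℝ) →L[ℝ] (Fin n → ℝ))
    (hd : ∀ x ∈ G, ∀ τ, ‖τ‖ ≤ 3 → HasFDerivAt (Φ x) (dΦ x τ) τ)
    (c : ℝ × ℝ → Fin n → ℝ) {L δ ε Λ η : ℝ} (hδ : 0 < δ) (hε : 0 ≤ ε)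
    (hεδ : 2 * (n * ε) ≤ δ) (hc : ∀ x ∈ G, ∀ i, δ ≤ |c x i|)
    (hdiag : ∀ x ∈ G, ∀ τ, ‖τ‖ ≤ 3 → ∀ i j,
      |dΦ x τ (v x (Pi.single j 1)) i - if i = j then c x i else 0| ≤ ε)
    (hG : ∀ x ∈ G, ‖x‖ ≤ L) (hΛ : 0 < Λ) (hη : 0 < η)
    (hlip : ∀ x ∈ G, ∀ y ∈ G, ∀ τ : Fin p → ℝ, ‖τ‖ ≤ 1 → ‖Φ x τ - Φ y τ‖ ≤ Λ * ‖x - y‖)
    (hsmall : (2 * L * Λ / η + 2) ^ 2 * 2 ^ p * (8 * η / δ) ^ n < 1) :
    ∃ τ : Fin p → ℝ, ‖τ‖ ≤ 1 ∧ ∀ x ∈ G, η ≤ ‖Φ x τ‖ := by
  refine exists_avoid_region G Φ hΦ v hv hG (B := 2 * δ⁻¹) (by positivity) hΛ hη hlip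
    (fun x hx τ s s' hτ hs hs' => ?_) ?_
  · have hmem : ∀ t ∈ closedBall (0 : Fin n → ℝ) 1, ‖τ + v x t‖ ≤ 3 := fun t ht =>
      (norm_add_le _ _).trans (by linarith [hv x hx t (by simpa using ht)])
    have key := dist_le_of_fderiv_near (f := fun t => Φ x (τ + v x t))
      (f' := fun t => (dΦ x (τ + v x t)).comp (v x)) (convex_closedBall (0 : Fin n → ℝ) 1)
      (J := ContinuousLinearMap.pi fun i => c x i • ContinuousLinearMap.proj i)
      (B := δ⁻¹) (by positivity)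
      (fun h => by simpa using norm_le_inv_mul_norm_diag hδ (hc x hx) h)
      (fun t ht => ((hd x hx _ (hmem t ht)).comp t
        ((v x).hasFDerivAt.const_add τ)).hasFDerivWithinAt)
      (fun t ht => by
        refine (norm_sub_diag_le _ _ hε fun i j => hdiag x hx _ (hmem t ht) i j).trans ?_
        rw [show 1 / (2 * δ⁻¹) = δ / 2 by field_simp]
        linarith)
      (x := s') (y := s) (by simpa using hs') (by simpa using hs)
    exact key
  · rwa [show 4 * (2 * δ⁻¹) * η = 8 * η / δ by ring]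

end Vale.Agent.P205.Generic
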