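import Vale.Agent.P205.Generic.Drift
import Vale.Agent.P205.Generic.Sextic

/-!
The stages of genericity for a family with given top coefficients: on `c = (P, R) ≈ 0` first
`∂x R + 2 ∂y P`, then the Jacobian of `c`, then the derivatives of the sextic in descending order;
away from it the first three `Dc`, then the determinants of the chain.
-/

namespace Vale.Agent.P205.Generic

open scoped ContDiff
open Set Metric Vale.Agent.P205.Algebra

noncomputable section

/-- `∂x R + 2 ∂y P`. -/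
def tq (F : R2 → V4) (x : R2) : ℝ :=
  Algebra.dx (cR one F) x + 2 * Algebra.dy (cP one F) x

/-- The Jacobian of `(P, R)`. -/
def jac (F : R2 → V4) (x : R2) : ℝ :=
  D1 (Algebra.dx (cP one F) x) (Algebra.dy (cP one F) x) (Algebra.dx (cR one F) x)
    (Algebra.dy (cR one F) x)

/-- `Dc` along the chain. -/
def dck (k : ℕ) (F : R2 → V4) : R2 → ℝ := Dc one F (chain one F k)

/-- The chain determinant cleared of its denominator. -/
def kdet (j k : ℕ) (F : R2 → V4) (x : R2) : ℝ := k1 one F x * detChain one F j k x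

lemma dck_zero (F : R2 → V4) : dck 0 F = quad0 one F := rfl

variable {ι : Type*} {p : ℕ} {P : Pert ι p}
variable {ζ μ A20 A11 B20 B11 : Dir ι p → R2 → ℝ}

lemma Pert.slice_var (j : Dir ι p) : slice P.var j 0 = P.H j.1 j.2.1 := by
  funext x
  show P.H j.1 (j.2.1 + (0 : ℝ) • (j.2.2 : Fin p → ℝ)) x = _
  rw [zero_smul, add_zero]

lemma Pert.Presc.mono {G G' : ι → Set R2} (h : P.Presc ζ G) (hsub : ∀ i, G' i ⊆ G i) :
    P.Presc ζ G' := by
  obtain ⟨k, hk⟩ := h
  exact ⟨k, fun a b s ha hb hs i x hx => hk a b s ha hb hs i x (hsub i hx)⟩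

/-- The stage succeeded. -/
def Pert.Avoids (P : Pert ι p) (K : ℕ) (i : ι) (G : Set R2) (Φ : Fin 3 → (R2 → V4) → R2 → ℝ) :
    Prop :=
  ∃ τ : Fin p → ℝ, ‖τ‖ ≤ 1 ∧
    ∀ x ∈ G, 1 ≤ (P.big i * P.freq i / P.amp i) ^ K * ‖fun l => Φ l (P.H i τ) x‖

/-- The amplitude is negligible against the scale. -/
def Pert.Small (P : Pert ι p) (K : ℕ) (i : ι) : Prop :=
  P.big i ^ K ≤ P.freq i ∧ P.big i ^ K * (P.amp i * P.freq i ^ 10) ≤ 1

lemma Pert.Small.mono {K K' : ℕ} {i : ι} (h : P.Small K i) (hK : K' ≤ K) : P.Small K' i := by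
  have hp := pow_le_pow_right₀ (P.toScale.one_le i) hK
  refine ⟨hp.trans h.1, (mul_le_mul_of_nonneg_right hp ?_).trans h.2⟩
  have := P.amp_pos i; have := P.one_le_freq i
  positivity

lemma Pert.Small.drift {C n i} (h : P.Small C i) (hn : n + 2 ≤ 10) :
    P.big i ^ C * (P.amp i * P.freq i ^ (n + 2)) ≤ 1 :=
  (mul_le_mul_of_nonneg_left (mul_le_mul_of_nonneg_left
    (pow_le_pow_right₀ (P.one_le_freq i) hn) (P.amp_pos i).le)
    (by have := P.toScale.one_le i; positivity)).trans h.2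

/-- The ambient data of all stages. -/
structure Setting (P : Pert ι p) (G : ι → Set R2) (ζ μ A20 A11 B20 B11 : Dir ι p → R2 → ℝ) : Prop
    where
  top : Top P.vscale P.var ζ μ A20 A11 B20 B11
  thick : ∃ L : ℕ, P.Thick G L
  presc : P.Presc ζ G

variable {G : ι → Set R2}

/-- `μ iW` is bounded below. -/
def MuLow (P : Pert ι p) (μ : Dir ι p → R2 → ℝ) (G : ι → Set R2) (d : ℕ) : Prop :=
  ∀ j : Dir ι p, ∀ x ∈ G j.1, 1 ≤ P.big j.1 ^ d * |μ j x * iW one (P.H j.1 j.2.1) x|

lemma Setting.mono {G' : ι → Set R2} (h : Setting P G ζ μ A20 A11 B20 B11)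
    (hG : ∀ i, G' i ⊆ G i) : Setting P G' ζ μ A20 A11 B20 B11 :=
  ⟨h.top, h.thick.imp fun _ hL => hL.mono hG, h.presc.mono hG⟩

namespace Setting

variable (hS : Setting P G ζ μ A20 A11 B20 B11)
include hS

lemma exp_tq : Exp P.vscale ζ 1 (lf P.var tq) (fun _ _ => 0)
    (fun j x => 4 * (μ j x * iW one (slice P.var j 0) x)) :=
  (Exp.congr (hS.top.exp_dRx.add (hS.top.exp_dPy.const_mul 2)) fun _ _ _ => rfl).coeff
    (fun _ _ _ => by simp) (fun _ _ _ => by ring)

lemma exp_jac : Exp P.vscale ζ 1 (lf P.var jac)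
    (fun j x => μ j x * iW one (slice P.var j 0) x * Algebra.dy (cR one (slice P.var j 0)) x)
    (fun j x => -(μ j x * iW one (slice P.var j 0) x * tq (slice P.var j 0) x)) :=
  (Exp.congr ((hS.top.exp_dPx.mul hS.top.exp_dRy).sub (hS.top.exp_dPy.mul hS.top.exp_dRx))
    fun _ _ _ => rfl).coeff (fun j x _ => by simp [base0, lf])
    (fun j x _ => by simp [base0, lf, tq]; ring)

/-- First stage: `(P, R, ∂x R + 2 ∂y P)`. -/
theorem stage_tq {d : ℕ} (hμ : MuLow P μ G d) (hP : P.Smooth (cP one)) (hR : P.Smooth (cR one))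
    (hq : P.Smooth tq) :
    ∃ K, ∀ i, P.Small K i → P.Avoids K i (G i) ![cP one, cR one, tq] := by
  obtain ⟨L, hL⟩ := hS.thick
  refine Exists.elim (P.stage_rows ![cP one, cR one, tq]
    (Fin.forall_fin_succ.2 ⟨hP, Fin.forall_fin_succ.2 ⟨hR, Fin.forall_fin_succ.2
      ⟨hq, fun l => l.elim0⟩⟩⟩)
    ![0, 0, 1] (by intro l; fin_cases l <;> simp)
    (c20 := ![fun j x => μ j x * iW one (slice P.var j 0) x, fun _ _ => 0, fun _ _ => 0])
    (c11 := ![fun _ _ => 0, fun j x => 2 * μ j x * iW one (slice P.var j 0) x,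
      fun j x => 4 * (μ j x * iW one (slice P.var j 0) x)])
    (by intro l; fin_cases l; exacts [hS.top.exp_cP, hS.top.exp_cR, hS.exp_tq])
    G hL hS.presc (fun _ _ => ![true, false, false]) (d := d)
    (fun j x hx l => ?_) (fun j x _ l m hlm hn => ?_)) fun K hK => ?_
  · have h := hμ j x hx
    rw [← Pert.slice_var] at h
    have hb : 0 ≤ P.big j.1 ^ d := by have := P.toScale.one_le j.1; positivity
    fin_cases l
    · simpa using h
    · refine h.trans (mul_le_mul_of_nonneg_left ?_ hb)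
      simp [abs_mul]
      nlinarith [abs_nonneg (μ j x), abs_nonneg (iW one (slice P.var j 0) x)]
    · refine h.trans (mul_le_mul_of_nonneg_left ?_ hb)
      simp [abs_mul]
      nlinarith [abs_nonneg (μ j x), abs_nonneg (iW one (slice P.var j 0) x)]
  · fin_cases l <;> fin_cases m <;> simp at hlm hn ⊢
  · exact ⟨K, fun i hi => hK i hi.1⟩

/-- Second stage: the Jacobian of `(P, R)` where `∂x R + 2 ∂y P` is large. -/
theorem stage_jac {d : ℕ} (hμ : MuLow P μ G d) (hP : P.Smooth (cP one)) (hR : P.Smooth (cR one))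
    (hq : P.Smooth tq) (hJ : P.Smooth jac) :
    ∃ K, ∀ i, P.Small K i → P.Avoids K i
      {x ∈ G i | 1 ≤ P.big i ^ d * |tq (P.H i 0) x|} ![cP one, cR one, jac] := by
  obtain ⟨L, hL⟩ := hS.thick
  obtain ⟨C, hC⟩ := Pert.drift_lower hq hS.top.zeta hS.exp_tq
  set G' : ι → Set R2 := fun i =>
    {x | x ∈ G i ∧ P.Small (C + d) i ∧ 1 ≤ P.big i ^ d * |tq (P.H i 0) x|}
  refine Exists.elim (P.stage_rows ![cP one, cR one, jac]
    (Fin.forall_fin_succ.2 ⟨hP, Fin.forall_fin_succ.2 ⟨hR, Fin.forall_fin_succ.2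
      ⟨hJ, fun l => l.elim0⟩⟩⟩)
    ![0, 0, 1] (by intro l; fin_cases l <;> simp)
    (c20 := ![fun j x => μ j x * iW one (slice P.var j 0) x, fun _ _ => 0,
      fun j x => μ j x * iW one (slice P.var j 0) x * Algebra.dy (cR one (slice P.var j 0)) x])
    (c11 := ![fun _ _ => 0, fun j x => 2 * μ j x * iW one (slice P.var j 0) x,
      fun j x => -(μ j x * iW one (slice P.var j 0) x * tq (slice P.var j 0) x)])
    (by intro l; fin_cases l; exacts [hS.top.exp_cP, hS.top.exp_cR, hS.exp_jac])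
    G' (hL.mono fun i x hx => hx.1) (hS.presc.mono fun i x hx => hx.1)
    (fun _ _ => ![true, false, false]) (d := d + (d + 1))
    (fun j x hx l => ?_) (fun j x _ l m hlm hn => ?_)) fun K hK => ?_
  · have h := hμ j x hx.1
    have hB := P.toScale.one_le j.1
    rw [← Pert.slice_var] at h
    have ht := hC d j.1 (hx.2.1.drift (by norm_num)) x (hL.sub _ hx.1) hx.2.2 j.2.1
      (mem_closedBall_zero_iff.mp j.2.1.2)
    rw [← Pert.slice_var] at ht
    have h' : 1 ≤ P.big j.1 ^ (d + (d + 1)) * |μ j x * iW one (slice P.var j 0) x| :=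
      h.trans (mul_le_mul_of_nonneg_right (pow_le_pow_right₀ hB (by omega)) (abs_nonneg _))
    fin_cases l
    · simpa using h'
    · refine h'.trans (mul_le_mul_of_nonneg_left ?_ (by positivity))
      simp [abs_mul]
      nlinarith [abs_nonneg (μ j x), abs_nonneg (iW one (slice P.var j 0) x)]
    · rw [pow_add]
      refine (one_le_mul_of_one_le_of_one_le h ht).trans_eq ?_
      simp
      ring
  · fin_cases l <;> fin_cases m <;> simp at hlm hn ⊢
  · refine ⟨max K (C + d), fun i hi => ?_⟩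
    obtain ⟨τ, hτ, h⟩ := hK i (hi.mono (le_max_left _ _)).1
    refine ⟨τ, hτ, fun x hx => (h x ⟨hx.1, hi.mono (le_max_right _ _), hx.2⟩).trans ?_⟩
    refine mul_le_mul_of_nonneg_right (pow_le_pow_right₀ ?_ (le_max_left _ _)) (norm_nonneg _)
    rw [le_div_iff₀ (P.amp_pos i), one_mul]
    nlinarith [P.amp_le i, P.toScale.one_le i, P.one_le_freq i]

/-- Third stage: a derivative of the sextic where the next one is large. -/
theorem stage_sx (k : ℕ) {d : ℕ} (hμ : MuLow P μ G d) (hP : P.Smooth (cP one))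
    (hR : P.Smooth (cR one)) (hs : P.Smooth (sx k)) (hs' : P.Smooth (sx (k + 1))) :
    ∃ K, ∀ i, P.Small K i → P.Avoids K i
      {x ∈ G i | 1 ≤ P.big i ^ d * |sx (k + 1) (P.H i 0) x|} ![cP one, cR one, sx k] := by
  obtain ⟨L, hL⟩ := hS.thick
  obtain ⟨B, hB⟩ := hS.top.exp_sx k
  obtain ⟨B', hB'⟩ := hS.top.exp_sx (k + 1)
  obtain ⟨C, hC⟩ := Pert.drift_lower hs' hS.top.zeta hB'
  set G' : ι → Set R2 := fun i =>
    {x | x ∈ G i ∧ P.Small (C + d) i ∧ 1 ≤ P.big i ^ d * |sx (k + 1) (P.H i 0) x|}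
  refine Exists.elim (P.stage_rows ![cP one, cR one, sx k]
    (Fin.forall_fin_succ.2 ⟨hP, Fin.forall_fin_succ.2 ⟨hR, Fin.forall_fin_succ.2
      ⟨hs, fun l => l.elim0⟩⟩⟩)
    ![0, 0, 1] (by intro l; fin_cases l <;> simp)
    (c20 := ![fun j x => μ j x * iW one (slice P.var j 0) x, fun _ _ => 0,
      fun j x => sx (k + 1) (slice P.var j 0) x * (μ j x * iW one (slice P.var j 0) x)])
    (c11 := ![fun _ _ => 0, fun j x => 2 * μ j x * iW one (slice P.var j 0) x, B])
    (by intro l; fin_cases l; exacts [hS.top.exp_cP, hS.top.exp_cR, hB])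
    G' (hL.mono fun i x hx => hx.1) (hS.presc.mono fun i x hx => hx.1)
    (fun _ _ => ![true, false, true]) (d := d + (d + 1))
    (fun j x hx l => ?_) (fun j x _ l m hlm hn => ?_)) fun K hK => ?_
  · have h := hμ j x hx.1
    have hB := P.toScale.one_le j.1
    rw [← Pert.slice_var] at h
    have ht := hC d j.1 (hx.2.1.drift (by norm_num)) x (hL.sub _ hx.1) hx.2.2 j.2.1
      (mem_closedBall_zero_iff.mp j.2.1.2)
    rw [← Pert.slice_var] at ht
    have h' : 1 ≤ P.big j.1 ^ (d + (d + 1)) * |μ j x * iW one (slice P.var j 0) x| :=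
      h.trans (mul_le_mul_of_nonneg_right (pow_le_pow_right₀ hB (by omega)) (abs_nonneg _))
    fin_cases l
    · simpa using h'
    · refine h'.trans (mul_le_mul_of_nonneg_left ?_ (by positivity))
      simp [abs_mul]
      nlinarith [abs_nonneg (μ j x), abs_nonneg (iW one (slice P.var j 0) x)]
    · rw [pow_add]
      refine (one_le_mul_of_one_le_of_one_le h ht).trans_eq ?_
      simp
      ring
  · fin_cases l <;> fin_cases m <;> simp at hlm hn ⊢
  · refine ⟨max K (C + d), fun i hi => ?_⟩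
    obtain ⟨τ, hτ, h⟩ := hK i (hi.mono (le_max_left _ _)).1
    refine ⟨τ, hτ, fun x hx => (h x ⟨hx.1, hi.mono (le_max_right _ _), hx.2⟩).trans ?_⟩
    refine mul_le_mul_of_nonneg_right (pow_le_pow_right₀ ?_ (le_max_left _ _)) (norm_nonneg _)
    rw [le_div_iff₀ (P.amp_pos i), one_mul]
    nlinarith [P.amp_le i, P.toScale.one_le i, P.one_le_freq i]

/-- Fourth stage: `(Dc₀, Dc₁, Dc₂)`, given where `Dc₀ ≈ 0` a nondegenerate top coefficient. -/
theorem stage_Dc (hs : ∀ k, P.Smooth (dck k)) (sel : ι → R2 → Bool) {d : ℕ}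
    (hlow : ∀ j : Dir ι p, ∀ x ∈ G j.1, P.Small d j.1 →
      P.big j.1 ^ d * |quad0 one (P.H j.1 0) x| ≤ 1 → ∀ k ≤ 2, 1 ≤ P.big j.1 ^ d *
        |if sel j.1 x then topC k (a20 P.var μ A20 B20 j x) (slice P.var j 0) x
          else crossC k (a20 P.var μ A20 B20 j x) (a11 P.var μ A11 B11 j x)
            (slice P.var j 0) x|) :
    ∃ K, ∀ i, P.Small K i → P.Avoids K i (G i) ![dck 0, dck 1, dck 2] := by
  obtain ⟨L, hL⟩ := hS.thick
  choose β β' hβ hβ' hexp using fun l : Fin 3 => hS.top.exp_Dc l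
  choose Cb hCb using fun l => (hβ l).norm_le
  choose Cb' hCb' using fun l => (hβ' l).norm_le
  obtain ⟨C, hC⟩ := Pert.drift (hs 0) hS.top.zeta (hexp 0)
  set Cβ := Cb 0 + Cb 1 + Cb 2 + Cb' 0 + Cb' 1 + Cb' 2 with hCβ
  set D := d + Cβ + 2 with hD
  set G' : ι → Set R2 := fun i =>
    {x | x ∈ G i ∧ P.Small (C + D + 1) i ∧ P.big i ^ D * |quad0 one (P.H i 0) x| ≤ 1}
  refine Exists.elim (P.stage_rows ![dck 0, dck 1, dck 2]
    (Fin.forall_fin_succ.2 ⟨hs 0, Fin.forall_fin_succ.2 ⟨hs 1, Fin.forall_fin_succ.2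
      ⟨hs 2, fun l => l.elim0⟩⟩⟩)
    (fun l => (l : ℕ)) (by intro l; omega)
    (c20 := fun l j x => topC l (a20 P.var μ A20 B20 j x) (slice P.var j 0) x
      + quad0 one (slice P.var j 0) x * β l j x)
    (c11 := fun l j x => crossC l (a20 P.var μ A20 B20 j x) (a11 P.var μ A11 B11 j x)
      (slice P.var j 0) x + quad0 one (slice P.var j 0) x * β' l j x)
    (by intro l; fin_cases l; exacts [hexp 0, hexp 1, hexp 2])
    G' (hL.mono fun i x hx => hx.1) (hS.presc.mono fun i x hx => hx.1)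
    (fun i x _ => sel i x) (d := d + 1) (fun j x hx l => ?_)
    (fun j x _ l m hlm hn => absurd (Fin.ext hn) hlm)) fun K hK => ?_
  · obtain ⟨hxG, hsmall, hq0⟩ := hx
    have hB := P.toScale.one_le j.1
    have hB2 := P.two_le j.1
    have hl : (l : ℕ) ≤ 2 := by omega
    have hq0d : P.big j.1 ^ d * |quad0 one (P.H j.1 0) x| ≤ 1 :=
      (mul_le_mul_of_nonneg_right (pow_le_pow_right₀ hB (by omega)) (abs_nonneg _)).trans hq0
    have hmain := hlow j x hxG (hsmall.mono (by omega)) hq0d l hl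
    have h1 := hC j.1 x (hL.sub _ hxG) j.2.1 (mem_closedBall_zero_iff.mp j.2.1.2)
    simp only [Fin.isValue, dck_zero] at h1
    have h3 : P.big j.1 ^ (C + D + 1) * (P.amp j.1 * P.freq j.1 ^ (0 + 2)) ≤ 1 :=
      hsmall.drift (by norm_num)
    have hq : P.big j.1 ^ D * |quad0 one (slice P.var j 0) x| ≤ 2 := by
      rw [Pert.slice_var]
      have h2 := (abs_sub_abs_le_abs_sub (quad0 one (P.H j.1 j.2.1) x)
        (quad0 one (P.H j.1 0) x)).trans h1
      have h4 := mul_le_mul_of_nonneg_left h2 (by positivity : (0 : ℝ) ≤ P.big j.1 ^ D)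
      rw [← mul_assoc, ← pow_add, mul_sub] at h4
      have h5 := mul_le_mul_of_nonneg_right (pow_le_pow_right₀ hB
        (show D + C ≤ C + D + 1 by omega)) (mul_nonneg (P.amp_pos j.1).le
          (pow_nonneg (zero_le_one.trans (P.one_le_freq j.1)) (0 + 2)))
      norm_num at h3 h4 h5 ⊢
      linarith
    have hCl : Cb l ≤ Cβ ∧ Cb' l ≤ Cβ := by fin_cases l <;> simp [Cβ] <;> omega
    have hbs : ∀ (b : ℝ), |b| ≤ P.big j.1 ^ Cβ →
        2 * P.big j.1 ^ d * |quad0 one (slice P.var j 0) x * b| ≤ 1 := fun b hb => by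
      rw [abs_mul, ← mul_assoc]
      refine (mul_le_mul_of_nonneg_left hb (by positivity)).trans ?_
      have h6 := mul_le_mul_of_nonneg_left hB2
        (by positivity : (0 : ℝ) ≤ P.big j.1 ^ d * P.big j.1 ^ Cβ * |quad0 one (slice P.var j 0) x|)
      have h7 := mul_le_mul_of_nonneg_left hB2
        (by positivity : (0 : ℝ) ≤ P.big j.1 ^ d * P.big j.1 ^ Cβ * P.big j.1 *
          |quad0 one (slice P.var j 0) x|)
      rw [hD, pow_add, pow_add] at hq
      linarith
    show 1 ≤ P.big j.1 ^ (d + 1) * |_|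
    cases hsel : sel j.1 x
    all_goals simp only [hsel, Bool.false_eq_true, ↓reduceIte] at hmain ⊢
    · have hb := hbs (β' l j x) ((hCb' l j x (hL.sub _ hxG)).trans
        (pow_le_pow_right₀ hB hCl.2))
      have h8 := abs_sub_abs_le_abs_sub (crossC l (a20 P.var μ A20 B20 j x)
        (a11 P.var μ A11 B11 j x) (slice P.var j 0) x)
        (-(quad0 one (slice P.var j 0) x * β' l j x))
      rw [abs_neg, sub_neg_eq_add] at h8
      rw [pow_succ]
      have h9 := mul_le_mul_of_nonneg_left h8 (by positivity : (0 : ℝ) ≤ P.big j.1 ^ d)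
      nlinarith [mul_le_mul_of_nonneg_right hB2 (mul_nonneg (pow_nonneg (zero_le_one.trans hB) d)
        (abs_nonneg (crossC l (a20 P.var μ A20 B20 j x) (a11 P.var μ A11 B11 j x)
          (slice P.var j 0) x + quad0 one (slice P.var j 0) x * β' l j x)))]
    · have hb := hbs (β l j x) ((hCb l j x (hL.sub _ hxG)).trans (pow_le_pow_right₀ hB hCl.1))
      have h8 := abs_sub_abs_le_abs_sub (topC l (a20 P.var μ A20 B20 j x) (slice P.var j 0) x)
        (-(quad0 one (slice P.var j 0) x * β l j x))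
      rw [abs_neg, sub_neg_eq_add] at h8
      rw [pow_succ]
      have h9 := mul_le_mul_of_nonneg_left h8 (by positivity : (0 : ℝ) ≤ P.big j.1 ^ d)
      nlinarith [mul_le_mul_of_nonneg_right hB2 (mul_nonneg (pow_nonneg (zero_le_one.trans hB) d)
        (abs_nonneg (topC l (a20 P.var μ A20 B20 j x) (slice P.var j 0) x
          + quad0 one (slice P.var j 0) x * β l j x)))]
  · refine ⟨max K (C + D + 2), fun i hi => ?_⟩
    obtain ⟨τ, hτ, h⟩ := hK i (hi.mono (le_max_left _ _)).1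
    have hB := P.toScale.one_le i
    have hA := P.amp_pos i
    have hT : P.big i ≤ P.big i * P.freq i / P.amp i := by
      rw [le_div_iff₀ hA]; nlinarith [P.amp_le i, P.one_le_freq i]
    refine ⟨τ, hτ, fun x hx => ?_⟩
    by_cases hsm : P.big i ^ D * |quad0 one (P.H i 0) x| ≤ 1
    · refine (h x ⟨hx, hi.mono (le_max_of_le_right (by omega)), hsm⟩).trans ?_
      exact mul_le_mul_of_nonneg_right (pow_le_pow_right₀ (hB.trans hT) (le_max_left _ _))
        (norm_nonneg _)
    · have h1 := hC i x (hL.sub i hx) τ (hτ.trans (by norm_num))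
      simp only [Fin.isValue, dck_zero] at h1
      have h2 := abs_sub_abs_le_abs_sub (quad0 one (P.H i 0) x) (quad0 one (P.H i τ) x)
      rw [abs_sub_comm] at h2
      have h3 : P.big i ^ (C + D + 1) * (P.amp i * P.freq i ^ (0 + 2)) ≤ 1 :=
        (hi.mono (le_max_of_le_right (by omega))).drift (by norm_num)
      have h4 := mul_le_mul_of_nonneg_left (h2.trans h1)
        (by positivity : (0 : ℝ) ≤ P.big i ^ (D + 1))
      have h5 : P.big i ≤ P.big i ^ (D + 1) * |quad0 one (P.H i 0) x| := by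
        rw [pow_succ, mul_right_comm]
        nlinarith [(not_le.mp hsm).le]
      rw [← mul_assoc, ← pow_add, show D + 1 + C = C + D + 1 by omega] at h4
      have h6 : 1 ≤ P.big i ^ (D + 1) * |quad0 one (P.H i τ) x| := by
        norm_num at h3 h4
        linarith [P.two_le i]
      refine h6.trans (mul_le_mul ((pow_le_pow_left₀ (by linarith) hT _).trans
        (pow_le_pow_right₀ (hB.trans hT) (le_max_of_le_right (by omega)))) ?_ (abs_nonneg _)
        (pow_nonneg (by linarith) _))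
      exact norm_le_pi_norm (fun l => (![dck 0, dck 1, dck 2] : Fin 3 → _) l (P.H i τ) x) 0

/-- Fifth stage: the determinants of the chain where some `Dc_j` is large. -/
theorem stage_det {j₀ : ℕ} (hj₀ : j₀ ≤ 2) (hs : P.Smooth (dck j₀))
    (hk : ∀ k, P.Smooth (kdet j₀ k)) (sel : ι → R2 → Bool) {d : ℕ}
    (hlow : ∀ j : Dir ι p, ∀ x ∈ G j.1, P.Small d j.1 →
      1 ≤ P.big j.1 ^ d * |dck j₀ (P.H j.1 0) x| → ∀ k, 3 ≤ k → k ≤ 5 → 1 ≤ P.big j.1 ^ d *
        |if sel j.1 x then topC k (b20 P.var μ j x) (slice P.var j 0) x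
          else crossC k (b20 P.var μ j x) (b11 P.var μ A20 B20 j x) (slice P.var j 0) x|) :
    ∃ K, ∀ i, P.Small K i → P.Avoids K i
      {x ∈ G i | 1 ≤ P.big i ^ d * |dck j₀ (P.H i 0) x|} ![kdet j₀ 3, kdet j₀ 4, kdet j₀ 5] := by
  obtain ⟨L, hL⟩ := hS.thick
  obtain ⟨β, β', -, -, hDj⟩ := hS.top.exp_Dc j₀
  obtain ⟨C, hC⟩ := Pert.drift_lower hs hS.top.zeta hDj
  set G' : ι → Set R2 := fun i =>
    {x | x ∈ G i ∧ P.Small (C + d) i ∧ 1 ≤ P.big i ^ d * |dck j₀ (P.H i 0) x|}
  refine Exists.elim (P.stage_rows ![kdet j₀ 3, kdet j₀ 4, kdet j₀ 5]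
    (Fin.forall_fin_succ.2 ⟨hk 3, Fin.forall_fin_succ.2 ⟨hk 4, Fin.forall_fin_succ.2
      ⟨hk 5, fun l => l.elim0⟩⟩⟩)
    (fun l => (l : ℕ) + 3 + 1) (by intro l; omega)
    (c20 := fun l j x => -(Dc one (slice P.var j 0) (chain one (slice P.var j 0) j₀) x
      * topC (l + 3) (b20 P.var μ j x) (slice P.var j 0) x))
    (c11 := fun l j x => -(Dc one (slice P.var j 0) (chain one (slice P.var j 0) j₀) x
      * crossC (l + 3) (b20 P.var μ j x) (b11 P.var μ A20 B20 j x) (slice P.var j 0) x))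
    (by intro l; fin_cases l; exacts [hS.top.exp_det (by omega : j₀ < 3),
      hS.top.exp_det (by omega : j₀ < 4), hS.top.exp_det (by omega : j₀ < 5)])
    G' (hL.mono fun i x hx => hx.1) (hS.presc.mono fun i x hx => hx.1)
    (fun i x _ => sel i x) (d := d + 1 + d) (fun j x hx l => ?_)
    (fun j x _ l m hlm hn => absurd (Fin.ext (by simpa using hn)) hlm)) fun K hK => ?_
  · have hB := P.toScale.one_le j.1
    have ht := hC d j.1 (hx.2.1.drift (by omega)) x (hL.sub _ hx.1) hx.2.2 j.2.1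
      (mem_closedBall_zero_iff.mp j.2.1.2)
    have hm := hlow j x hx.1 (hx.2.1.mono (by omega)) hx.2.2 (l + 3) (by omega) (by omega)
    rw [← Pert.slice_var] at ht
    show 1 ≤ P.big j.1 ^ (d + 1 + d) * |_|
    rw [pow_add]
    refine (one_le_mul_of_one_le_of_one_le ht hm).trans_eq ?_
    cases sel j.1 x <;> simp [abs_mul, dck] <;> ring
  · refine ⟨max K (C + d), fun i hi => ?_⟩
    obtain ⟨τ, hτ, h⟩ := hK i (hi.mono (le_max_left _ _)).1
    refine ⟨τ, hτ, fun x hx => (h x ⟨hx.1, hi.mono (le_max_right _ _), hx.2⟩).trans ?_⟩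
    refine mul_le_mul_of_nonneg_right (pow_le_pow_right₀ ?_ (le_max_left _ _)) (norm_nonneg _)
    rw [le_div_iff₀ (P.amp_pos i), one_mul]
    nlinarith [P.amp_le i, P.toScale.one_le i, P.one_le_freq i]

end Setting

end

end Vale.Agent.P205.Generic
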