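import Vale.Agent.P205.Generic.Invariants

/-!
What the multiplier chain needs of a variation: the top coefficients of `P, R` are `μ iW` and
`2 μ iW`, those of `a, b` are given, the Christoffel symbols are of order zero.
-/

namespace Vale.Agent.P205.Generic

open scoped ContDiff RealInnerProductSpace
open Set Vale.Agent.P205.Algebra

noncomputable section

variable {ι : Type*}

/-- Top coefficients of the variations of the invariants of order zero. -/
structure Top (S : VScale ι) (G : ι → Ext → V4) (ζ μ A20 A11 B20 B11 : ι → ℝ × ℝ → ℝ) :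
    Prop where
  zeta : O S 1 ζ
  nondeg : Nondeg S G
  exp_cP : Exp S ζ 0 (lf G (cP one)) (fun i p => μ i p * iW one (slice G i 0) p)
    (fun _ _ => 0)
  exp_cR : Exp S ζ 0 (lf G (cR one)) (fun _ _ => 0)
    (fun i p => 2 * μ i p * iW one (slice G i 0) p)
  exp_ca : Exp S ζ 0 (lf G (ca one)) A20 A11
  exp_cb : Exp S ζ 0 (lf G (cb one)) B20 B11
  chris : ∀ Φ ∈ [G111 one, G112 one, G122 one, G211 one, G212 one, G222 one],
    ∃ A B, Exp S ζ 0 (lf G Φ) A B

variable {S : VScale ι} {G : ι → Ext → V4}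

/-- A variation with tiny effect on the metric. -/
lemma Resp.top (hR : Resp S G) : Top S G (zeta G) (fun _ _ => 1) (fun _ _ => 0)
    (fun i p => -(iW one (slice G i 0) p * (detg (slice G i 0) p)⁻¹ * cR one (slice G i 0) p))
    (fun _ _ => 0) (fun _ _ => 0) :=
  ⟨hR.zeta_O, hR.toNondeg, hR.exp_cP.coeff (fun i p _ => by simp) (fun i p _ => by simp),
    hR.exp_cR.coeff (fun i p _ => by simp) (fun i p _ => by simp), hR.exp_ca, hR.exp_cb,
    by
      obtain ⟨a, b, c, d, e, f⟩ := hR.flat_G
      simp only [List.mem_cons, List.not_mem_nil, or_false, forall_eq_or_imp, forall_eq]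
      exact ⟨⟨_, _, a⟩, ⟨_, _, b⟩, ⟨_, _, c⟩, ⟨_, _, d⟩, ⟨_, _, e⟩, _, _, f⟩⟩

end

end Vale.Agent.P205.Generic
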