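import Vale.Agent.P205.Generic.Weight

/-!
Variations of families: a family depends on a parameter `s` and a point; `var1` is its derivative
at `s = 0`.  `Exp n` records the two top orders of a variation in terms of one scalar variation
`ζ`, modulo the weight class of order `n`.
-/

namespace Vale.Agent.P205.Generic

open scoped ContDiff
open Set

noncomputable section

variable {V : Type*} [NormedAddCommGroup V] [NormedSpace ℝ V]
variable {W : Type*} [NormedAddCommGroup W] [NormedSpace ℝ W]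
variable {X : Type*} [NormedAddCommGroup X] [NormedSpace ℝ X]
variable {ι : Type*}

/-- A parameter and a point. -/
abbrev Ext := ℝ × (ℝ × ℝ)

/-- A scale together with open windows in parameter and point, an amplitude and a frequency. -/
structure VScale (ι : Type*) extends Scale ι where
  /-- Where the families are smooth. -/
  win : ι → Set Ext
  /-- The amplitude of the variation. -/
  amp : ι → ℝ
  /-- The frequency of the variation. -/
  freq : ι → ℝ
  win_open : ∀ i, IsOpen (win i)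
  mem_win : ∀ i, ∀ p ∈ dom i, ((0 : ℝ), p) ∈ win i
  amp_nonneg : ∀ i, 0 ≤ amp i
  one_le_freq : ∀ i, 1 ≤ freq i

variable (S : VScale ι)

/-- Smoothness on the windows. -/
def Sm (G : ι → Ext → V) : Prop := ∀ i, ContDiffOn ℝ ∞ (G i) (S.win i)

/-- The value at parameter zero. -/
def base0 (G : ι → Ext → V) (i : ι) (p : ℝ × ℝ) : V := G i (0, p)

/-- The derivative in the parameter at zero. -/
def var1 (G : ι → Ext → V) (i : ι) (p : ℝ × ℝ) : V := fderiv ℝ (G i) (0, p) (1, 0)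

/-- The derivative in the first coordinate of the point. -/
def lX (G : ι → Ext → V) (i : ι) (q : Ext) : V := fderiv ℝ (G i) q (0, (1, 0))

/-- The derivative in the second coordinate of the point. -/
def lY (G : ι → Ext → V) (i : ι) (q : Ext) : V := fderiv ℝ (G i) q (0, (0, 1))

/-- Bounded base families. -/
def BaseBd (g : ι → ℝ × ℝ → V) : Prop := Bd S.toScale (fun _ => 1) (fun _ => 1) g

/-- The weight class of order `n`. -/
def O (n : ℕ) (g : ι → ℝ × ℝ → V) : Prop :=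
  Bd S.toScale (fun i => S.amp i * S.freq i ^ n) S.freq g

variable {S}

lemma VScale.freq_nonneg (i : ι) : 0 ≤ S.freq i := zero_le_one.trans (S.one_le_freq i)

lemma VScale.wt_nonneg (n : ℕ) (i : ι) : 0 ≤ S.amp i * S.freq i ^ n :=
  mul_nonneg (S.amp_nonneg i) (pow_nonneg (S.freq_nonneg i) n)

lemma O.add {n : ℕ} {f g : ι → ℝ × ℝ → V} (hf : O S n f) (hg : O S n g) :
    O S n (fun i => f i + g i) :=
  Bd.add (S.wt_nonneg n) S.freq_nonneg hf hg

lemma O.mono {m n : ℕ} (h : m ≤ n) {f : ι → ℝ × ℝ → V} (hf : O S m f) : O S n f :=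
  Bd.mono (S.wt_nonneg m) S.freq_nonneg (fun _ => le_rfl) (k := 0)
    (fun i => by
      simpa using mul_le_mul_of_nonneg_left (pow_le_pow_right₀ (S.one_le_freq i) h)
        (S.amp_nonneg i)) hf

lemma O.congr {n : ℕ} {f g : ι → ℝ × ℝ → V} (hf : O S n f)
    (h : ∀ i, EqOn (g i) (f i) (S.dom i)) : O S n g := Bd.congr hf h

lemma O.dy {n : ℕ} {f : ι → ℝ × ℝ → V} (hf : O S n f) : O S n (fun i => Generic.dy (f i)) :=
  Bd.dy hf

lemma O.dx {n : ℕ} {f : ι → ℝ × ℝ → V} (hf : O S n f) :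
    O S (n + 1) (fun i => Generic.dx (f i)) := by
  have h := Bd.dx hf
  have e : (fun i => S.amp i * S.freq i ^ n * S.freq i) = fun i => S.amp i * S.freq i ^ (n + 1) :=
    funext fun i => by rw [pow_succ]; ring
  rw [e] at h
  exact h

lemma BaseBd.wide {f : ι → ℝ × ℝ → V} (hf : BaseBd S f) :
    Bd S.toScale (fun _ => 1) S.freq f :=
  Bd.mono (fun _ => zero_le_one) (fun _ => zero_le_one) S.one_le_freq (k := 0)
    (fun _ => by simp) hf

lemma BaseBd.add {f g : ι → ℝ × ℝ → V} (hf : BaseBd S f) (hg : BaseBd S g) :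
    BaseBd S (fun i => f i + g i) :=
  Bd.add (fun _ => zero_le_one) (fun _ => zero_le_one) hf hg

lemma BaseBd.dx {f : ι → ℝ × ℝ → V} (hf : BaseBd S f) : BaseBd S (fun i => Generic.dx (f i)) := by
  have h := Bd.dx hf
  simp only [one_mul] at h
  exact h

lemma BaseBd.dy {f : ι → ℝ × ℝ → V} (hf : BaseBd S f) : BaseBd S (fun i => Generic.dy (f i)) :=
  Bd.dy hf

lemma BaseBd.congr {f g : ι → ℝ × ℝ → V} (hf : BaseBd S f)
    (h : ∀ i, EqOn (g i) (f i) (S.dom i)) : BaseBd S g := Bd.congr hf h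

lemma BaseBd.bilin {u : ι → ℝ × ℝ → V} {v : ι → ℝ × ℝ → W} (L : V →L[ℝ] W →L[ℝ] X)
    (hu : BaseBd S u) (hv : BaseBd S v) : BaseBd S (fun i p => L (u i p) (v i p)) := by
  have h := Bd.bilin L (fun _ => zero_le_one) (fun _ => zero_le_one) (fun _ => zero_le_one) hu hv
  simp only [one_mul] at h
  exact h

lemma O.bilin_base {n : ℕ} {u : ι → ℝ × ℝ → V} {v : ι → ℝ × ℝ → W} (L : V →L[ℝ] W →L[ℝ] X)
    (hu : O S n u) (hv : BaseBd S v) : O S n (fun i p => L (u i p) (v i p)) := by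
  have h := Bd.bilin L (S.wt_nonneg n) (fun _ => zero_le_one) S.freq_nonneg hu hv.wide
  simp only [mul_one] at h
  exact h

lemma O.base_bilin {n : ℕ} {u : ι → ℝ × ℝ → V} {v : ι → ℝ × ℝ → W} (L : V →L[ℝ] W →L[ℝ] X)
    (hu : BaseBd S u) (hv : O S n v) : O S n (fun i p => L (u i p) (v i p)) := by
  have h := Bd.bilin L (fun _ => zero_le_one) (S.wt_nonneg n) S.freq_nonneg hu.wide hv
  simp only [one_mul] at h
  exact h

section Lift

variable {G H : ι → Ext → V}

lemma Sm.at (hG : Sm S G) (i : ι) {p : ℝ × ℝ} (hp : p ∈ S.dom i) :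
    ContDiffAt ℝ ∞ (G i) (0, p) :=
  (hG i).contDiffAt ((S.win_open i).mem_nhds (S.mem_win i p hp))

lemma Sm.dir (hG : Sm S G) (v : Ext) :
    Sm S (fun i q => fderiv ℝ (G i) q v) := fun i =>
  ((hG i).fderiv_of_isOpen (S.win_open i) (m := ∞) le_rfl).clm_apply contDiffOn_const

lemma Sm.lX (hG : Sm S G) : Sm S (Generic.lX G) := hG.dir _

lemma Sm.lY (hG : Sm S G) : Sm S (Generic.lY G) := hG.dir _

lemma Sm.add (hG : Sm S G) (hH : Sm S H) : Sm S (fun i q => G i q + H i q) :=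
  fun i => (hG i).add (hH i)

lemma Sm.bilin {u : ι → Ext → V} {v : ι → Ext → W} (L : V →L[ℝ] W →L[ℝ] X) (hu : Sm S u)
    (hv : Sm S v) : Sm S (fun i q => L (u i q) (v i q)) :=
  fun i => (L.contDiff.comp_contDiffOn (hu i)).clm_apply (hv i)

lemma Sm.contDiffOn_base0 (hG : Sm S G) (i : ι) : ContDiffOn ℝ ∞ (base0 G i) (S.dom i) :=
  fun p hp => ((hG.at i hp).comp p
    (contDiffAt_const.prodMk contDiffAt_id)).contDiffWithinAt

lemma base0_dir (hG : Sm S G) (i : ι) {p : ℝ × ℝ} (hp : p ∈ S.dom i) (v : ℝ × ℝ) :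
    fderiv ℝ (base0 G i) p v = fderiv ℝ (G i) (0, p) (0, v) := by
  have h1 : HasFDerivAt (fun q : ℝ × ℝ => ((0 : ℝ), q)) (ContinuousLinearMap.inr ℝ ℝ (ℝ × ℝ)) p :=
    (ContinuousLinearMap.inr ℝ ℝ (ℝ × ℝ)).hasFDerivAt
  have h2 := (((hG.at i hp).differentiableAt (by simp)).hasFDerivAt).comp p h1
  unfold base0
  erw [h2.fderiv]
  rfl

lemma base0_lX (hG : Sm S G) (i : ι) : EqOn (base0 (Generic.lX G) i) (dx (base0 G i)) (S.dom i) :=
  fun _ hp => (base0_dir hG i hp (1, 0)).symm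

lemma base0_lY (hG : Sm S G) (i : ι) : EqOn (base0 (Generic.lY G) i) (dy (base0 G i)) (S.dom i) :=
  fun _ hp => (base0_dir hG i hp (0, 1)).symm

lemma var1_eq_base0 : var1 G = base0 (fun i q => fderiv ℝ (G i) q (1, 0)) := rfl

lemma fderiv_dir_comm (hG : Sm S G) (i : ι) {p : ℝ × ℝ} (hp : p ∈ S.dom i) (u v : Ext) :
    fderiv ℝ (fun q => fderiv ℝ (G i) q v) (0, p) u =
      fderiv ℝ (fun q => fderiv ℝ (G i) q u) (0, p) v := by
  have h := hG.at i hp
  have hs : IsSymmSndFDerivAt ℝ (G i) (0, p) := h.isSymmSndFDerivAt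
    (by rw [minSmoothness_of_isRCLikeNormedField]; exact WithTop.coe_le_coe.mpr le_top)
  have hd : DifferentiableAt ℝ (fderiv ℝ (G i)) (0, p) :=
    (h.fderiv_right (m := ∞) le_rfl).differentiableAt (by simp)
  have e : ∀ u v : Ext, fderiv ℝ (fun q => fderiv ℝ (G i) q v) (0, p) u =
      fderiv ℝ (fderiv ℝ (G i)) (0, p) u v := fun u v => by
    rw [fderiv_clm_apply hd (differentiableAt_const v)]
    simp
  rw [e, e, hs.eq]

lemma var1_lX (hG : Sm S G) (i : ι) : EqOn (var1 (Generic.lX G) i) (dx (var1 G i)) (S.dom i) :=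
  fun p hp => (fderiv_dir_comm hG i hp (1, 0) (0, (1, 0))).trans
    (base0_dir (hG.dir (1, 0)) i hp (1, 0)).symm

lemma var1_lY (hG : Sm S G) (i : ι) : EqOn (var1 (Generic.lY G) i) (dy (var1 G i)) (S.dom i) :=
  fun p hp => (fderiv_dir_comm hG i hp (1, 0) (0, (0, 1))).trans
    (base0_dir (hG.dir (1, 0)) i hp (0, 1)).symm

lemma var1_add (hG : Sm S G) (hH : Sm S H) (i : ι) :
    EqOn (var1 (fun i q => G i q + H i q) i) (var1 G i + var1 H i) (S.dom i) := fun p hp => by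
  simp only [var1, Pi.add_apply]
  rw [fderiv_fun_add ((hG.at i hp).differentiableAt (by simp))
    ((hH.at i hp).differentiableAt (by simp))]
  rfl

lemma var1_bilin {u : ι → Ext → V} {v : ι → Ext → W} (L : V →L[ℝ] W →L[ℝ] X) (hu : Sm S u)
    (hv : Sm S v) (i : ι) :
    EqOn (var1 (fun i q => L (u i q) (v i q)) i)
      ((fun p => L (var1 u i p) (base0 v i p)) + fun p => L (base0 u i p) (var1 v i p))
      (S.dom i) := fun p hp => by
  have h1 : HasFDerivAt (fun q => L (u i q)) (L.comp (fderiv ℝ (u i) (0, p))) (0, p) :=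
    L.hasFDerivAt.comp (0, p) ((hu.at i hp).differentiableAt (by simp)).hasFDerivAt
  have h := (h1.clm_apply ((hv.at i hp).differentiableAt (by simp)).hasFDerivAt).fderiv
  simp only [var1, base0, Pi.add_apply]
  rw [h]
  simp [add_comm]

lemma var1_inv {u : ι → Ext → ℝ} (hu : Sm S u) (i : ι) {p : ℝ × ℝ} (hp : p ∈ S.dom i)
    (h0 : base0 u i p ≠ 0) : var1 (fun i q => (u i q)⁻¹) i p =
      -((base0 u i p)⁻¹ * (base0 u i p)⁻¹ * var1 u i p) := by
  have h := ((hasFDerivAt_inv h0).comp ((0 : ℝ), p)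
    ((hu.at i hp).differentiableAt (by simp)).hasFDerivAt).fderiv
  simp only [var1, base0] at *
  erw [h]
  simp [sq, mul_comm]

end Lift

section Expansion

variable (S)

/-- The derivative `∂x^a ∂y^b` of the scalar variation. -/
def zj (ζ : ι → ℝ × ℝ → ℝ) (a b : ℕ) (i : ι) : ℝ × ℝ → ℝ := pd a b (ζ i)

/-- A family whose variation is `c20 ζ(n+1,0) + c11 ζ(n,1) + c10 ζ(n,0)` modulo order `n`. -/
structure Exp (ζ : ι → ℝ × ℝ → ℝ) (n : ℕ) (G : ι → Ext → V)
    (c20 c11 : ι → ℝ × ℝ → V) : Prop where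
  sm : Sm S G
  base : BaseBd S (base0 G)
  top : BaseBd S c20
  cross : BaseBd S c11
  expand : ∃ c10 : ι → ℝ × ℝ → V, BaseBd S c10 ∧ O S n fun i p =>
    var1 G i p - (zj ζ (n + 1) 0 i p • c20 i p + zj ζ n 1 i p • c11 i p + zj ζ n 0 i p • c10 i p)

variable {S}
variable {ζ : ι → ℝ × ℝ → ℝ}

lemma zj_dx (hζ : ∀ i, ContDiffOn ℝ ∞ (ζ i) (S.dom i)) (a b : ℕ) (i : ι) :
    EqOn (dx (zj ζ a b i)) (zj ζ (a + 1) b i) (S.dom i) := by
  unfold zj pd
  rw [Function.iterate_succ_apply' (f := dx)]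
  induction b with
  | zero => exact fun _ _ => rfl
  | succ b ih =>
    intro p hp
    simp only [Function.iterate_succ_apply' (f := dy)]
    exact (dx_dy_comm (S.isOpen i) (contDiffOn_pd (S.isOpen i) (hζ i) a b) hp).trans
      (eqOn_dy (S.isOpen i) ih hp)

lemma zj_dy (a b : ℕ) (i : ι) : dy (zj ζ a b i) = zj ζ a (b + 1) i := by
  unfold zj pd
  rw [Function.iterate_succ_apply']

lemma O.zj (hζ : O S 1 ζ) (a b : ℕ) : O S (a + 1) (Generic.zj ζ a b) := by
  induction b with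
  | zero =>
    induction a with
    | zero => exact hζ
    | succ a ih => exact ih.dx.congr fun i p hp => (zj_dx hζ.smooth a 0 i hp).symm
  | succ b ih => exact ih.dy.congr fun i p _ => by rw [zj_dy]

lemma O.zj_smul (hζ : O S 1 ζ) (a b : ℕ) {n : ℕ} (h : a + 1 ≤ n) {c : ι → ℝ × ℝ → V}
    (hc : BaseBd S c) : O S n fun i p => Generic.zj ζ a b i p • c i p :=
  (O.bilin_base (ContinuousLinearMap.lsmul ℝ ℝ) (O.zj hζ a b) hc).mono h

variable {n : ℕ} {G H : ι → Ext → V} {c20 c11 d20 d11 : ι → ℝ × ℝ → V}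

lemma baseBd_const (c : V) : BaseBd S (fun _ _ => c) := by
  refine ⟨fun i => contDiffOn_const, fun a b => ?_⟩
  have hx : dx (fun _ : ℝ × ℝ => (0 : V)) = fun _ => 0 := by ext; simp [Generic.dx]
  have hy : dy (fun _ : ℝ × ℝ => (0 : V)) = fun _ => 0 := by ext; simp [Generic.dy]
  have hx1 : dx (fun _ : ℝ × ℝ => c) = fun _ => 0 := by ext; simp [Generic.dx]
  have hy1 : dy (fun _ : ℝ × ℝ => c) = fun _ => 0 := by ext; simp [Generic.dy]
  obtain ⟨k, hk⟩ : ∃ k : ℕ, ‖c‖ ≤ (2 : ℝ) ^ k :=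
    (pow_unbounded_of_one_lt ‖c‖ (by norm_num : (1 : ℝ) < 2)).imp fun _ h => h.le
  refine ⟨k, fun i p _ => ?_⟩
  have e : pd a b (fun _ : ℝ × ℝ => c) = fun _ => if a + b = 0 then c else 0 := by
    rcases a with _ | a
    · rcases b with _ | b
      · simp [pd]
      · simp [pd, hy1, Function.iterate_fixed hy b]
    · simp [pd, hx1, Function.iterate_fixed hx a, Function.iterate_fixed hy b]
  rw [e]
  simp only [one_pow, mul_one]
  exact le_trans (by split_ifs <;> simp) (hk.trans (pow_le_pow_left₀ (by norm_num) (S.two_le i) k))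

lemma baseBd_zero : BaseBd S (fun _ _ => (0 : V)) := baseBd_const 0

lemma BaseBd.clm {f : ι → ℝ × ℝ → V} (L : V →L[ℝ] W) (hf : BaseBd S f) :
    BaseBd S fun i p => L (f i p) :=
  BaseBd.bilin (ContinuousLinearMap.id ℝ (V →L[ℝ] W)) (baseBd_const L) hf

lemma O.clm {f : ι → ℝ × ℝ → V} (L : V →L[ℝ] W) (hf : O S n f) : O S n fun i p => L (f i p) :=
  O.base_bilin (ContinuousLinearMap.id ℝ (V →L[ℝ] W)) (baseBd_const L) hf

/-- Congruence on the windows. -/
lemma Exp.congr (h : Exp S ζ n G c20 c11) (e : ∀ i, EqOn (H i) (G i) (S.win i)) :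
    Exp S ζ n H c20 c11 := by
  obtain ⟨c10, h10, hO⟩ := h.expand
  refine ⟨fun i => (h.sm i).congr (e i),
    h.base.congr fun i p hp => e i (S.mem_win i p hp), h.top, h.cross, c10, h10,
    hO.congr fun i p hp => ?_⟩
  have := (Filter.eventuallyEq_of_mem ((S.win_open i).mem_nhds (S.mem_win i p hp)) (e i)).fderiv_eq
    (𝕜 := ℝ)
  simp only [var1, this]

/-- Change of the displayed coefficients on the domains. -/
lemma Exp.coeff (h : Exp S ζ n G c20 c11) (e1 : ∀ i, EqOn (d20 i) (c20 i) (S.dom i))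
    (e2 : ∀ i, EqOn (d11 i) (c11 i) (S.dom i)) : Exp S ζ n G d20 d11 := by
  obtain ⟨c10, h10, hO⟩ := h.expand
  exact ⟨h.sm, h.base, h.top.congr e1, h.cross.congr e2, c10, h10,
    hO.congr fun i p hp => by simp only [e1 i hp, e2 i hp]⟩

/-- A family whose variation is of order `n`. -/
lemma Exp.of_O (hs : Sm S G) (hb : BaseBd S (base0 G)) (hO : O S n (var1 G)) :
    Exp S ζ n G (fun _ _ => 0) (fun _ _ => 0) :=
  ⟨hs, hb, baseBd_zero, baseBd_zero, _, baseBd_zero, hO.congr fun i p _ => by simp⟩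

lemma Exp.lift (hζ : O S 1 ζ) (h : Exp S ζ n G c20 c11) :
    Exp S ζ (n + 1) G (fun _ _ => 0) (fun _ _ => 0) := by
  obtain ⟨c10, h10, hO⟩ := h.expand
  refine ⟨h.sm, h.base, baseBd_zero, baseBd_zero, c20, h.top,
    (((hO.mono n.le_succ).add (O.zj_smul hζ n 1 le_rfl h.cross)).add
      (O.zj_smul hζ n 0 le_rfl h10)).congr fun i p _ => ?_⟩
  simp only [Pi.add_apply, smul_zero, zero_add]
  abel

lemma Exp.lift_le (hζ : O S 1 ζ) (h : Exp S ζ n G c20 c11) {m : ℕ} (hnm : n < m) :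
    Exp S ζ m G (fun _ _ => 0) (fun _ _ => 0) := by
  induction m with
  | zero => omega
  | succ m ih =>
    rcases (Nat.lt_succ_iff.mp hnm).eq_or_lt with rfl | h'
    · exact h.lift hζ
    · exact (ih h').lift hζ

lemma Exp.add (h : Exp S ζ n G c20 c11) (h' : Exp S ζ n H d20 d11) :
    Exp S ζ n (fun i q => G i q + H i q) (fun i p => c20 i p + d20 i p)
      (fun i p => c11 i p + d11 i p) := by
  obtain ⟨c10, h10, hO⟩ := h.expand
  obtain ⟨d10, h10', hO'⟩ := h'.expand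
  refine ⟨h.sm.add h'.sm, h.base.add h'.base, h.top.add h'.top, h.cross.add h'.cross, _,
    h10.add h10', (hO.add hO').congr fun i p hp => ?_⟩
  simp only [var1_add h.sm h'.sm i hp, Pi.add_apply, smul_add]
  abel

lemma Exp.clm (L : V →L[ℝ] W) (h : Exp S ζ n G c20 c11) :
    Exp S ζ n (fun i q => L (G i q)) (fun i p => L (c20 i p)) (fun i p => L (c11 i p)) := by
  obtain ⟨c10, h10, hO⟩ := h.expand
  refine ⟨fun i => L.contDiff.comp_contDiffOn (h.sm i), h.base.clm L, h.top.clm L, h.cross.clm L,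
    _, h10.clm L, (hO.clm L).congr fun i p hp => ?_⟩
  have e : var1 (fun i q => L (G i q)) i p = L (var1 G i p) := by
    have := (L.hasFDerivAt.comp ((0 : ℝ), p)
      ((h.sm.at i hp).differentiableAt (by simp)).hasFDerivAt).fderiv
    simp only [var1]
    erw [this]
    rfl
  simp only [e, map_sub, map_add, map_smul]

lemma Exp.neg (h : Exp S ζ n G c20 c11) :
    Exp S ζ n (fun i q => -G i q) (fun i p => -c20 i p) (fun i p => -c11 i p) :=
  h.clm (-ContinuousLinearMap.id ℝ V)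

lemma Exp.sub (h : Exp S ζ n G c20 c11) (h' : Exp S ζ n H d20 d11) :
    Exp S ζ n (fun i q => G i q - H i q) (fun i p => c20 i p - d20 i p)
      (fun i p => c11 i p - d11 i p) := by
  simpa only [sub_eq_add_neg] using h.add h'.neg

lemma Exp.bilin {U : ι → Ext → V} {T : ι → Ext → W} {u20 u11 : ι → ℝ × ℝ → V}
    {t20 t11 : ι → ℝ × ℝ → W} (L : V →L[ℝ] W →L[ℝ] X) (h : Exp S ζ n U u20 u11)
    (h' : Exp S ζ n T t20 t11) :
    Exp S ζ n (fun i q => L (U i q) (T i q))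
      (fun i p => L (u20 i p) (base0 T i p) + L (base0 U i p) (t20 i p))
      (fun i p => L (u11 i p) (base0 T i p) + L (base0 U i p) (t11 i p)) := by
  obtain ⟨u10, hu, hO⟩ := h.expand
  obtain ⟨t10, ht, hO'⟩ := h'.expand
  refine ⟨h.sm.bilin L h'.sm, h.base.bilin L h'.base,
    (h.top.bilin L h'.base).add (h.base.bilin L h'.top),
    (h.cross.bilin L h'.base).add (h.base.bilin L h'.cross), _,
    (hu.bilin L h'.base).add (h.base.bilin L ht),
    ((O.bilin_base L hO h'.base).add (O.base_bilin L h.base hO')).congr fun i p hp => ?_⟩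
  simp only [var1_bilin L h.sm h'.sm i hp, Pi.add_apply, map_sub, map_add, map_smul,
    sub_apply, add_apply, smul_apply,
    smul_add]
  abel

lemma Exp.dx (hζ : O S 1 ζ) (h : Exp S ζ n G c20 c11) :
    Exp S ζ (n + 1) (Generic.lX G) c20 c11 := by
  obtain ⟨c10, h10, hO⟩ := h.expand
  refine ⟨h.sm.lX, h.base.dx.congr (fun i => base0_lX h.sm i), h.top, h.cross, _,
    h10.add h.top.dx, ((hO.dx.add (O.zj_smul hζ n 1 le_rfl h.cross.dx)).add
      (O.zj_smul hζ n 0 le_rfl h10.dx)).congr fun i p hp => ?_⟩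
  have d : ∀ (a b : ℕ) {c : ι → ℝ × ℝ → V}, BaseBd S c →
      Generic.dx (fun q => zj ζ a b i q • c i q) p
        = zj ζ (a + 1) b i p • c i p + zj ζ a b i p • Generic.dx (c i) p := fun a b c hc => by
    rw [← zj_dx hζ.smooth a b i hp]
    exact dx_bilin (ContinuousLinearMap.lsmul ℝ ℝ) (S.isOpen i) ((O.zj hζ a b).smooth i)
      (hc.smooth i) hp
  have s : ∀ (a b : ℕ) {c : ι → ℝ × ℝ → V}, BaseBd S c →
      ContDiffOn ℝ ∞ (fun q => zj ζ a b i q • c i q) (S.dom i) := fun a b c hc =>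
    ((O.zj hζ a b).smooth i).smul (hc.smooth i)
  have e : var1 G i = (fun q => var1 G i q - (zj ζ (n + 1) 0 i q • c20 i q + zj ζ n 1 i q • c11 i q
      + zj ζ n 0 i q • c10 i q)) + ((fun q => zj ζ (n + 1) 0 i q • c20 i q)
      + (fun q => zj ζ n 1 i q • c11 i q) + fun q => zj ζ n 0 i q • c10 i q) :=
    funext fun q => by simp
  have l : var1 (Generic.lX G) i p = Generic.dx (var1 G i) p := var1_lX h.sm i hp
  have t12 : ContDiffOn ℝ ∞ ((fun q => zj ζ (n + 1) 0 i q • c20 i q) +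
      fun q => zj ζ n 1 i q • c11 i q) (S.dom i) := (s _ _ h.top).add (s _ _ h.cross)
  have t123 : ContDiffOn ℝ ∞ (((fun q => zj ζ (n + 1) 0 i q • c20 i q) +
      fun q => zj ζ n 1 i q • c11 i q) + fun q => zj ζ n 0 i q • c10 i q) (S.dom i) :=
    t12.add (s _ _ h10)
  rw [e, dx_add (S.isOpen i) (hO.smooth i) t123 hp,
    Pi.add_apply, dx_add (S.isOpen i) t12 (s _ _ h10) hp,
    Pi.add_apply, dx_add (S.isOpen i) (s _ _ h.top) (s _ _ h.cross) hp, Pi.add_apply,
    d _ _ h.top, d _ _ h.cross, d _ _ h10] at l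
  simp only [l, Pi.add_apply, smul_add]
  abel

lemma Exp.dy (hζ : O S 1 ζ) (h : Exp S ζ n G c20 c11) :
    Exp S ζ (n + 1) (Generic.lY G) (fun _ _ => 0) c20 := by
  obtain ⟨c10, h10, hO⟩ := h.expand
  refine ⟨h.sm.lY, h.base.dy.congr (fun i => base0_lY h.sm i), baseBd_zero, h.top, _,
    h.top.dy, (((((hO.dy.mono n.le_succ).add (O.zj_smul hζ n 2 le_rfl h.cross)).add
      (O.zj_smul hζ n 1 le_rfl h.cross.dy)).add (O.zj_smul hζ n 1 le_rfl h10)).add
      (O.zj_smul hζ n 0 le_rfl h10.dy)).congr fun i p hp => ?_⟩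
  have d : ∀ (a b : ℕ) {c : ι → ℝ × ℝ → V}, BaseBd S c →
      Generic.dy (fun q => zj ζ a b i q • c i q) p
        = zj ζ a (b + 1) i p • c i p + zj ζ a b i p • Generic.dy (c i) p := fun a b c hc => by
    rw [← zj_dy a b i]
    exact dy_bilin (ContinuousLinearMap.lsmul ℝ ℝ) (S.isOpen i) ((O.zj hζ a b).smooth i)
      (hc.smooth i) hp
  have s : ∀ (a b : ℕ) {c : ι → ℝ × ℝ → V}, BaseBd S c →
      ContDiffOn ℝ ∞ (fun q => zj ζ a b i q • c i q) (S.dom i) := fun a b c hc =>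
    ((O.zj hζ a b).smooth i).smul (hc.smooth i)
  have e : var1 G i = (fun q => var1 G i q - (zj ζ (n + 1) 0 i q • c20 i q + zj ζ n 1 i q • c11 i q
      + zj ζ n 0 i q • c10 i q)) + ((fun q => zj ζ (n + 1) 0 i q • c20 i q)
      + (fun q => zj ζ n 1 i q • c11 i q) + fun q => zj ζ n 0 i q • c10 i q) :=
    funext fun q => by simp
  have l : var1 (Generic.lY G) i p = Generic.dy (var1 G i) p := var1_lY h.sm i hp
  have t12 : ContDiffOn ℝ ∞ ((fun q => zj ζ (n + 1) 0 i q • c20 i q) +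
      fun q => zj ζ n 1 i q • c11 i q) (S.dom i) := (s _ _ h.top).add (s _ _ h.cross)
  have t123 : ContDiffOn ℝ ∞ (((fun q => zj ζ (n + 1) 0 i q • c20 i q) +
      fun q => zj ζ n 1 i q • c11 i q) + fun q => zj ζ n 0 i q • c10 i q) (S.dom i) :=
    t12.add (s _ _ h10)
  rw [e, dy_add (S.isOpen i) (hO.smooth i) t123 hp,
    Pi.add_apply, dy_add (S.isOpen i) t12 (s _ _ h10) hp,
    Pi.add_apply, dy_add (S.isOpen i) (s _ _ h.top) (s _ _ h.cross) hp, Pi.add_apply,
    d _ _ h.top, d _ _ h.cross, d _ _ h10] at l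
  simp only [l, Pi.add_apply, smul_zero, zero_add]
  abel

/-- Inversion, with a lower bound by a power of the scale. -/
lemma Exp.inv {U : ι → Ext → ℝ} {u20 u11 : ι → ℝ × ℝ → ℝ} (h : Exp S ζ n U u20 u11)
    (hne : ∀ i, ∀ q ∈ S.win i, U i q ≠ 0) {k : ℕ}
    (hk : ∀ i, ∀ p ∈ S.dom i, 1 ≤ S.big i ^ k * |base0 U i p|) :
    Exp S ζ n (fun i q => (U i q)⁻¹)
      (fun i p => -((base0 U i p)⁻¹ * (base0 U i p)⁻¹ * u20 i p))
      (fun i p => -((base0 U i p)⁻¹ * (base0 U i p)⁻¹ * u11 i p)) := by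
  obtain ⟨u10, hu, hO⟩ := h.expand
  have hi : BaseBd S fun i p => (base0 U i p)⁻¹ := Bd.inv (fun _ => zero_le_one) h.base hk
  have hs : BaseBd S fun i p => -((base0 U i p)⁻¹ * (base0 U i p)⁻¹) :=
    (hi.bilin (ContinuousLinearMap.mul ℝ ℝ) hi).clm (-ContinuousLinearMap.id ℝ ℝ)
  have hm : ∀ {c : ι → ℝ × ℝ → ℝ}, BaseBd S c →
      BaseBd S fun i p => -((base0 U i p)⁻¹ * (base0 U i p)⁻¹ * c i p) := fun hc =>
    (hs.bilin (ContinuousLinearMap.mul ℝ ℝ) hc).congr fun i p _ => by simp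
  refine ⟨fun i => (h.sm i).inv (hne i), hi, hm h.top, hm h.cross, _, hm hu,
    (O.base_bilin (ContinuousLinearMap.mul ℝ ℝ) hs hO).congr fun i p hp => ?_⟩
  simp only [var1_inv h.sm i hp (hne i _ (S.mem_win i p hp)), smul_eq_mul,
    ContinuousLinearMap.mul_apply']
  ring

end Expansion

end

end Vale.Agent.P205.Generic
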